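import Vale.Agent.P287.H3.XRat

/-!
The cubic fourfold is birational to any field generated by a generic point of the cube surface.
-/

namespace Vale.Agent.P287.H3

open MvPolynomial H925

theorem xmain (D : Data18) (hs : IsSmooth D.form) {w : Fin 3 → ℂ} (hw : D.detX w ≠ 0)
    {M L Ω : Type} [Field M] [Field L] [Field Ω] [Algebra KK M] [Algebra ℂ L] [Algebra ℂ Ω]
    [Algebra KK Ω] [Algebra L Ω] [IsScalarTower ℂ KK Ω] [IsScalarTower ℂ L Ω] [CharZero Ω]
    {c : CubeData KK M} (e : Emb KK M Ω) (ι : (Fin 3 → KK) ≃ₗ[KK] M)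
    (hX : ∀ x : Fin 3 → KK, D.value x (D.star tvec x) = D.detX x * c.surf (ι x))
    {E : IntermediateField KK Ω} (hE : ∀ a, a ∈ E ↔ ∃ l : L, algebraMap L Ω l = a)
    (htr : (4 : Cardinal) ≤ Algebra.trdeg ℂ L) {y : Fin 2 → Ω} (hy : AlgebraicIndependent KK y)
    (hyE : ∀ i, y i ∈ E) (hdc : c.disc ≠ 0) {u : Fin 3 → Ω} (hu : u ∈ e.C.alg E)
    (hG : (e.cube c).G u = 0) (gen : ∀ F, u ∈ e.C.alg F → E ≤ F) :
    Nonempty (FractionRing (MvPolynomial (Fin 5) ℂ ⧸ Ideal.span {dehom D.form}) ≃ₐ[ℂ] L) := by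
  obtain ⟨x, hxE, rfl⟩ := e.exists_io ι hu
  have hd : (e.cube c).disc ≠ 0 := by
    rw [e.disc_cube]
    exact (map_ne_zero _).2 hdc
  have h0 : x 0 ≠ 0 := first_ne_zero e ι hy hyE hd hG gen
  have hind := indep_uv e ι hy hyE hd hG gen
  set xh : Fin 3 → Ω := ![1, x 1 / x 0, x 2 / x 0] with hxh
  have hd1 : D.detX xh ≠ 0 := by
    refine D.detX_ne_zero ?_ hw
    exact AlgebraicIndependent.restrictScalars (algebraMap ℂ KK).injective hind
  have hxx : x = fun j => x 0 * xh j := by
    funext j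
    fin_cases j
    · simp [xh]
    · simp [xh]; field_simp
    · simp [xh]; field_simp
  set τ : Fin 3 → Ω := fun j => algebraMap KK Ω (tvec j) with hτ
  have hτ0 : τ 0 = 1 := by simp [hτ, tvec]
  set yv : Fin 3 → Ω := D.star τ x with hyv
  have hval : D.value x yv = 0 := by
    rw [hyv, value_identity D e ι hX x, hG, mul_zero]
  have hyvE : ∀ k, yv k ∈ E := by
    have hτE : ∀ j, τ j ∈ E := fun j => E.algebraMap_mem _
    have hl : ∀ i k, D.left i x k ∈ E := by
      intro i k
      refine sum_mem fun j _ => E.mul_mem ?_ (hxE j)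
      have h1 : algebraMap ℂ Ω (D.A i j k) = algebraMap KK Ω (algebraMap ℂ KK (D.A i j k)) :=
        IsScalarTower.algebraMap_apply ℂ KK Ω _
      rw [h1]
      exact E.algebraMap_mem _
    have hcr : ∀ i i' k, cross (D.left i x) (D.left i' x) k ∈ E := by
      intro i i' k
      fin_cases k
      · exact E.sub_mem (E.mul_mem (hl _ _) (hl _ _)) (E.mul_mem (hl _ _) (hl _ _))
      · exact E.sub_mem (E.mul_mem (hl _ _) (hl _ _)) (E.mul_mem (hl _ _) (hl _ _))
      · exact E.sub_mem (E.mul_mem (hl _ _) (hl _ _)) (E.mul_mem (hl _ _) (hl _ _))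
    intro k
    exact E.add_mem (E.add_mem (E.mul_mem (hτE _) (hcr _ _ _)) (E.mul_mem (hτE _) (hcr _ _ _)))
      (E.mul_mem (hτE _) (hcr _ _ _))
  set z : Fin 5 → Ω := ![x 1 / x 0, x 2 / x 0, yv 0 / x 0, yv 1 / x 0, yv 2 / x 0] with hz
  have hzE : ∀ i, z i ∈ E := by
    intro i
    fin_cases i
    · exact E.div_mem (hxE 1) (hxE 0)
    · exact E.div_mem (hxE 2) (hxE 0)
    · exact E.div_mem (hyvE 0) (hxE 0)
    · exact E.div_mem (hyvE 1) (hxE 0)
    · exact E.div_mem (hyvE 2) (hxE 0)
  choose z' hz' using fun i => (hE (z i)).1 (hzE i)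
  -- the equation
  have hz0 : aeval z (dehom D.form) = 0 := by
    rw [aeval_dehom]
    have h1 := aeval_scale (S := Ω) D.isHomogeneous_form (x 0) (Fin.cons 1 z : Fin 6 → Ω)
    have h2 : (fun i => x 0 * (Fin.cons 1 z : Fin 6 → Ω) i) =
        ![x 0, x 1, x 2, yv 0, yv 1, yv 2] := by
      funext i
      refine Fin.cases ?_ (fun i => ?_) i
      · simp
      · fin_cases i
        · simp [z]; field_simp
        · simp [z]; field_simp
        · simp [z]; field_simp
        · simp [z]; field_simp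
        · simp [z]; field_simp
    rw [h2, D.aeval_form] at h1
    have h3 : D.value ![(![x 0, x 1, x 2, yv 0, yv 1, yv 2] : Fin 6 → Ω) 0,
        (![x 0, x 1, x 2, yv 0, yv 1, yv 2] : Fin 6 → Ω) 1,
        (![x 0, x 1, x 2, yv 0, yv 1, yv 2] : Fin 6 → Ω) 2]
        ![(![x 0, x 1, x 2, yv 0, yv 1, yv 2] : Fin 6 → Ω) 3,
        (![x 0, x 1, x 2, yv 0, yv 1, yv 2] : Fin 6 → Ω) 4,
        (![x 0, x 1, x 2, yv 0, yv 1, yv 2] : Fin 6 → Ω) 5] = D.value x yv := by
      congr 1
      · funext j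
        fin_cases j <;> rfl
      · funext j
        fin_cases j <;> rfl
    rw [h3, hval] at h1
    exact (mul_eq_zero.1 h1.symm).resolve_left (pow_ne_zero 3 h0)
  have hz0' : aeval z' (dehom D.form) = 0 := by
    apply (algebraMap L Ω).injective
    have h1 := MvPolynomial.comp_aeval_apply (f := z') (IsScalarTower.toAlgHom ℂ L Ω)
      (dehom D.form)
    have h2 : (fun i => (IsScalarTower.toAlgHom ℂ L Ω) (z' i)) = z := by
      funext i
      exact hz' i
    rw [h2, hz0] at h1
    rw [map_zero]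
    exact h1
  -- generation
  have hgen : IntermediateField.adjoin ℂ (Set.range z') = ⊤ := by
    set F0 := IntermediateField.adjoin ℂ (Set.range z') with hF0
    set F1 : IntermediateField ℂ Ω := F0.map (IsScalarTower.toAlgHom ℂ L Ω) with hF1
    have hzF : ∀ i, z i ∈ F1 := by
      intro i
      refine ⟨z' i, IntermediateField.subset_adjoin ℂ _ ⟨i, rfl⟩, hz' i⟩
    have hxhF : ∀ j, xh j ∈ F1 := by
      intro j
      fin_cases j
      · exact F1.one_mem
      · exact hzF 0
      · exact hzF 1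
    set yh : Fin 3 → Ω := ![z 2, z 3, z 4] with hyh
    have hyhF : ∀ j, yh j ∈ F1 := by
      intro j
      fin_cases j
      · exact hzF 2
      · exact hzF 3
      · exact hzF 4
    have hlF : ∀ i k, D.left i xh k ∈ F1 := fun i k => D.left_mem (L := L) hxhF i k
    have hdotF : ∀ {u v : Fin 3 → Ω}, (∀ j, u j ∈ F1) → (∀ j, v j ∈ F1) → dot u v ∈ F1 := by
      intro u v hu hv
      exact F1.add_mem (F1.add_mem (F1.mul_mem (hu 0) (hv 0)) (F1.mul_mem (hu 1) (hv 1)))
        (F1.mul_mem (hu 2) (hv 2))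
    have hcrF : ∀ i i' k, cross (D.left i xh) (D.left i' xh) k ∈ F1 := by
      intro i i' k
      fin_cases k
      · exact F1.sub_mem (F1.mul_mem (hlF _ _) (hlF _ _)) (F1.mul_mem (hlF _ _) (hlF _ _))
      · exact F1.sub_mem (F1.mul_mem (hlF _ _) (hlF _ _)) (F1.mul_mem (hlF _ _) (hlF _ _))
      · exact F1.sub_mem (F1.mul_mem (hlF _ _) (hlF _ _)) (F1.mul_mem (hlF _ _) (hlF _ _))
    have hdF : D.detX xh ∈ F1 := hdotF (hlF 0) (hcrF 1 2)
    have hyy : yh = fun k => x 0 * D.star τ xh k := by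
      funext k
      have h1 : ∀ k, yv k / x 0 = x 0 * D.star τ xh k := by
        intro k
        rw [hyv, hxx, D.star_smul]
        simp only [xh, Matrix.cons_val_zero, mul_one]
        field_simp
      fin_cases k
      · exact h1 0
      · exact h1 1
      · exact h1 2
    have hq : ∀ i, dot (D.left i xh) yh = x 0 * (τ i * D.detX xh) := by
      intro i
      rw [hyy, Data18.dot_mul, D.q_star]
    have hqF : ∀ i, dot (D.left i xh) yh ∈ F1 := fun i => hdotF (hlF i) hyhF
    have hx0F : x 0 ∈ F1 := by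
      have h1 : x 0 = dot (D.left 0 xh) yh / D.detX xh := by
        rw [hq 0, hτ0]
        field_simp
      rw [h1]
      exact F1.div_mem (hqF 0) hdF
    have hτF : ∀ i, τ i ∈ F1 := by
      intro i
      have h1 : τ i = dot (D.left i xh) yh / (x 0 * D.detX xh) := by
        rw [hq i]
        field_simp
      rw [h1]
      exact F1.div_mem (hqF i) (F1.mul_mem hx0F hdF)
    let F : IntermediateField KK Ω := F1.toSubfield.toIntermediateField
      (fun k => algebraMap_mem_of (F := F1) hτF k)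
    have hF : ∀ a, a ∈ F ↔ a ∈ F1 := fun a => Iff.rfl
    have hEF : E ≤ F := by
      apply gen
      apply e.io_mem
      intro j
      rw [hF, hxx]
      exact F1.mul_mem hx0F (hxhF j)
    rw [eq_top_iff]
    rintro l -
    have h1 : algebraMap L Ω l ∈ F1 := hEF ((hE _).2 ⟨l, rfl⟩)
    obtain ⟨l', hl', hll⟩ := h1
    have h2 : l' = l := (algebraMap L Ω).injective hll
    rw [← h2]
    exact hl'
  have hprime : Prime (dehom D.form) :=
    prime_dehom D.isHomogeneous_form
      (irreducible_of_smooth D.isHomogeneous_form hs).prime (not_dvd_X D.isHomogeneous_form)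
  exact fieldIso hprime hz0' hgen (by exact_mod_cast htr)

end Vale.Agent.P287.H3
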