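import Vale.Agent.P287.H3.NetPoint
import Vale.Agent.P287.H3.XMain

/-!
Rationality of cubic fourfolds from nets of type `G₂`.
-/

namespace Vale.Agent.P287.H3

open MvPolynomial H925

theorem main {D : Data18} (hs : IsSmooth D.form) (hw : ∃ w : Fin 3 → ℂ, D.detX w ≠ 0)
    {M N : Type} [Field M] [Field N] [Algebra KK M] [Algebra KK N]
    {c : CubeData KK M} (ι : (Fin 3 → KK) ≃ₗ[KK] M)
    (hX : ∀ x : Fin 3 → KK, D.value x (D.star tvec x) = D.detX x * c.surf (ι x))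
    {B : NetG2} (hf : ∃ j, B.f j 3 ≠ 0)
    (hdom : ∀ (d : ℕ) (P : MvPolynomial (Fin 3) ℂ), P.IsHomogeneous d →
      aeval (B.proj (X : Fin 4 → MvPolynomial (Fin 4) ℂ)) P = 0 → P = 0)
    {c' : CubeData KK N} (ι' : (Fin 3 → KK) ≃ₗ[KK] N)
    (hb : ∀ n : Fin 4 → KK, ∑ j, tvec j * B.Phi1 j n = 0 →
      ∑ j, tvec j * B.Phi2 j n = c'.surf (ι' ![n 0, n 1, n 2]))
    (φ : (N × N × N) ≃ₗ[KK] (M × M × M)) (l : KK)
    (hφ : ∀ u, c.normForm (φ u) = l * c'.normForm u) (an : ∀ u, c.normForm u = 0 → u = 0) :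
    IsRational D.form := by
  obtain ⟨w, hw⟩ := hw
  obtain ⟨h0, g, hg⟩ := exists_hom hdom
  let _ : Algebra KK LL := g.toRingHom.toAlgebra
  have : IsScalarTower ℂ KK LL := IsScalarTower.of_algebraMap_eq fun x => (g.commutes x).symm
  have hgm : ∀ k, algebraMap KK LL k = g k := fun k => rfl
  let Ω := AlgebraicClosure LL
  have : CharZero Ω := charZero_of_injective_algebraMap (algebraMap LL Ω).injective
  have h3M : Module.finrank KK M = 3 := by
    rw [← ι.finrank_eq]; simp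
  have h3N : Module.finrank KK N = 3 := by
    rw [← ι'.finrank_eq]; simp
  have : CharZero KK := charZero_of_injective_algebraMap (algebraMap ℂ KK).injective
  obtain ⟨e⟩ := exists_emb (K := KK) (M := M) (Ω := Ω) h3M
  obtain ⟨e'⟩ := exists_emb (K := KK) (M := N) (Ω := Ω) h3N
  obtain ⟨y', hy'⟩ := exists_pair
  let E : IntermediateField KK Ω := (IsScalarTower.toAlgHom KK LL Ω).fieldRange
  have hE : ∀ a, a ∈ E ↔ ∃ l : LL, algebraMap LL Ω l = a := fun a => Iff.rfl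
  have hy : AlgebraicIndependent KK ((IsScalarTower.toAlgHom KK LL Ω) ∘ y') :=
    hy'.map' (f := IsScalarTower.toAlgHom KK LL Ω) (algebraMap LL Ω).injective
  have hyE : ∀ i, ((IsScalarTower.toAlgHom KK LL Ω) ∘ y') i ∈ E := fun i => (hE _).2 ⟨y' i, rfl⟩
  obtain ⟨hG, hgen⟩ := net_point B hf e' ι' hb h0 (by
    intro j
    rw [IsScalarTower.algebraMap_apply KK LL Ω, ← map_mul, hgm, hg])
  have hxE : e'.io ι' (fun j => algebraMap LL Ω (nn j.castSucc)) ∈ e'.C.alg E :=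
    e'.io_mem ι' fun j => (hE _).2 ⟨_, rfl⟩
  have hgen' : ∀ F : IntermediateField KK Ω,
      e'.io ι' (fun j => algebraMap LL Ω (nn j.castSucc)) ∈ e'.C.alg F → E ≤ F := by
    intro F hF a ha
    obtain ⟨l, rfl⟩ := (hE _).1 ha
    exact hgen F hF l
  obtain ⟨u, hu, hGu, genu⟩ := transfer e' e hφ an hy hyE hxE hG hgen'
  have hd : c.disc ≠ 0 := by
    intro h
    apply aniso_disc (mkLink e' e c' c φ l hφ an).aniso
    change (e.cube c).disc = 0
    rw [e.disc_cube, h, map_zero]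
  exact xmain D hs hw e ι hX hE (by rw [trdeg_frac]; norm_num) hy hyE hd hu hGu genu

end Vale.Agent.P287.H3
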