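import Vale.Agent.P287.H3.Final

/-!
Cubic fourfolds with similar norm forms are birational.
-/

namespace Vale.Agent.P287.H3

open MvPolynomial H925

lemma Emb.isAlgebraic_vec {K M Ω : Type*} [Field K] [Field M] [Field Ω] [Algebra K M] [Algebra K Ω]
    (e : Emb K M Ω) [FiniteDimensional K M] (m : M) (i : Fin 3) : IsAlgebraic K (e.σ i m) :=
  (Algebra.IsAlgebraic.isAlgebraic m).algHom (e.σ i)

theorem birational_aniso {D D' : Data18} (hs : IsSmooth D.form) (hs' : IsSmooth D'.form)
    (hw : ∃ w : Fin 3 → ℂ, D.detX w ≠ 0) (hw' : ∃ w : Fin 3 → ℂ, D'.detX w ≠ 0)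
    {M N : Type} [Field M] [Field N] [Algebra KK M] [Algebra KK N]
    {c : CubeData KK M} {ι : (Fin 3 → KK) ≃ₗ[KK] M} (hX : D.IsCube ι c)
    {c' : CubeData KK N} {ι' : (Fin 3 → KK) ≃ₗ[KK] N} (hX' : D'.IsCube ι' c')
    (φ : (N × N × N) ≃ₗ[KK] (M × M × M)) {l : KK}
    (hφ : ∀ u, c.normForm (φ u) = l * c'.normForm u) (an : ∀ u, c.normForm u = 0 → u = 0) :
    Nonempty (FractionRing (MvPolynomial (Fin 5) ℂ ⧸ Ideal.span {dehom D.form}) ≃ₐ[ℂ]
      FractionRing (MvPolynomial (Fin 5) ℂ ⧸ Ideal.span {dehom D'.form})) := by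
  obtain ⟨w, hw⟩ := hw
  obtain ⟨w', hw'⟩ := hw'
  obtain ⟨g, hg1, hg2⟩ := exists_std
  let _ : Algebra KK LL := g.toRingHom.toAlgebra
  have : IsScalarTower ℂ KK LL := IsScalarTower.of_algebraMap_eq fun x => (g.commutes x).symm
  have hgm : ∀ k, algebraMap KK LL k = g k := fun k => rfl
  let Ω := AlgebraicClosure LL
  have : CharZero Ω := charZero_of_injective_algebraMap (algebraMap LL Ω).injective
  have h3M : Module.finrank KK M = 3 := by
    rw [← ι.finrank_eq]; simp
  have h3N : Module.finrank KK N = 3 := by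
    rw [← ι'.finrank_eq]; simp
  have hfdN : FiniteDimensional KK N := FiniteDimensional.of_finrank_pos (by omega)
  have hfdM : FiniteDimensional KK M := FiniteDimensional.of_finrank_pos (by omega)
  have : CharZero KK := charZero_of_injective_algebraMap (algebraMap ℂ KK).injective
  obtain ⟨e⟩ := exists_emb (K := KK) (M := M) (Ω := Ω) h3M
  obtain ⟨e'⟩ := exists_emb (K := KK) (M := N) (Ω := Ω) h3N
  obtain ⟨y', hy'⟩ := exists_pair
  let E0 : IntermediateField KK Ω := (IsScalarTower.toAlgHom KK LL Ω).fieldRange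
  have hE0 : ∀ a, a ∈ E0 ↔ ∃ l : LL, algebraMap LL Ω l = a := fun a => Iff.rfl
  have hy : AlgebraicIndependent KK ((IsScalarTower.toAlgHom KK LL Ω) ∘ y') :=
    hy'.map' (f := IsScalarTower.toAlgHom KK LL Ω) (algebraMap LL Ω).injective
  have hyE : ∀ i, ((IsScalarTower.toAlgHom KK LL Ω) ∘ y') i ∈ E0 := fun i => (hE0 _).2 ⟨y' i, rfl⟩
  set p : Ω := algebraMap LL Ω (nn 2) with hp
  set q : Ω := algebraMap LL Ω (nn 3) with hq
  have hall : ∀ F : IntermediateField KK Ω, p ∈ F → q ∈ F → E0 ≤ F := by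
    intro F h1 h2 a ha
    obtain ⟨l, rfl⟩ := (hE0 _).1 ha
    apply mem_of_nn
    intro i
    fin_cases i
    · change algebraMap LL Ω (nn 0) ∈ F
      rw [← hg1, ← hgm, ← IsScalarTower.algebraMap_apply KK LL Ω]
      exact F.algebraMap_mem _
    · change algebraMap LL Ω (nn 1) ∈ F
      rw [← hg2, ← hgm, ← IsScalarTower.algebraMap_apply KK LL Ω]
      exact F.algebraMap_mem _
    · exact h1
    · exact h2
  have hpq : AlgebraicIndependent KK ![p, q] := by
    apply indep_pair hy hyE
    exact hall _ (subset_CL _ (by simp)) (subset_CL _ (by simp))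
  -- anisotropy of the second cube
  have hc'an : ∀ u, c'.normForm u = 0 → u = 0 := by
    intro u hu
    have h1 := hφ u
    rw [hu, mul_zero] at h1
    have h2 := an _ h1
    exact (map_eq_zero_iff φ φ.injective).1 h2
  have ha' : c'.a ≠ 0 := by
    intro h
    have h1 := hc'an (0, 1, 0) (by simp [CubeData.normForm, CubeData.cubic, h, adj, Algebra.norm_zero])
    simp at h1
  have hb' : c'.b ≠ 0 := by
    intro h
    have h1 := hc'an (0, 0, 1) (by simp [CubeData.normForm, CubeData.cubic, h, adj, Algebra.norm_zero])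
    simp at h1
  have hd' : c'.disc ≠ 0 := by
    intro h
    have h1 := hc'an (1, 0, 0) (by simp [CubeData.normForm, CubeData.cubic, CubeData.quad, h, adj,
      Algebra.norm_zero])
    simp at h1
  have hd : c.disc ≠ 0 := by
    intro h
    have h1 := an (1, 0, 0) (by simp [CubeData.normForm, CubeData.cubic, CubeData.quad, h, adj,
      Algebra.norm_zero])
    simp at h1
  -- a generic point of the surface of the second cube
  set z : Fin 3 → Ω := ![1, p, q] with hz
  set w0 := e'.io ι' z with hw0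
  have hw0i : ∀ i, w0 i ≠ 0 := by
    intro i h0
    rw [hw0, Emb.io_apply] at h0
    simp only [hz, Matrix.cons_val_zero, Matrix.cons_val_one, Matrix.cons_val, one_mul] at h0
    have halg : ∀ j, e'.iv ι' j i ∈ CL KK {p} := fun j => algebraicClosure_le_CL _
      ((mem_algebraicClosure_iff).2 (e'.isAlgebraic_vec _ i))
    have h2 : e'.iv ι' 2 i ≠ 0 := by
      intro h
      have h3 : e'.σ i (ι' (Pi.single 2 1)) = 0 := h
      rw [map_eq_zero, LinearEquiv.map_eq_zero_iff] at h3
      have h4 := congrFun h3 2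
      simp at h4
    have h3 : q = -(e'.iv ι' 0 i + p * e'.iv ι' 1 i) / e'.iv ι' 2 i := by
      rw [eq_div_iff h2]
      linear_combination h0
    have hpm : p ∈ CL KK {p} := subset_CL _ (by simp)
    have h4 : q ∈ CL KK {p} := by
      rw [h3]
      exact (CL KK {p}).div_mem ((CL KK {p}).neg_mem ((CL KK {p}).add_mem (halg 0)
        ((CL KK {p}).mul_mem hpm (halg 1)))) (halg 2)
    exact not_le_CL hy hyE p (hall _ hpm h4)
  have hN0 : nm w0 ≠ 0 := by
    rw [nm]
    exact mul_ne_zero (mul_ne_zero (hw0i 0) (hw0i 1)) (hw0i 2)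
  have hmapa : (e'.cube c').a = algebraMap KK Ω c'.a := rfl
  have hmapb : (e'.cube c').b = algebraMap KK Ω c'.b := rfl
  have hroot : ∃ lam : Ω, (e'.cube c').a + tr ((e'.cube c').α * w0) * lam +
      tr ((e'.cube c').β * sharp w0) * lam ^ 2 + (e'.cube c').b * nm w0 * lam ^ 3 = 0 := by
    set f : Polynomial Ω := Polynomial.C ((e'.cube c').b * nm w0) * Polynomial.X ^ 3 +
      Polynomial.C (tr ((e'.cube c').β * sharp w0)) * Polynomial.X ^ 2 +
      Polynomial.C (tr ((e'.cube c').α * w0)) * Polynomial.X +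
      Polynomial.C ((e'.cube c').a) with hf
    have hb3 : (e'.cube c').b * nm w0 ≠ 0 := by
      rw [hmapb]
      exact mul_ne_zero ((map_ne_zero _).2 hb') hN0
    have hdeg : f.degree ≠ 0 := by
      rw [hf, Polynomial.degree_cubic hb3]
      norm_num
    obtain ⟨lam, hlam⟩ := IsAlgClosed.exists_root f hdeg
    refine ⟨lam, ?_⟩
    have h1 : f.eval lam = 0 := hlam
    rw [hf] at h1
    simp only [Polynomial.eval_add, Polynomial.eval_mul, Polynomial.eval_C, Polynomial.eval_pow,
      Polynomial.eval_X] at h1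
    linear_combination h1
  obtain ⟨lam, hlam⟩ := hroot
  have hlam0 : lam ≠ 0 := by
    intro h
    rw [h, hmapa] at hlam
    simp at hlam
    exact ha' hlam
  have hG : (e'.cube c').G (e'.io ι' (lam • z)) = 0 := by
    rw [map_smul, ← hw0, ← hlam]
    simp [Cube.G, tr, nm, sharp]; ring
  let E : IntermediateField KK Ω := IntermediateField.adjoin KK {lam, p, q}
  have hlE : lam ∈ E := IntermediateField.subset_adjoin _ _ (by simp)
  have hpE : p ∈ E := IntermediateField.subset_adjoin _ _ (by simp)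
  have hqE : q ∈ E := IntermediateField.subset_adjoin _ _ (by simp)
  have hxE : e'.io ι' (lam • z) ∈ e'.C.alg E := by
    apply e'.io_mem
    intro j
    fin_cases j
    · simpa [z] using hlE
    · simpa [z] using E.mul_mem hlE hpE
    · simpa [z] using E.mul_mem hlE hqE
  have hgen : ∀ F : IntermediateField KK Ω, e'.io ι' (lam • z) ∈ e'.C.alg F → E ≤ F := by
    intro F hF
    have h0 := e'.mem_of_io_mem ι' hF
    have h1 : lam ∈ F := by simpa [z] using h0 0
    have h2 : lam * p ∈ F := by simpa [z] using h0 1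
    have h3 : lam * q ∈ F := by simpa [z] using h0 2
    rw [IntermediateField.adjoin_le_iff]
    rintro a (rfl | rfl | rfl)
    · exact h1
    · have h4 := F.div_mem h2 h1
      rwa [mul_div_cancel_left₀ _ hlam0] at h4
    · have h4 := F.div_mem h3 h1
      rwa [mul_div_cancel_left₀ _ hlam0] at h4
  have hE0E : E0 ≤ E := hall E hpE hqE
  have hpqE : ∀ i, (![p, q] : Fin 2 → Ω) i ∈ E := by
    intro i
    fin_cases i
    · exact hpE
    · exact hqE
  obtain ⟨u, hu, hGu, genu⟩ := transfer e' e hφ an hpq hpqE hxE hG hgen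
  have hE : ∀ a, a ∈ E ↔ ∃ l : E, algebraMap E Ω l = a :=
    fun a => ⟨fun h => ⟨⟨a, h⟩, rfl⟩, by rintro ⟨l, rfl⟩; exact l.2⟩
  have hst : IsScalarTower ℂ E Ω := IsScalarTower.of_algebraMap_eq fun x => rfl
  have htr : (4 : Cardinal) ≤ Algebra.trdeg ℂ E := by
    let j : LL →ₐ[ℂ] E :=
      { toFun := fun l => ⟨algebraMap LL Ω l, hE0E ((hE0 _).2 ⟨l, rfl⟩)⟩
        map_one' := Subtype.ext (map_one _)
        map_mul' := fun a b => Subtype.ext (map_mul _ a b)
        map_zero' := Subtype.ext (map_zero _)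
        map_add' := fun a b => Subtype.ext (map_add _ a b)
        commutes' := fun r => Subtype.ext (by
          change algebraMap LL Ω (algebraMap ℂ LL r) = algebraMap ℂ Ω r
          rw [← IsScalarTower.algebraMap_apply ℂ LL Ω]) }
    have h1 := _root_.trdeg_le_of_injective j j.toRingHom.injective
    rw [trdeg_frac] at h1
    exact_mod_cast h1
  obtain ⟨e1⟩ := xmain D hs hw e ι hX hE htr hpq hpqE hd hu hGu genu
  obtain ⟨e2⟩ := xmain D' hs' hw' e' ι' hX' hE htr hpq hpqE hd' hxE hG hgen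
  exact ⟨e1.trans e2.symm⟩

end Vale.Agent.P287.H3
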