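import Vale.Agent.P287.H3.Cub

/-!
Coordinates in cubic algebras; the field property.
-/

namespace Vale.Agent.P287.H3

variable {K Ω : Type*} [Field K] [Field Ω] [Algebra K Ω]

/-- three distinct roots -/
lemma van {x : Fin 3 → Ω} (hx : Function.Injective x) {a b c : Ω}
    (h : ∀ i, a + b * x i + c * x i ^ 2 = 0) : a = 0 ∧ b = 0 ∧ c = 0 := by
  have h01 : x 0 - x 1 ≠ 0 := sub_ne_zero.2 fun h => by simpa using hx h
  have h02 : x 0 - x 2 ≠ 0 := sub_ne_zero.2 fun h => by simpa using hx h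
  have h12 : x 1 - x 2 ≠ 0 := sub_ne_zero.2 fun h => by simpa using hx h
  have e0 := h 0
  have e1 := h 1
  have e2 := h 2
  have f1 : (x 0 - x 1) * (b + c * (x 0 + x 1)) = 0 := by linear_combination e0 - e1
  have f2 : (x 0 - x 2) * (b + c * (x 0 + x 2)) = 0 := by linear_combination e0 - e2
  have g1 := (mul_eq_zero.1 f1).resolve_left h01
  have g2 := (mul_eq_zero.1 f2).resolve_left h02
  have k1 : (x 1 - x 2) * c = 0 := by linear_combination g1 - g2
  have hc := (mul_eq_zero.1 k1).resolve_left h12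
  subst hc
  have hb : b = 0 := by linear_combination g1
  subst hb
  refine ⟨?_, rfl, rfl⟩
  linear_combination e0

namespace Cub

variable {M : Cub K Ω} {F : IntermediateField K Ω}

/-- uniqueness of coordinates -/
lemma coord_mem {u : Fin 3 → Ω} (hu : u ∈ M.alg F) {a b c : Ω}
    (h : ∀ i, u i = a + b * M.ξ i + c * M.ξ i ^ 2) : a ∈ F ∧ b ∈ F ∧ c ∈ F := by
  obtain ⟨a', ha', b', hb', c', hc', h'⟩ := hu
  obtain ⟨h1, h2, h3⟩ := van M.inj (a := a - a') (b := b - b') (c := c - c') (by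
    intro i
    linear_combination (h' i) - (h i))
  rw [sub_eq_zero] at h1 h2 h3
  subst h1 h2 h3
  exact ⟨ha', hb', hc'⟩

/-- every triple has coordinates -/
lemma exists_coord (M : Cub K Ω) (u : Fin 3 → Ω) :
    ∃ a b c : Ω, (∀ i, u i = a + b * M.ξ i + c * M.ξ i ^ 2) ∧
      ∀ F : IntermediateField K Ω, (∀ i, M.ξ i ∈ F) → (∀ i, u i ∈ F) → a ∈ F ∧ b ∈ F ∧ c ∈ F := by
  have h01 : M.ξ 0 - M.ξ 1 ≠ 0 := sub_ne_zero.2 fun h => by simpa using M.inj h
  have h02 : M.ξ 0 - M.ξ 2 ≠ 0 := sub_ne_zero.2 fun h => by simpa using M.inj h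
  have h12 : M.ξ 1 - M.ξ 2 ≠ 0 := sub_ne_zero.2 fun h => by simpa using M.inj h
  set x := M.ξ with hx
  -- divided differences
  set d1 := (u 0 - u 1) / (x 0 - x 1) with hd1
  set d2 := (u 1 - u 2) / (x 1 - x 2) with hd2
  set c := (d1 - d2) / (x 0 - x 2) with hc
  have e1 : d1 * (x 0 - x 1) = u 0 - u 1 := by rw [hd1]; field_simp
  have e2 : d2 * (x 1 - x 2) = u 1 - u 2 := by rw [hd2]; field_simp
  have e3 : c * (x 0 - x 2) = d1 - d2 := by rw [hc]; field_simp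
  refine ⟨u 0 - (d1 - c * (x 0 + x 1)) * x 0 - c * x 0 ^ 2, d1 - c * (x 0 + x 1), c, ?_, ?_⟩
  · rw [forall3]
    refine ⟨by ring, ?_, ?_⟩
    · linear_combination e1
    · linear_combination e1 + e2 - (x 1 - x 2) * e3
  · intro F hF hu
    have m1 : d1 ∈ F := F.div_mem (F.sub_mem (hu 0) (hu 1)) (F.sub_mem (hF 0) (hF 1))
    have m2 : d2 ∈ F := F.div_mem (F.sub_mem (hu 1) (hu 2)) (F.sub_mem (hF 1) (hF 2))
    have m3 : c ∈ F := F.div_mem (F.sub_mem m1 m2) (F.sub_mem (hF 0) (hF 2))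
    have m4 : d1 - c * (x 0 + x 1) ∈ F :=
      F.sub_mem m1 (F.mul_mem m3 (F.add_mem (hF 0) (hF 1)))
    exact ⟨F.sub_mem (F.sub_mem (hu 0) (F.mul_mem m4 (hF 0))) (F.mul_mem m3 (pow_mem (hF 0) 2)),
      m4, m3⟩

lemma mem_of_coords (hF : ∀ i, M.ξ i ∈ F) {u : Fin 3 → Ω} (hu : ∀ i, u i ∈ F) : u ∈ M.alg F := by
  obtain ⟨a, b, c, h, h'⟩ := M.exists_coord u
  obtain ⟨ha, hb, hc⟩ := h' F hF hu
  exact ⟨a, ha, b, hb, c, hc, h⟩

lemma coords_of_mem (hF : ∀ i, M.ξ i ∈ F) {u : Fin 3 → Ω} (hu : u ∈ M.alg F) (i : Fin 3) :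
    u i ∈ F := by
  obtain ⟨a, ha, b, hb, c, hc, h⟩ := hu
  rw [h]
  exact F.add_mem (F.add_mem ha (F.mul_mem hb (hF i))) (F.mul_mem hc (pow_mem (hF i) 2))

/-- The field property: if no `ξ i` lies in `F`, the algebra `M.alg F` is a field. -/
theorem eq_zero (hF : ∀ i, M.ξ i ∉ F) {u : Fin 3 → Ω} (hu : u ∈ M.alg F) {i : Fin 3}
    (h0 : u i = 0) : u = 0 := by
  obtain ⟨a, ha, b, hb, c, hc, h⟩ := hu
  have hp := F.algebraMap_mem M.p
  have hq := F.algebraMap_mem M.q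
  have hr := F.algebraMap_mem M.r
  rw [h] at h0
  have lin : ∀ f ∈ F, ∀ g ∈ F, f * M.ξ i + g = 0 → f = 0 ∧ g = 0 := by
    intro f hf g hg hfg
    by_cases hf0 : f = 0
    · subst hf0
      exact ⟨rfl, by linear_combination hfg⟩
    · exfalso
      apply hF i
      have : M.ξ i = -g / f := by
        field_simp
        linear_combination hfg
      rw [this]
      exact F.div_mem (F.neg_mem hg) hf
  have key : a = 0 ∧ b = 0 ∧ c = 0 := by
    by_cases hc0 : c = 0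
    · subst hc0
      obtain ⟨h1, h2⟩ := lin b hb a ha (by linear_combination h0)
      exact ⟨h2, h1, rfl⟩
    · exfalso
      have h3 := M.cube i
      set P := algebraMap K Ω M.p with hP
      set Q := algebraMap K Ω M.q with hQ
      set R := algebraMap K Ω M.r with hR
      set β := b / c with hβ
      set γ := a / c with hγ
      have mβ : β ∈ F := F.div_mem hb hc
      have mγ : γ ∈ F := F.div_mem ha hc
      have h4 : M.ξ i ^ 2 + β * M.ξ i + γ = 0 := by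
        rw [hβ, hγ]
        field_simp
        linear_combination h0
      obtain ⟨h5, h6⟩ := lin (Q - γ + β * (P + β))
        (F.add_mem (F.sub_mem hq mγ) (F.mul_mem mβ (F.add_mem hp mβ)))
        (-R + γ * (P + β)) (F.add_mem (F.neg_mem hr) (F.mul_mem mγ (F.add_mem hp mβ)))
        (by linear_combination h3 - (M.ξ i - (P + β)) * h4)
      have h7 : (P + β - M.ξ 0) * (P + β - M.ξ 1) * (P + β - M.ξ 2) = 0 := by
        have e1 : M.ξ 0 + M.ξ 1 + M.ξ 2 = P := M.h1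
        have e2 : M.ξ 0 * M.ξ 1 + M.ξ 0 * M.ξ 2 + M.ξ 1 * M.ξ 2 = Q := M.h2
        have e3 : M.ξ 0 * M.ξ 1 * M.ξ 2 = R := M.h3
        have e4 : (P + β - M.ξ 0) * (P + β - M.ξ 1) * (P + β - M.ξ 2) =
          (P + β) ^ 3 - (M.ξ 0 + M.ξ 1 + M.ξ 2) * (P + β) ^ 2 +
            (M.ξ 0 * M.ξ 1 + M.ξ 0 * M.ξ 2 + M.ξ 1 * M.ξ 2) * (P + β) -
            M.ξ 0 * M.ξ 1 * M.ξ 2 := by ring
        rw [e4, e1, e2, e3]
        linear_combination (P + β) * h5 + h6
      have m : P + β ∈ F := F.add_mem hp mβ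
      rcases mul_eq_zero.1 h7 with h8 | h8
      · rcases mul_eq_zero.1 h8 with h9 | h9
        · exact hF 0 ((sub_eq_zero.1 h9) ▸ m)
        · exact hF 1 ((sub_eq_zero.1 h9) ▸ m)
      · exact hF 2 ((sub_eq_zero.1 h8) ▸ m)
  obtain ⟨rfl, rfl, rfl⟩ := key
  funext j
  rw [h]; simp

lemma ne_zero_apply (hF : ∀ i, M.ξ i ∉ F) {u : Fin 3 → Ω} (hu : u ∈ M.alg F) (h0 : u ≠ 0)
    (i : Fin 3) : u i ≠ 0 := fun h => h0 (eq_zero hF hu h)

end Cub

end Vale.Agent.P287.H3
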