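import Mathlib

/-!
Cubic algebras inside `Ω³`.
-/

namespace Vale.Agent.P287.H3

section Basic

variable {Ω : Type*} [Field Ω]

/-- the adjoint of a triple -/
def sharp (u : Fin 3 → Ω) : Fin 3 → Ω := ![u 1 * u 2, u 0 * u 2, u 0 * u 1]

/-- the trace of a triple -/
def tr (u : Fin 3 → Ω) : Ω := u 0 + u 1 + u 2

/-- the norm of a triple -/
def nm (u : Fin 3 → Ω) : Ω := u 0 * u 1 * u 2

/-- the quadratic trace of a triple -/
def e2 (u : Fin 3 → Ω) : Ω := u 0 * u 1 + u 0 * u 2 + u 1 * u 2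

lemma forall3 {P : Fin 3 → Prop} : (∀ i, P i) ↔ P 0 ∧ P 1 ∧ P 2 := by
  constructor
  · intro h; exact ⟨h 0, h 1, h 2⟩
  · rintro ⟨h0, h1, h2⟩ i
    fin_cases i
    · exact h0
    · exact h1
    · exact h2

lemma cayley (u : Fin 3 → Ω) (i : Fin 3) :
    u i ^ 3 - tr u * u i ^ 2 + e2 u * u i - nm u = 0 := by
  fin_cases i <;> simp [tr, e2, nm] <;> ring

lemma sharp_apply (u : Fin 3 → Ω) (i : Fin 3) :
    sharp u i = u i ^ 2 - tr u * u i + e2 u := by
  fin_cases i <;> simp [tr, e2, sharp] <;> ring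

lemma two_e2 (u : Fin 3 → Ω) : 2 * e2 u = tr u ^ 2 - tr (u * u) := by
  simp [tr, e2]; ring

lemma six_nm (u : Fin 3 → Ω) : 6 * nm u = tr u ^ 3 - 3 * tr u * tr (u * u) + 2 * tr (u * u * u) := by
  simp [tr, nm]; ring

lemma mul_sharp (u : Fin 3 → Ω) (i : Fin 3) : u i * sharp u i = nm u := by
  fin_cases i <;> simp [nm, sharp] <;> ring

lemma tr_add (u v : Fin 3 → Ω) : tr (u + v) = tr u + tr v := by simp [tr]; ring

lemma tr_smul (c : Ω) (u : Fin 3 → Ω) : tr (c • u) = c * tr u := by simp [tr]; ring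

lemma nm_ne_zero {u : Fin 3 → Ω} (h : ∀ i, u i ≠ 0) : nm u ≠ 0 :=
  mul_ne_zero (mul_ne_zero (h 0) (h 1)) (h 2)

end Basic

/-- Three distinct elements of `Ω` which are the roots of a cubic polynomial over `K`. -/
structure Cub (K Ω : Type*) [Field K] [Field Ω] [Algebra K Ω] where
  ξ : Fin 3 → Ω
  p : K
  q : K
  r : K
  h1 : tr ξ = algebraMap K Ω p
  h2 : e2 ξ = algebraMap K Ω q
  h3 : nm ξ = algebraMap K Ω r
  inj : Function.Injective ξ

variable {K Ω : Type*} [Field K] [Field Ω] [Algebra K Ω]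

namespace Cub

variable (M : Cub K Ω)

lemma cube (i : Fin 3) : M.ξ i ^ 3 =
    algebraMap K Ω M.p * M.ξ i ^ 2 - algebraMap K Ω M.q * M.ξ i + algebraMap K Ω M.r := by
  have h := cayley M.ξ i
  rw [M.h1, M.h2, M.h3] at h
  linear_combination h

/-- The `F`-span of `1, ξ, ξ²` in `Ω³`. -/
def alg (F : IntermediateField K Ω) : Subalgebra F (Fin 3 → Ω) where
  carrier := {u | ∃ a ∈ F, ∃ b ∈ F, ∃ c ∈ F, ∀ i, u i = a + b * M.ξ i + c * M.ξ i ^ 2}
  mul_mem' := by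
    rintro u v ⟨a, ha, b, hb, c, hc, hu⟩ ⟨a', ha', b', hb', c', hc', hv⟩
    have hp := F.algebraMap_mem M.p
    have hq := F.algebraMap_mem M.q
    have hr := F.algebraMap_mem M.r
    set P := algebraMap K Ω M.p with hP
    set Q := algebraMap K Ω M.q with hQ
    set R := algebraMap K Ω M.r with hR
    -- coefficients of ξ³ and ξ⁴
    refine ⟨a * a' + (b * c' + c * b') * R + c * c' * (P * R), ?_,
      a * b' + b * a' + (b * c' + c * b') * (-Q) + c * c' * (R - P * Q), ?_,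
      a * c' + b * b' + c * a' + (b * c' + c * b') * P + c * c' * (P * P - Q), ?_, ?_⟩
    · exact F.add_mem (F.add_mem (F.mul_mem ha ha') (F.mul_mem (F.add_mem (F.mul_mem hb hc')
        (F.mul_mem hc hb')) hr)) (F.mul_mem (F.mul_mem hc hc') (F.mul_mem hp hr))
    · exact F.add_mem (F.add_mem (F.add_mem (F.mul_mem ha hb') (F.mul_mem hb ha'))
        (F.mul_mem (F.add_mem (F.mul_mem hb hc') (F.mul_mem hc hb')) (F.neg_mem hq)))
        (F.mul_mem (F.mul_mem hc hc') (F.sub_mem hr (F.mul_mem hp hq)))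
    · exact F.add_mem (F.add_mem (F.add_mem (F.add_mem (F.mul_mem ha hc') (F.mul_mem hb hb'))
        (F.mul_mem hc ha')) (F.mul_mem (F.add_mem (F.mul_mem hb hc') (F.mul_mem hc hb')) hp))
        (F.mul_mem (F.mul_mem hc hc') (F.sub_mem (F.mul_mem hp hp) hq))
    · intro i
      have h3 := M.cube i
      rw [← hP, ← hQ, ← hR] at h3
      rw [Pi.mul_apply, hu, hv]
      linear_combination (b * c' + c * b' + c * c' * (M.ξ i + P)) * h3
  add_mem' := by
    rintro u v ⟨a, ha, b, hb, c, hc, hu⟩ ⟨a', ha', b', hb', c', hc', hv⟩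
    refine ⟨a + a', F.add_mem ha ha', b + b', F.add_mem hb hb', c + c', F.add_mem hc hc', ?_⟩
    intro i
    rw [Pi.add_apply, hu, hv]; ring
  algebraMap_mem' := by
    intro f
    refine ⟨f, f.2, 0, F.zero_mem, 0, F.zero_mem, ?_⟩
    intro i
    rw [zero_mul, zero_mul, add_zero, add_zero]
    rfl

variable {M} {F : IntermediateField K Ω}

lemma mem_alg {u : Fin 3 → Ω} :
    u ∈ M.alg F ↔ ∃ a ∈ F, ∃ b ∈ F, ∃ c ∈ F, ∀ i, u i = a + b * M.ξ i + c * M.ξ i ^ 2 := Iff.rfl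

lemma mono {F' : IntermediateField K Ω} (h : F ≤ F') {u : Fin 3 → Ω} (hu : u ∈ M.alg F) :
    u ∈ M.alg F' := by
  obtain ⟨a, ha, b, hb, c, hc, h1⟩ := hu
  exact ⟨a, h ha, b, h hb, c, h hc, h1⟩

lemma const_mem {f : Ω} (hf : f ∈ F) : (fun _ => f) ∈ M.alg F :=
  ⟨f, hf, 0, F.zero_mem, 0, F.zero_mem, fun i => by simp⟩

lemma smul_mem' {f : Ω} (hf : f ∈ F) {u : Fin 3 → Ω} (hu : u ∈ M.alg F) : f • u ∈ M.alg F :=
  (M.alg F).mul_mem (const_mem hf) hu

lemma xi_mem : M.ξ ∈ M.alg F :=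
  ⟨0, F.zero_mem, 1, F.one_mem, 0, F.zero_mem, fun i => by simp⟩

lemma tr_mem {u : Fin 3 → Ω} (hu : u ∈ M.alg F) : tr u ∈ F := by
  obtain ⟨a, ha, b, hb, c, hc, h⟩ := hu
  have hp := F.algebraMap_mem M.p
  have hq := F.algebraMap_mem M.q
  have e : tr u = 3 * a + b * algebraMap K Ω M.p +
      c * (algebraMap K Ω M.p * algebraMap K Ω M.p - 2 * algebraMap K Ω M.q) := by
    rw [← M.h1, ← M.h2, tr, h, h, h, tr, e2]; ring
  rw [e]
  have h3 : (3 : Ω) ∈ F := by exact_mod_cast F.natCast_mem 3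
  have h2 : (2 : Ω) ∈ F := by exact_mod_cast F.natCast_mem 2
  exact F.add_mem (F.add_mem (F.mul_mem h3 ha) (F.mul_mem hb hp))
    (F.mul_mem hc (F.sub_mem (F.mul_mem hp hp) (F.mul_mem h2 hq)))

variable [CharZero Ω]

lemma e2_mem {u : Fin 3 → Ω} (hu : u ∈ M.alg F) : e2 u ∈ F := by
  have h2 : (2 : Ω) ∈ F := by exact_mod_cast F.natCast_mem 2
  have h : e2 u = (tr u ^ 2 - tr (u * u)) / 2 := by
    rw [← two_e2]; field_simp
  rw [h]
  exact F.div_mem (F.sub_mem (pow_mem (tr_mem hu) 2) (tr_mem ((M.alg F).mul_mem hu hu))) h2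

lemma nm_mem {u : Fin 3 → Ω} (hu : u ∈ M.alg F) : nm u ∈ F := by
  have h2 : (2 : Ω) ∈ F := by exact_mod_cast F.natCast_mem 2
  have h3 : (3 : Ω) ∈ F := by exact_mod_cast F.natCast_mem 3
  have h6 : (6 : Ω) ∈ F := by exact_mod_cast F.natCast_mem 6
  have h : nm u = (tr u ^ 3 - 3 * tr u * tr (u * u) + 2 * tr (u * u * u)) / 6 := by
    rw [← six_nm]; field_simp
  rw [h]
  have hu2 := (M.alg F).mul_mem hu hu
  exact F.div_mem (F.add_mem (F.sub_mem (pow_mem (tr_mem hu) 3)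
    (F.mul_mem (F.mul_mem h3 (tr_mem hu)) (tr_mem hu2)))
    (F.mul_mem h2 (tr_mem ((M.alg F).mul_mem hu2 hu)))) h6

lemma sharp_mem {u : Fin 3 → Ω} (hu : u ∈ M.alg F) : sharp u ∈ M.alg F := by
  have h : sharp u = u ^ 2 - tr u • u + (fun _ => e2 u) := by
    funext i
    rw [sharp_apply]; simp
  rw [h]
  exact (M.alg F).add_mem ((M.alg F).sub_mem ((M.alg F).pow_mem hu 2) (smul_mem' (tr_mem hu) hu))
    (const_mem (e2_mem hu))

lemma inv_mem' {u : Fin 3 → Ω} (hu : u ∈ M.alg F) (h0 : ∀ i, u i ≠ 0) : u⁻¹ ∈ M.alg F := by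
  have h : u⁻¹ = (nm u)⁻¹ • sharp u := by
    funext i
    have h1 := mul_sharp u i
    have h2 := nm_ne_zero h0
    have h3 := h0 i
    rw [Pi.inv_apply, Pi.smul_apply, smul_eq_mul]
    field_simp
    linear_combination -h1
  rw [h]
  exact smul_mem' (F.inv_mem (nm_mem hu)) (sharp_mem hu)

lemma div_mem' {u v : Fin 3 → Ω} (hu : u ∈ M.alg F) (hv : v ∈ M.alg F) (h0 : ∀ i, v i ≠ 0) :
    u / v ∈ M.alg F := by
  rw [div_eq_mul_inv]
  exact (M.alg F).mul_mem hu (inv_mem' hv h0)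

end Cub

end Vale.Agent.P287.H3
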