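import Vale.Agent.P287.H3.Cub

/-!
Cubes `(a, α, β, b)`, their covariants and the associated cubic forms in nine variables, with
coordinates in a field `Ω`.
-/

namespace Vale.Agent.P287.H3

/-- A cube with entries in `Ω`. -/
structure Cube (Ω : Type*) where
  a : Ω
  α : Fin 3 → Ω
  β : Fin 3 → Ω
  b : Ω

namespace Cube

variable {Ω : Type*} [Field Ω] (c : Cube Ω)

def P : Fin 3 → Ω := fun i => sharp c.α i - c.a * c.β i

def Qm : Fin 3 → Ω := fun i => tr (c.α * c.β) - 2 * (c.α i * c.β i) - c.a * c.b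

def R : Fin 3 → Ω := fun i => sharp c.β i - c.b * c.α i

/-- the hyperdeterminant -/
def disc : Ω := c.Qm 0 ^ 2 - 4 * (c.P 0 * c.R 0)

lemma disc_eq (i : Fin 3) : c.Qm i ^ 2 - 4 * (c.P i * c.R i) = c.disc := by
  fin_cases i <;> simp [disc, Qm, P, R, sharp, tr] <;> ring

lemma disc_eq' : c.disc = c.a ^ 2 * c.b ^ 2 - 2 * c.a * c.b * tr (c.α * c.β) +
    2 * tr (c.α * c.β * (c.α * c.β)) - tr (c.α * c.β) ^ 2 + 4 * c.a * nm c.β + 4 * c.b * nm c.α := by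
  simp [disc, Qm, P, R, sharp, tr, nm]; ring

/-- the trilinear form of the cube -/
def C3 (y0 z0 y1 z1 y2 z2 : Ω) : Ω :=
  c.a * (y0 * y1 * y2) + c.α 0 * (z0 * y1 * y2) + c.α 1 * (y0 * z1 * y2) + c.α 2 * (y0 * y1 * z2) +
    c.β 0 * (y0 * z1 * z2) + c.β 1 * (z0 * y1 * z2) + c.β 2 * (z0 * z1 * y2) + c.b * (z0 * z1 * z2)

def C (y z : Fin 3 → Ω) : Ω := c.C3 (y 0) (z 0) (y 1) (z 1) (y 2) (z 2)

/-- the three binary quadratic forms of the cube -/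
def Q (y z : Fin 3 → Ω) : Fin 3 → Ω :=
  fun i => c.P i * y i ^ 2 + c.Qm i * (y i * z i) + c.R i * z i ^ 2

def Sy (y z : Fin 3 → Ω) : Fin 3 → Ω := fun i => c.Qm i * y i + 2 * (c.R i * z i)

def Sz (y z : Fin 3 → Ω) : Fin 3 → Ω := fun i => -(2 * (c.P i * y i) + c.Qm i * z i)

/-- the cubic covariant -/
def Cs (y z : Fin 3 → Ω) : Ω := c.C3 (c.Sy y z 0) (c.Sz y z 0) (y 1) (z 1) (y 2) (z 2)

def Cy (y z : Fin 3 → Ω) : Fin 3 → Ω :=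
  ![c.C3 1 0 (y 1) (z 1) (y 2) (z 2), c.C3 (y 0) (z 0) 1 0 (y 2) (z 2),
    c.C3 (y 0) (z 0) (y 1) (z 1) 1 0]

def Cz (y z : Fin 3 → Ω) : Fin 3 → Ω :=
  ![c.C3 0 1 (y 1) (z 1) (y 2) (z 2), c.C3 (y 0) (z 0) 0 1 (y 2) (z 2),
    c.C3 (y 0) (z 0) (y 1) (z 1) 0 1]

/-- the cubic form in nine variables -/
def N (m y z : Fin 3 → Ω) : Ω := c.disc * nm m + tr (m * c.Q y z) + c.C y z

/-- the equation of the cubic surface -/
def G (x : Fin 3 → Ω) : Ω := c.a + tr (c.α * x) + tr (c.β * sharp x) + c.b * nm x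

lemma C_one (x : Fin 3 → Ω) : c.C 1 x = c.G x := by
  simp [C, C3, G, tr, nm, sharp]; ring

lemma G_div {y z : Fin 3 → Ω} (hy : ∀ i, y i ≠ 0) : nm y * c.G (z / y) = c.C y z := by
  have h0 := hy 0
  have h1 := hy 1
  have h2 := hy 2
  simp [C, C3, G, tr, nm, sharp]
  field_simp
  ring

lemma C_smul (ρ y z : Fin 3 → Ω) : c.C (ρ * y) (ρ * z) = nm ρ * c.C y z := by
  simp [C, C3, nm]; ring

lemma Q_smul (ρ y z : Fin 3 → Ω) (i : Fin 3) : c.Q (ρ * y) (ρ * z) i = ρ i ^ 2 * c.Q y z i := by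
  simp [Q]; ring

lemma Sy_smul (ρ y z : Fin 3 → Ω) : c.Sy (ρ * y) (ρ * z) = ρ * c.Sy y z := by
  funext i; simp [Sy]; ring

lemma Sz_smul (ρ y z : Fin 3 → Ω) : c.Sz (ρ * y) (ρ * z) = ρ * c.Sz y z := by
  funext i; simp [Sz]; ring

lemma Cs_smul (ρ y z : Fin 3 → Ω) : c.Cs (ρ * y) (ρ * z) = nm ρ * c.Cs y z := by
  simp [Cs, Sy_smul, Sz_smul, C3, nm]; ring

lemma Cy_smul (ρ y z : Fin 3 → Ω) (i : Fin 3) : c.Cy (ρ * y) (ρ * z) i = sharp ρ i * c.Cy y z i := by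
  fin_cases i <;> simp [Cy, C3, sharp] <;> ring

lemma Cz_smul (ρ y z : Fin 3 → Ω) (i : Fin 3) : c.Cz (ρ * y) (ρ * z) i = sharp ρ i * c.Cz y z i := by
  fin_cases i <;> simp [Cz, C3, sharp] <;> ring

lemma Sy_S (y z : Fin 3 → Ω) : c.Sy (c.Sy y z) (c.Sz y z) = c.disc • y := by
  funext i
  rw [Pi.smul_apply, smul_eq_mul, ← c.disc_eq i]
  simp [Sy, Sz]; ring

lemma Sz_S (y z : Fin 3 → Ω) : c.Sz (c.Sy y z) (c.Sz y z) = c.disc • z := by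
  funext i
  rw [Pi.smul_apply, smul_eq_mul, ← c.disc_eq i]
  simp [Sy, Sz]; ring

lemma Q_S (y z : Fin 3 → Ω) (i : Fin 3) : c.Q (c.Sy y z) (c.Sz y z) i = -(c.disc * c.Q y z i) := by
  rw [← c.disc_eq i]
  simp [Sy, Sz, Q]; ring

lemma Cs_one (y z : Fin 3 → Ω) :
    c.C3 (y 0) (z 0) (c.Sy y z 1) (c.Sz y z 1) (y 2) (z 2) = c.Cs y z := by
  simp [Cs, Sy, Sz, C3, P, Qm, R, sharp, tr]; ring

lemma Cs_two (y z : Fin 3 → Ω) :
    c.C3 (y 0) (z 0) (y 1) (z 1) (c.Sy y z 2) (c.Sz y z 2) = c.Cs y z := by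
  simp [Cs, Sy, Sz, C3, P, Qm, R, sharp, tr]; ring

lemma euler (y z : Fin 3 → Ω) (i : Fin 3) : y i * c.Cy y z i + z i * c.Cz y z i = c.C y z := by
  fin_cases i <;> simp [C, Cy, Cz, C3] <;> ring

lemma euler_S (y z : Fin 3 → Ω) (i : Fin 3) :
    c.Sy y z i * c.Cy y z i + c.Sz y z i * c.Cz y z i = c.Cs y z := by
  fin_cases i
  · simp [Cs, Cy, Cz, C3]; ring
  · rw [← Cs_one]; simp [Cy, Cz, C3]; ring
  · rw [← Cs_two]; simp [Cy, Cz, C3]; ring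

lemma Cy_eq (y z : Fin 3 → Ω) (i : Fin 3) :
    2 * (c.Q y z i * c.Cy y z i) = c.Cs y z * z i - c.C y z * c.Sz y z i := by
  have h1 := c.euler y z i
  have h2 := c.euler_S y z i
  rw [← h1, ← h2]
  simp only [Sy, Sz, Q]; ring

lemma Cz_eq (y z : Fin 3 → Ω) (i : Fin 3) :
    2 * (c.Q y z i * c.Cz y z i) = c.C y z * c.Sy y z i - c.Cs y z * y i := by
  have h1 := c.euler y z i
  have h2 := c.euler_S y z i
  rw [← h1, ← h2]
  simp only [Sy, Sz, Q]; ring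

lemma Cy_S (y z : Fin 3 → Ω) (i : Fin 3) :
    c.Cy (c.Sy y z) (c.Sz y z) i = c.disc * c.Cy y z i := by
  fin_cases i <;> simp [Cy, Sy, Sz, C3, disc, P, Qm, R, sharp, tr] <;> ring

lemma Cz_S (y z : Fin 3 → Ω) (i : Fin 3) :
    c.Cz (c.Sy y z) (c.Sz y z) i = c.disc * c.Cz y z i := by
  fin_cases i <;> simp [Cz, Sy, Sz, C3, disc, P, Qm, R, sharp, tr] <;> ring

lemma C_S (y z : Fin 3 → Ω) : c.C (c.Sy y z) (c.Sz y z) = c.disc * c.Cs y z := by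
  rw [← c.euler _ _ 0, Cy_S, Cz_S, ← c.euler_S y z 0]; ring

lemma syzygy (y z : Fin 3 → Ω) :
    c.Cs y z ^ 2 = c.disc * c.C y z ^ 2 + 4 * nm (c.Q y z) := by
  simp [Cs, Sy, Sz, C, C3, Q, nm, disc, P, Qm, R, sharp, tr]; ring

end Cube

end Vale.Agent.P287.H3
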