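import Mathlib

/-!
Cubes over a cubic field extension: the cubic surface, the binary quadratic form, the cubic form in
nine variables.
-/

namespace Vale.Agent.P287.H3

/-- A cube `(a, α, β, b)` over the extension `M` of `K`. -/
structure CubeData (K M : Type*) where
  a : K
  α : M
  β : M
  b : K

section

variable {K M : Type*} [Field K] [Field M] [Algebra K M]

/-- The adjoint `x^# = N(x) x⁻¹` of an element of the cubic extension `M` of `K` (zero for
`x = 0`). -/
noncomputable def adj (K : Type*) {M : Type*} [Field K] [Field M] [Algebra K M] (x : M) : M :=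
  algebraMap K M (Algebra.norm K x) * x⁻¹

namespace CubeData

/-- The equation `a + Tr(α x) + Tr(β x^#) + b N(x)` of the cubic surface of the cube. -/
noncomputable def surf (c : CubeData K M) (x : M) : K :=
  c.a + Algebra.trace K M (c.α * x) + Algebra.trace K M (c.β * adj K x) + c.b * Algebra.norm K x

/-- The binary quadratic form over `M` of the cube. -/
noncomputable def quad (c : CubeData K M) (y z : M) : M :=
  (adj K c.α - algebraMap K M c.a * c.β) * y ^ 2 +
    (algebraMap K M (Algebra.trace K M (c.α * c.β) - c.a * c.b) - 2 * (c.α * c.β)) * (y * z) +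
    (adj K c.β - algebraMap K M c.b * c.α) * z ^ 2

/-- The cubic form `a N(y) + Tr(α z y^#) + Tr(β y z^#) + b N(z)` of the cube. -/
noncomputable def cubic (c : CubeData K M) (y z : M) : K :=
  c.a * Algebra.norm K y + Algebra.trace K M (c.α * (z * adj K y)) +
    Algebra.trace K M (c.β * (y * adj K z)) + c.b * Algebra.norm K z

/-- The discriminant (hyperdeterminant) of the cube. -/
noncomputable def disc (c : CubeData K M) : K :=
  c.a ^ 2 * c.b ^ 2 - 2 * c.a * c.b * Algebra.trace K M (c.α * c.β) +
    2 * Algebra.trace K M ((c.α * c.β) ^ 2) - Algebra.trace K M (c.α * c.β) ^ 2 +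
    4 * c.a * Algebra.norm K c.β + 4 * c.b * Algebra.norm K c.α

/-- The cubic form in nine variables `disc N(m) + Tr(m quad(y, z)) + cubic(y, z)`. -/
noncomputable def normForm (c : CubeData K M) (u : M × M × M) : K :=
  c.disc * Algebra.norm K u.1 + Algebra.trace K M (u.1 * c.quad u.2.1 u.2.2) +
    c.cubic u.2.1 u.2.2

end CubeData

end

end Vale.Agent.P287.H3
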