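import Vale.Agent.P287.H3.NetSide

/-!
The generic point of affine space as a point of the cube surface of a net of type `G₂`.
-/

namespace Vale.Agent.P287.H3

open MvPolynomial H925

lemma tvec_indep {k : Fin 3 → ℂ} (h : ∑ j, tvec j * algebraMap ℂ KK (k j) = 0) : k = 0 := by
  have h1 : algebraMap (MvPolynomial (Fin 2) ℂ) KK (C (k 0) + X 0 * C (k 1) + X 1 * C (k 2)) = 0 := by
    rw [← h, Fin.sum_univ_three]
    simp only [tvec, map_add, map_mul, Matrix.cons_val_zero, Matrix.cons_val_one, Matrix.cons_val,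
      one_mul]
    have e1 : ∀ r : ℂ, algebraMap (MvPolynomial (Fin 2) ℂ) KK (C r) = algebraMap ℂ KK r := fun r => rfl
    simp only [e1]
  have h2 : (C (k 0) + X 0 * C (k 1) + X 1 * C (k 2) : MvPolynomial (Fin 2) ℂ) = 0 :=
    (IsFractionRing.injective (MvPolynomial (Fin 2) ℂ) KK) (by rw [h1, map_zero])
  have h3 : ∀ v : Fin 2 → ℂ, k 0 + v 0 * k 1 + v 1 * k 2 = 0 := by
    intro v
    have := congrArg (eval v) h2
    simpa using this
  have e0 := h3 ![0, 0]
  have e1 := h3 ![1, 0]
  have e2 := h3 ![0, 1]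
  simp at e0 e1 e2
  funext j
  fin_cases j
  · exact e0
  · simpa [e0] using e1
  · simpa [e0] using e2

section

variable (B : NetG2) {R : Type*} [CommRing R] [Algebra ℂ R]

/-- coefficients of the first equation -/
def NetG2.co (t : Fin 3 → R) (i : Fin 4) : R := ∑ j, t j * algebraMap ℂ R (B.f j i)

def NetG2.ho (t : Fin 3 → R) : R := ∑ j, t j * algebraMap ℂ R (B.h j)

lemma NetG2.sum_Phi1 (t : Fin 3 → R) (n : Fin 4 → R) : ∑ j, t j * B.Phi1 j n =
    B.co t 0 * n 0 + B.co t 1 * n 1 + B.co t 2 * n 2 + B.co t 3 * n 3 - B.ho t := by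
  simp [NetG2.Phi1, NetG2.co, NetG2.ho, Fin.sum_univ_three, Fin.sum_univ_four]
  ring

end

theorem net_point (B : NetG2) (hf : ∃ j, B.f j 3 ≠ 0) {N Ω : Type} [Field N] [Field Ω]
    [Algebra KK N] [Algebra ℂ Ω] [Algebra KK Ω] [Algebra LL Ω] [IsScalarTower ℂ KK Ω]
    [IsScalarTower ℂ LL Ω] (e : Emb KK N Ω) (ι : (Fin 3 → KK) ≃ₗ[KK] N) {c : CubeData KK N}
    (hb : ∀ n : Fin 4 → KK, ∑ j, tvec j * B.Phi1 j n = 0 →
      ∑ j, tvec j * B.Phi2 j n = c.surf (ι ![n 0, n 1, n 2]))
    (h0 : nd B 0 ≠ 0)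
    (hg : ∀ j, algebraMap KK Ω (tvec j) * algebraMap LL Ω (nd B 0) = algebraMap LL Ω (nd B j)) :
    (e.cube c).G (e.io ι (fun j => algebraMap LL Ω (nn j.castSucc))) = 0 ∧
      ∀ F : IntermediateField KK Ω, e.io ι (fun j => algebraMap LL Ω (nn j.castSucc)) ∈ e.C.alg F →
        ∀ l, algebraMap LL Ω l ∈ F := by
  set τ : Fin 3 → Ω := fun j => algebraMap KK Ω (tvec j) with hτ
  set νn : Fin 4 → Ω := fun i => algebraMap LL Ω (nn i) with hν
  have hD0 : algebraMap LL Ω (nd B 0) ≠ 0 := by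
    intro h
    exact h0 ((map_eq_zero _).1 h)
  -- the coefficient of the last variable
  have hK3 : B.co tvec 3 ≠ 0 := by
    intro h
    obtain ⟨j, hj⟩ := hf
    exact hj (congrFun (tvec_indep h) j)
  have hco : ∀ i, algebraMap KK Ω (B.co tvec i) = B.co τ i := by
    intro i
    simp only [NetG2.co, map_sum, map_mul, ← IsScalarTower.algebraMap_apply ℂ KK Ω]
    rfl
  have hho : algebraMap KK Ω (B.ho tvec) = B.ho τ := by
    simp only [NetG2.ho, map_sum, map_mul, ← IsScalarTower.algebraMap_apply ℂ KK Ω]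
    rfl
  have h3 : B.co τ 3 ≠ 0 := by
    rw [← hco]
    intro h
    exact hK3 ((map_eq_zero _).1 h)
  -- the two equations at the generic point
  have hP1 : ∑ j, τ j * B.Phi1 j νn = 0 := by
    have h1 := B.sum_proj1 nn
    have h2 := congrArg (algebraMap LL Ω) h1
    rw [map_sum, map_zero] at h2
    have h4 : ∀ j, algebraMap LL Ω (B.Phi1 j nn) = B.Phi1 j νn := fun j =>
      B.map_Phi1 (IsScalarTower.toAlgHom ℂ LL Ω) j nn
    have h5 : algebraMap LL Ω (nd B 0) * ∑ j, τ j * B.Phi1 j νn = 0 := by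
      rw [← h2, Finset.mul_sum]
      refine Finset.sum_congr rfl fun j _ => ?_
      rw [map_mul, h4]
      have h6 := hg j
      change τ j * algebraMap LL Ω (nd B 0) = algebraMap LL Ω (B.proj nn j) at h6
      rw [← h6]
      ring
    exact (mul_eq_zero.1 h5).resolve_left hD0
  have hP2 : ∑ j, τ j * B.Phi2 j νn = 0 := by
    have h1 := B.sum_proj2 nn
    have h2 := congrArg (algebraMap LL Ω) h1
    rw [map_sum, map_zero] at h2
    have h4 : ∀ j, algebraMap LL Ω (B.Phi2 j nn) = B.Phi2 j νn := fun j =>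
      B.map_Phi2 (IsScalarTower.toAlgHom ℂ LL Ω) j nn
    have h5 : algebraMap LL Ω (nd B 0) * ∑ j, τ j * B.Phi2 j νn = 0 := by
      rw [← h2, Finset.mul_sum]
      refine Finset.sum_congr rfl fun j _ => ?_
      rw [map_mul, h4]
      have h6 := hg j
      change τ j * algebraMap LL Ω (nd B 0) = algebraMap LL Ω (B.proj nn j) at h6
      rw [← h6]
      ring
    exact (mul_eq_zero.1 h5).resolve_left hD0
  have hn3 : νn 3 = (B.co τ 3)⁻¹ * (B.ho τ - B.co τ 0 * νn 0 - B.co τ 1 * νn 1 - B.co τ 2 * νn 2) := by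
    rw [B.sum_Phi1] at hP1
    field_simp
    linear_combination hP1
  constructor
  · -- a polynomial identity
    set m3 : MvPolynomial (Fin 3) Ω := C (B.co τ 3)⁻¹ * (C (B.ho τ) - C (B.co τ 0) * X 0 -
      C (B.co τ 1) * X 1 - C (B.co τ 2) * X 2) with hm3
    set p : MvPolynomial (Fin 3) Ω := ∑ j, C (τ j) * B.Phi2 j ![X 0, X 1, X 2, m3] with hp
    have hev : ∀ w : Fin 3 → Ω, evC w p = ∑ j, τ j * B.Phi2 j ![w 0, w 1, w 2,
        (B.co τ 3)⁻¹ * (B.ho τ - B.co τ 0 * w 0 - B.co τ 1 * w 1 - B.co τ 2 * w 2)] := by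
      intro w
      rw [hp, map_sum]
      refine Finset.sum_congr rfl fun j _ => ?_
      rw [map_mul, B.map_Phi2]
      congr 1
      · rw [evC_apply, eval_C]
      · congr 1
        funext i
        fin_cases i <;> simp [evC_apply, hm3]
    have hpq : p = e.Gpoly ι c := by
      apply ext_poly (K := KK)
      intro v
      rw [← evC_apply, hev, e.eval_Gpoly, e.io_algebraMap, e.G_vec]
      set v3 : KK := (B.co tvec 3)⁻¹ * (B.ho tvec - B.co tvec 0 * v 0 - B.co tvec 1 * v 1 -
        B.co tvec 2 * v 2) with hv3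
      have h7 := hb ![v 0, v 1, v 2, v3] (by
        rw [B.sum_Phi1]
        simp only [Matrix.cons_val_zero, Matrix.cons_val_one, Matrix.cons_val]
        rw [hv3]
        field_simp
        ring)
      have h8 : (![(![v 0, v 1, v 2, v3] : Fin 4 → KK) 0, (![v 0, v 1, v 2, v3] : Fin 4 → KK) 1,
          (![v 0, v 1, v 2, v3] : Fin 4 → KK) 2] : Fin 3 → KK) = v := by
        funext j
        fin_cases j <;> rfl
      rw [h8] at h7
      rw [← h7, map_sum]
      refine Finset.sum_congr rfl fun j _ => ?_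
      rw [map_mul]
      congr 1
      have h9 := B.map_Phi2 (IsScalarTower.toAlgHom ℂ KK Ω) j ![v 0, v 1, v 2, v3]
      refine Eq.trans ?_ h9.symm
      congr 1
      funext i
      fin_cases i
      · rfl
      · rfl
      · rfl
      · simp [hv3, hco, hho]
    have h10 := hev (fun j => νn j.castSucc)
    rw [hpq, evC_apply, e.eval_Gpoly] at h10
    rw [h10, ← hP2]
    refine Finset.sum_congr rfl fun j _ => ?_
    congr 2
    funext i
    fin_cases i
    · rfl
    · rfl
    · rfl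
    · exact hn3.symm
  · intro F hF l
    have h1 : ∀ j : Fin 3, νn j.castSucc ∈ F := fun j => e.mem_of_io_mem ι hF j
    have h2 : ∀ k : KK, algebraMap KK Ω k ∈ F := fun k => F.algebraMap_mem k
    have h4 : νn 3 ∈ F := by
      rw [hn3]
      simp only [← hco, ← hho]
      exact F.mul_mem (F.inv_mem (h2 _)) (F.sub_mem (F.sub_mem (F.sub_mem (h2 _)
        (F.mul_mem (h2 _) (h1 0))) (F.mul_mem (h2 _) (h1 1))) (F.mul_mem (h2 _) (h1 2)))
    have h5 : ∀ i, νn i ∈ F := by
      intro i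
      refine Fin.lastCases ?_ (fun j => ?_) i
      · exact h4
      · exact h1 j
    obtain ⟨a, b, -, rfl⟩ := IsFractionRing.div_surjective (A := MvPolynomial (Fin 4) ℂ) l
    have h6 : ∀ p : MvPolynomial (Fin 4) ℂ, algebraMap LL Ω (algebraMap _ LL p) ∈ F := by
      intro p
      induction p using MvPolynomial.induction_on with
      | C r =>
        have h7 : algebraMap LL Ω (algebraMap (MvPolynomial (Fin 4) ℂ) LL (C r)) =
            algebraMap KK Ω (algebraMap ℂ KK r) := by
          have e1 : algebraMap (MvPolynomial (Fin 4) ℂ) LL (C r) = algebraMap ℂ LL r := rfl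
          rw [e1, ← IsScalarTower.algebraMap_apply ℂ LL Ω, ← IsScalarTower.algebraMap_apply ℂ KK Ω]
        rw [h7]
        exact h2 _
      | add p q hp hq =>
        rw [map_add, map_add]
        exact F.add_mem hp hq
      | mul_X p i hp =>
        rw [map_mul, map_mul]
        exact F.mul_mem hp (h5 i)
    rw [map_div₀]
    exact F.div_mem (h6 a) (h6 b)

end Vale.Agent.P287.H3
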