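import Vale.Agent.P287.H3.IrrX
import Vale.Agent.P287.H3.NetPoint

/-!
If the plane cubic is irreducible, the cubic form `det(A₀ᵀx, A₁ᵀx, A₂ᵀx)` does not vanish
identically.
-/

namespace Vale.Agent.P287.H3

open Matrix

section

variable {K M : Type*} [Field K] [Field M] [Algebra K M]

lemma quad_rel (h3 : Module.finrank K M = 3) {m : M} (hm : ∀ r : K, algebraMap K M r ≠ m)
    {a b c : K} (h : algebraMap K M a + algebraMap K M b * m + algebraMap K M c * m ^ 2 = 0) :
    a = 0 ∧ b = 0 ∧ c = 0 := by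
  have hfd : FiniteDimensional K M := FiniteDimensional.of_finrank_pos (by omega)
  have hint : IsIntegral K m := Algebra.IsIntegral.isIntegral m
  have hd := minpoly.degree_dvd hint
  rw [h3] at hd
  have hd1 : (minpoly K m).natDegree ≠ 1 := by
    intro h1
    have h2 : (minpoly K m).degree = 1 := by
      rw [Polynomial.degree_eq_natDegree (minpoly.ne_zero hint), h1]
      rfl
    obtain ⟨r, hr⟩ := minpoly.mem_range_of_degree_eq_one K m h2
    exact hm r hr
  have hd3 : (minpoly K m).natDegree = 3 := by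
    rcases (Nat.dvd_prime Nat.prime_three).1 hd with h1 | h1
    · exact absurd h1 hd1
    · exact h1
  set P : Polynomial K := Polynomial.C c * Polynomial.X ^ 2 + Polynomial.C b * Polynomial.X +
    Polynomial.C a with hP
  have hP0 : P = 0 := by
    by_contra h0
    have h1 : Polynomial.aeval m P = 0 := by
      rw [hP]
      simp only [map_add, map_mul, map_pow, Polynomial.aeval_C, Polynomial.aeval_X]
      linear_combination h
    have h2 := Polynomial.natDegree_le_of_dvd (minpoly.dvd K m h1) h0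
    have h4 : P.natDegree ≤ 2 := Polynomial.natDegree_quadratic_le
    omega
  have k0 := congrArg (fun p => Polynomial.coeff p 0) hP0
  have k1 := congrArg (fun p => Polynomial.coeff p 1) hP0
  have k2 := congrArg (fun p => Polynomial.coeff p 2) hP0
  rw [hP] at k0 k1 k2
  simp only [Polynomial.coeff_add, Polynomial.coeff_C_mul, Polynomial.coeff_X_pow,
    Polynomial.coeff_X, Polynomial.coeff_C, Polynomial.coeff_zero] at k0 k1 k2
  norm_num at k0 k1 k2
  exact ⟨k0, k1, k2⟩

/-- a linear endomorphism with all values in `m (K + K u)` is a multiplication -/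
lemma loc [CharZero K] (h3 : Module.finrank K M = 3) {S : M →ₗ[K] M} {u : M}
    (hS : ∀ m, ∃ p q : K, S m = m * (algebraMap K M p + algebraMap K M q * u)) (m : M) :
    S m = m * S 1 := by
  have hcM : CharZero M := charZero_of_injective_algebraMap (algebraMap K M).injective
  by_contra hne
  have hm : ∀ r : K, algebraMap K M r ≠ m := by
    intro r hr
    apply hne
    rw [← hr, Algebra.algebraMap_eq_smul_one, map_smul, smul_mul_assoc, one_mul]
  have hm' : ∀ r : K, m + algebraMap K M r ≠ 0 := by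
    intro r hr
    apply hm (-r)
    rw [map_neg]
    linear_combination -hr
  obtain ⟨p0, q0, h1⟩ := hS 1
  set T := S m - m * S 1 with hT
  have hT0 : T ≠ 0 := sub_ne_zero.2 hne
  have key : ∀ r : K, ∃ x y : K, T = (m + algebraMap K M r) *
      (algebraMap K M x + algebraMap K M y * u) := by
    intro r
    obtain ⟨p, q, h⟩ := hS (m + algebraMap K M r)
    have h2 : S (algebraMap K M r) = algebraMap K M r * S 1 := by
      rw [Algebra.algebraMap_eq_smul_one, map_smul, smul_mul_assoc, one_mul]
    rw [map_add, h2] at h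
    refine ⟨p - p0, q - q0, ?_⟩
    rw [hT, map_sub, map_sub]
    linear_combination h - (m + algebraMap K M r) * h1
  obtain ⟨x0, y0, e0⟩ := key 0
  obtain ⟨x1, y1, e1⟩ := key 1
  obtain ⟨x2, y2, e2⟩ := key 2
  have n0 := hm' 0
  have n1 := hm' 1
  have n2 := hm' 2
  simp only [map_zero, add_zero, map_one, map_ofNat] at e0 e1 e2 n0 n1 n2
  set v0 := algebraMap K M x0 + algebraMap K M y0 * u with hv0
  set v1 := algebraMap K M x1 + algebraMap K M y1 * u with hv1
  set v2 := algebraMap K M x2 + algebraMap K M y2 * u with hv2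
  set c0 := x1 * y2 - x2 * y1 with hc0
  set c1 := x2 * y0 - x0 * y2 with hc1
  set c2 := x0 * y1 - x1 * y0 with hc2
  have hrel : algebraMap K M c0 * v0 + algebraMap K M c1 * v1 + algebraMap K M c2 * v2 = 0 := by
    rw [hc0, hc1, hc2, hv0, hv1, hv2]
    simp only [map_sub, map_mul]
    ring
  have hrel2 : algebraMap K M (2 * c0) + algebraMap K M (3 * c0 + 2 * c1 + c2) * m +
      algebraMap K M (c0 + c1 + c2) * m ^ 2 = 0 := by
    apply mul_left_cancel₀ hT0
    rw [mul_zero]
    simp only [map_add, map_mul, map_ofNat]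
    linear_combination (algebraMap K M c0 * ((m + 1) * (m + 2))) * e0 +
      (algebraMap K M c1 * (m * (m + 2))) * e1 + (algebraMap K M c2 * (m * (m + 1))) * e2 +
      (m * (m + 1) * (m + 2)) * hrel
  obtain ⟨r1, r2, r3⟩ := quad_rel h3 hm hrel2
  have hc0' : c0 = 0 := by
    have : (2 : K) ≠ 0 := two_ne_zero
    exact (mul_eq_zero.1 r1).resolve_left this
  have hc1' : c1 = 0 := by linear_combination r2 - r3 - r1
  have hc2' : c2 = 0 := by linear_combination r3 - hc0' - hc1'
  -- proportional
  obtain ⟨lam, hlam⟩ : ∃ lam : K, v1 = algebraMap K M lam * v0 := by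
    by_cases hx : x0 = 0
    · have hy : y0 ≠ 0 := by
        intro hy
        apply hT0
        rw [e0, hv0, hx, hy]
        simp
      have hx1 : x1 = 0 := by
        rw [hc2, hx] at hc2'
        have h5 : x1 * y0 = 0 := by linear_combination -hc2'
        exact (mul_eq_zero.1 h5).resolve_right hy
      refine ⟨y1 / y0, ?_⟩
      rw [hv1, hv0, hx, hx1]
      have h6 : algebraMap K M y1 = algebraMap K M (y1 / y0) * algebraMap K M y0 := by
        rw [← map_mul]
        congr 1
        field_simp
      rw [h6]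
      simp
      ring
    · refine ⟨x1 / x0, ?_⟩
      have h6 : algebraMap K M x1 = algebraMap K M (x1 / x0) * algebraMap K M x0 := by
        rw [← map_mul]
        congr 1
        field_simp
      have h7 : algebraMap K M y1 = algebraMap K M (x1 / x0) * algebraMap K M y0 := by
        rw [← map_mul]
        congr 1
        field_simp
        linear_combination hc2'
      rw [hv1, hv0, h6, h7]
      ring
  have hv00 : v0 ≠ 0 := by
    intro h
    apply hT0
    rw [e0, h, mul_zero]
  have hfin : m * (1 - algebraMap K M lam) = algebraMap K M lam := by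
    apply mul_right_cancel₀ hv00
    rw [hlam] at e1
    linear_combination e1 - e0
  by_cases hl : lam = 1
  · rw [hl] at hfin
    simp at hfin
  · apply hm (lam / (1 - lam))
    have h8 : (1 : M) - algebraMap K M lam ≠ 0 := by
      intro h
      apply hl
      apply (algebraMap K M).injective
      rw [map_one]
      linear_combination -h
    rw [map_div₀, map_sub, map_one, div_eq_iff h8]
    exact hfin.symm

end

lemma det_pencil_ne {K : Type*} [Field K] {B1 B2 : Matrix (Fin 3) (Fin 3) K}
    (hirr : Irreducible (pencil B1 B2)) (hdeg : (pencil B1 B2).natDegree = 3) {p q : K}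
    (h : (p • B1 + q • B2).det = 0) : p = 0 ∧ q = 0 := by
  by_cases hp : p = 0
  · subst hp
    refine ⟨rfl, ?_⟩
    rw [zero_smul, zero_add, det_smul] at h
    have hB2 : B2.det ≠ 0 := by
      intro h0
      apply hirr.ne_zero
      rw [← Polynomial.leadingCoeff_eq_zero, Polynomial.leadingCoeff, hdeg, coeff_pencil, h0]
    rcases mul_eq_zero.1 h with h1 | h1
    · exact pow_eq_zero_iff (by simp) |>.1 h1
    · exact absurd h1 hB2
  · exfalso
    apply hirr.not_isRoot_of_natDegree_ne_one (x := q / p) (by omega)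
    rw [Polynomial.IsRoot, pencil, ← Polynomial.coe_evalRingHom, RingHom.map_det]
    have h1 : (Polynomial.evalRingHom (q / p)).mapMatrix
        ((Polynomial.X : Polynomial K) • B2.map Polynomial.C + B1.map Polynomial.C) =
        p⁻¹ • (p • B1 + q • B2) := by
      ext i j
      simp
      field_simp
      ring
    rw [h1, det_smul, h, mul_zero]

/-- a pencil of complex matrices contains a singular one -/
lemma exists_singular (P Q : Matrix (Fin 3) (Fin 3) ℂ) :
    ∃ a b : ℂ, (a ≠ 0 ∨ b ≠ 0) ∧ (a • P + b • Q).det = 0 := by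
  by_cases hQ : Q.det = 0
  · refine ⟨0, 1, Or.inr one_ne_zero, ?_⟩
    simpa using hQ
  · have hu : IsUnit Q.det := isUnit_iff_ne_zero.2 hQ
    obtain ⟨μ, hμ⟩ := IsAlgClosed.exists_root (Q⁻¹ * P).charpoly (by
      rw [Matrix.charpoly_degree_eq_dim]
      simp)
    refine ⟨-1, μ, Or.inl (by norm_num), ?_⟩
    have h1 : (-1 : ℂ) • P + μ • Q = Q * (scalar (Fin 3) μ - Q⁻¹ * P) := by
      rw [Matrix.mul_sub, ← Matrix.mul_assoc, mul_nonsing_inv _ hu, Matrix.one_mul]
      ext i j
      simp [Matrix.mul_apply, Matrix.diagonal_apply]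
      ring
    rw [h1, det_mul, ← Matrix.eval_charpoly, hμ, mul_zero]

lemma det3_mulVec {K : Type*} [Field K] (P : Matrix (Fin 3) (Fin 3) K) (a b c : Fin 3 → K) :
    det3 (P *ᵥ a) (P *ᵥ b) (P *ᵥ c) = P.det * det3 a b c := by
  simp only [det3, dot, cross, Matrix.mulVec, dotProduct, Fin.sum_univ_three, det_fin_three,
    Matrix.cons_val_zero, Matrix.cons_val_one, Matrix.cons_val]
  ring

namespace Data18

variable (D : Data18)

lemma A0T_mulVec (x : Fin 3 → KK) (k : Fin 3) : ((D.mat 0)ᵀ *ᵥ x) k = D.left 0 x k := by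
  simp [mat, left, Matrix.mulVec, dotProduct, Fin.sum_univ_three]

lemma detX_eq_det3 (x : Fin 3 → KK) :
    D.detX x = det3 ((D.mat 0)ᵀ *ᵥ x) ((D.B1)ᵀ *ᵥ x) ((D.B2)ᵀ *ᵥ x) := by
  simp only [detX, det3, dot, cross, A0T_mulVec, B1T_mulVec, B2T_mulVec, Matrix.cons_val_zero,
    Matrix.cons_val_one, Matrix.cons_val]
  ring

lemma detX_zero_of (h : ∀ w : Fin 3 → ℂ, D.detX w = 0) (x : Fin 3 → KK) : D.detX x = 0 := by
  have hpoly : D.detX (MvPolynomial.X : Fin 3 → MvPolynomial (Fin 3) ℂ) = 0 := by
    apply MvPolynomial.funext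
    intro w
    rw [map_zero, H925.eval_eq_aeval, D.map_detX]
    simpa using h w
  have h1 := D.map_detX (MvPolynomial.aeval x : MvPolynomial (Fin 3) ℂ →ₐ[ℂ] KK) MvPolynomial.X
  rw [hpoly, map_zero] at h1
  simpa using h1.symm

end Data18

theorem exists_detX {D : Data18} (hP : Irreducible D.plane) : ∃ w : Fin 3 → ℂ, D.detX w ≠ 0 := by
  obtain ⟨hirr, hdeg⟩ := irreducible_pencil hP
  obtain ⟨M, i1, i2, h3, ρ, u, hB2, hB1⟩ := exists_rep hirr hdeg
  have hfd : FiniteDimensional KK M := FiniteDimensional.of_finrank_pos (by omega)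
  have : CharZero KK := charZero_of_injective_algebraMap (algebraMap ℂ KK).injective
  by_contra hall
  push Not at hall
  have hK := D.detX_zero_of hall
  have hB2t : IsUnit (D.B2)ᵀ.det := by rwa [det_transpose]
  have hu : ∀ r : KK, algebraMap KK M r ≠ u := by
    intro r hr
    have h1 : (1 : KK) • D.B1 + r • D.B2 = 0 := by
      have h2 : ρ u = r • (1 : Matrix (Fin 3) (Fin 3) KK) := by
        rw [← hr, AlgHom.commutes, Algebra.algebraMap_eq_smul_one]
      have h4 := congrArg transpose hB1
      rw [transpose_transpose, h2, Matrix.mul_smul, Matrix.mul_one, transpose_neg,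
        transpose_smul, transpose_transpose] at h4
      rw [h4]
      simp
    have h2 := det_pencil_ne hirr hdeg (p := 1) (q := r) (by rw [h1]; simp)
    exact one_ne_zero h2.1
  let S : M →ₗ[KK] M := (iot ρ h3 hfd).toLinearMap ∘ₗ
    (Matrix.toLin' (((D.B2)ᵀ)⁻¹ * (D.mat 0)ᵀ)) ∘ₗ orb ρ
  have hS : ∀ m, (D.B2)ᵀ *ᵥ orb ρ (S m) = (D.mat 0)ᵀ *ᵥ orb ρ m := by
    intro m
    have h1 : orb ρ (S m) = (((D.B2)ᵀ)⁻¹ * (D.mat 0)ᵀ) *ᵥ orb ρ m := by
      change orb ρ (iot ρ h3 hfd (Matrix.toLin' _ (orb ρ m))) = _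
      rw [orb_iot, Matrix.toLin'_apply]
    rw [h1, Matrix.mulVec_mulVec, ← Matrix.mul_assoc, mul_nonsing_inv _ hB2t, Matrix.one_mul]
  have hB1o : ∀ m, (D.B1)ᵀ *ᵥ orb ρ m = -((D.B2)ᵀ *ᵥ orb ρ (u * m)) := by
    intro m
    change (D.B1)ᵀ *ᵥ (ρ m *ᵥ ![1, 0, 0]) = -((D.B2)ᵀ *ᵥ (ρ (u * m) *ᵥ ![1, 0, 0]))
    rw [hB1, map_mul, Matrix.mulVec_mulVec, Matrix.mulVec_mulVec, Matrix.neg_mul,
      Matrix.neg_mulVec, Matrix.mul_assoc]
  have hdep : ∀ m, det3 (orb ρ (S m)) (orb ρ (u * m)) (orb ρ m) = 0 := by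
    intro m
    have h1 := hK (orb ρ m)
    rw [D.detX_eq_det3, ← hS, hB1o] at h1
    have h2 : det3 ((D.B2)ᵀ *ᵥ orb ρ (S m)) (-((D.B2)ᵀ *ᵥ orb ρ (u * m)))
        ((D.B2)ᵀ *ᵥ orb ρ m) = -det3 ((D.B2)ᵀ *ᵥ orb ρ (S m)) ((D.B2)ᵀ *ᵥ orb ρ (u * m))
        ((D.B2)ᵀ *ᵥ orb ρ m) := by
      simp [det3, dot, cross]
      ring
    rw [h2, det3_mulVec, neg_eq_zero] at h1
    exact (mul_eq_zero.1 h1).resolve_left hB2t.ne_zero
  have hV : ∀ m, ∃ p q : KK, S m = m * (algebraMap KK M p + algebraMap KK M q * u) := by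
    intro m
    by_cases hm : m = 0
    · refine ⟨0, 0, ?_⟩
      rw [hm, map_zero, zero_mul]
    · have h1 : (Matrix.of ![orb ρ (S m), orb ρ (u * m), orb ρ m]).det = 0 := by
        rw [← hdep m]
        simp [det_fin_three, det3, dot, cross]
        ring
      obtain ⟨v, hv0, hv⟩ := Matrix.exists_vecMul_eq_zero_iff.2 h1
      have h2 : v 0 • orb ρ (S m) + v 1 • orb ρ (u * m) + v 2 • orb ρ m = 0 := by
        rw [← hv]
        funext k
        simp [Matrix.vecMul, dotProduct, Fin.sum_univ_three]
      have h4 : v 0 • S m + v 1 • (u * m) + v 2 • m = 0 := by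
        apply orb_injective ρ
        rw [map_add, map_add, map_smul (orb ρ), map_smul (orb ρ), map_smul (orb ρ), map_zero]
        exact h2
      simp only [Algebra.smul_def] at h4
      by_cases h0 : v 0 = 0
      · exfalso
        rw [h0, map_zero, zero_mul, zero_add] at h4
        have h5 : algebraMap KK M (v 1) * u + algebraMap KK M (v 2) = 0 := by
          apply mul_right_cancel₀ hm
          rw [zero_mul]
          linear_combination h4
        by_cases h6 : v 1 = 0
        · rw [h6, map_zero, zero_mul, zero_add, map_eq_zero] at h5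
          apply hv0
          funext k
          fin_cases k
          · exact h0
          · exact h6
          · exact h5
        · apply hu (-(v 2) / v 1)
          rw [map_div₀, map_neg, div_eq_iff ((map_ne_zero _).2 h6)]
          linear_combination -h5
      · refine ⟨-(v 2) / v 0, -(v 1) / v 0, ?_⟩
        have h6 : algebraMap KK M (v 0) ≠ 0 := (map_ne_zero _).2 h0
        apply mul_left_cancel₀ h6
        rw [map_div₀, map_div₀, map_neg, map_neg]
        field_simp
        linear_combination h4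
  have hloc := loc h3 hV
  obtain ⟨p, q, hpq⟩ := hV 1
  rw [one_mul] at hpq
  have hA0 : D.mat 0 = p • D.B2 - q • D.B1 := by
    have h1 : (D.mat 0)ᵀ = p • (D.B2)ᵀ - q • (D.B1)ᵀ := by
      apply Matrix.toLin'.injective
      apply LinearMap.ext
      intro x
      rw [Matrix.toLin'_apply, Matrix.toLin'_apply]
      obtain ⟨m, rfl⟩ : ∃ m, orb ρ m = x := ⟨_, orb_iot ρ h3 hfd x⟩
      rw [← hS, hloc, hpq, Matrix.sub_mulVec, Matrix.smul_mulVec, Matrix.smul_mulVec, hB1o]
      have h2 : m * (algebraMap KK M p + algebraMap KK M q * u) = p • m + q • (u * m) := by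
        simp only [Algebra.smul_def]
        ring
      rw [h2, map_add, map_smul, map_smul, Matrix.mulVec_add, Matrix.mulVec_smul,
        Matrix.mulVec_smul, smul_neg, sub_neg_eq_add]
    have h2 := congrArg transpose h1
    rwa [transpose_transpose, transpose_sub, transpose_smul, transpose_smul, transpose_transpose,
      transpose_transpose] at h2
  -- complex points of the plane cubic
  have hz : ∀ z : Fin 3 → ℂ, (z 0 • D.A 0 + z 1 • D.A 1 + z 2 • D.A 2).det = 0 →
      algebraMap ℂ KK (z 1) = (∑ j, tvec j * algebraMap ℂ KK (z j)) * q ∧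
      algebraMap ℂ KK (z 2) = -((∑ j, tvec j * algebraMap ℂ KK (z j)) * p) := by
    intro z hz
    set zt := ∑ j, tvec j * algebraMap ℂ KK (z j) with hzt
    have h1 : algebraMap ℂ KK (z 0) • D.mat 0 + algebraMap ℂ KK (z 1) • D.mat 1 +
        algebraMap ℂ KK (z 2) • D.mat 2 = (algebraMap ℂ KK (z 1) - zt * q) • D.B1 +
          (algebraMap ℂ KK (z 2) + zt * p) • D.B2 := by
      have e1 : D.mat 1 = D.B1 + tvec 1 • D.mat 0 := by rw [Data18.B1]; abel
      have e2 : D.mat 2 = D.B2 + tvec 2 • D.mat 0 := by rw [Data18.B2]; abel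
      rw [e1, e2]
      have e3 : algebraMap ℂ KK (z 0) • D.mat 0 + algebraMap ℂ KK (z 1) •
          (D.B1 + tvec 1 • D.mat 0) + algebraMap ℂ KK (z 2) • (D.B2 + tvec 2 • D.mat 0) =
          zt • D.mat 0 + algebraMap ℂ KK (z 1) • D.B1 + algebraMap ℂ KK (z 2) • D.B2 := by
        rw [hzt, Fin.sum_univ_three, Data18.tvec_zero]
        ext i j
        simp only [Matrix.add_apply, Matrix.smul_apply, smul_eq_mul]
        ring
      rw [e3, hA0]
      ext i j
      simp only [Matrix.add_apply, Matrix.sub_apply, Matrix.smul_apply, smul_eq_mul]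
      ring
    have h2 : (algebraMap ℂ KK (z 0) • D.mat 0 + algebraMap ℂ KK (z 1) • D.mat 1 +
        algebraMap ℂ KK (z 2) • D.mat 2).det = 0 := by
      have e1 : algebraMap ℂ KK (z 0) • D.mat 0 + algebraMap ℂ KK (z 1) • D.mat 1 +
          algebraMap ℂ KK (z 2) • D.mat 2 =
          (algebraMap ℂ KK).mapMatrix (z 0 • D.A 0 + z 1 • D.A 1 + z 2 • D.A 2) := by
        ext i j
        simp only [Data18.mat, Matrix.add_apply, Matrix.smul_apply, Matrix.map_apply,
          RingHom.mapMatrix_apply, smul_eq_mul, map_add, map_mul]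
      rw [e1, ← RingHom.map_det, hz, map_zero]
    rw [h1] at h2
    obtain ⟨h4, h5⟩ := det_pencil_ne hirr hdeg h2
    exact ⟨sub_eq_zero.1 h4, eq_neg_of_add_eq_zero_left h5⟩
  have hzt : ∀ z : Fin 3 → ℂ, z ≠ 0 → ∑ j, tvec j * algebraMap ℂ KK (z j) ≠ 0 :=
    fun z hz h => hz (tvec_indep h)
  obtain ⟨a, b, hab, hd⟩ := exists_singular (D.A 0) (D.A 1)
  have hp0 : p = 0 := by
    have h1 := (hz ![a, b, 0] (by simpa using hd)).2
    have h2 := hzt ![a, b, 0] (by
      intro h
      have e0 := congrFun h 0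
      have e1 := congrFun h 1
      simp at e0 e1
      rcases hab with hab | hab
      · exact hab e0
      · exact hab e1)
    simp only [Matrix.cons_val, map_zero] at h1
    have h4 := neg_eq_zero.1 h1.symm
    exact (mul_eq_zero.1 h4).resolve_left h2
  obtain ⟨a', b', hab', hd'⟩ := exists_singular (D.A 0) (D.A 2)
  have hq0 : q = 0 := by
    have h1 := (hz ![a', 0, b'] (by simpa using hd')).1
    have h2 := hzt ![a', 0, b'] (by
      intro h
      have e0 := congrFun h 0
      have e1 := congrFun h 2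
      simp at e0 e1
      rcases hab' with hab | hab
      · exact hab e0
      · exact hab e1)
    simp only [Matrix.cons_val, map_zero] at h1
    exact (mul_eq_zero.1 h1.symm).resolve_left h2
  obtain ⟨a'', b'', hab'', hd''⟩ := exists_singular (D.A 1) (D.A 2)
  obtain ⟨h1, h2⟩ := hz ![0, a'', b''] (by simpa using hd'')
  rw [hq0, mul_zero] at h1
  rw [hp0, mul_zero, neg_zero] at h2
  simp only [Matrix.cons_val, map_eq_zero] at h1 h2
  rcases hab'' with hab | hab
  · exact hab h1
  · exact hab h2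

end Vale.Agent.P287.H3
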