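import Vale.Agent.P287.H3.SingFalse

/-!
The cube of a smooth cubic fourfold has non zero discriminant.
-/

namespace Vale.Agent.P287.H3

open MvPolynomial TrivSqZeroExt Matrix

namespace Data18

variable {D : Data18}

/-- comparison of the coefficients -/
lemma coeffs {M : Type} [Field M] [Algebra KK M] {ι : (Fin 3 → KK) ≃ₗ[KK] M} {c : CubeData KK M}
    (hX : D.IsCube ι c) (x : Fin 3 → KK) :
    D.detX x * algebraMap ℂ KK D.a = D.detX x * c.a ∧
    D.detX x * D.lx tvec x = D.detX x * Algebra.trace KK M (c.α * ι x) ∧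
    D.detX x * D.ly tvec (D.star tvec x) =
      D.detX x * Algebra.trace KK M (c.β * adj KK (ι x)) ∧
    algebraMap ℂ KK D.b * D.detY (D.star tvec x) = D.detX x * (c.b * Algebra.norm KK (ι x)) := by
  have : CharZero KK := charZero_of_injective_algebraMap (algebraMap ℂ KK).injective
  have h3 : Module.finrank KK M = 3 := by
    rw [← ι.finrank_eq]; simp
  have key : ∀ r : KK, r ≠ 0 →
      D.detX x * (r * D.lx tvec x + r ^ 2 * D.ly tvec (D.star tvec x)) +
        algebraMap ℂ KK D.a * D.detX x +
        r ^ 3 * (algebraMap ℂ KK D.b * D.detY (D.star tvec x)) =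
      D.detX x * (c.a + r * Algebra.trace KK M (c.α * ι x) +
        r ^ 2 * Algebra.trace KK M (c.β * adj KK (ι x)) +
        r ^ 3 * (c.b * Algebra.norm KK (ι x))) := by
    intro r hr
    have h1 := hX (fun j => r * x j)
    have h2 : ι (fun j => r * x j) = r • ι x := by
      rw [← map_smul]
      rfl
    rw [value_star_smul, h2, detX_smul, CubeData.surf, adj_smul3 h3 hr, norm_smul3 h3,
      mul_smul_comm, mul_smul_comm, map_smul, map_smul, smul_eq_mul, smul_eq_mul] at h1
    have h4 : r ^ 3 ≠ 0 := pow_ne_zero 3 hr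
    apply mul_left_cancel₀ h4
    rw [h1]
    ring
  have k1 := key 1 one_ne_zero
  have k2 := key (-1) (neg_ne_zero.2 one_ne_zero)
  have k3 := key 2 two_ne_zero
  have k4 := key (-2) (neg_ne_zero.2 two_ne_zero)
  generalize D.detX x = d at k1 k2 k3 k4 ⊢
  generalize D.lx tvec x = l1 at k1 k2 k3 k4 ⊢
  generalize D.ly tvec (D.star tvec x) = l2 at k1 k2 k3 k4 ⊢
  generalize algebraMap ℂ KK D.a = a at k1 k2 k3 k4 ⊢
  generalize algebraMap ℂ KK D.b * D.detY (D.star tvec x) = b at k1 k2 k3 k4 ⊢
  generalize c.b * Algebra.norm KK (ι x) = c3 at k1 k2 k3 k4 ⊢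
  generalize Algebra.trace KK M (c.β * adj KK (ι x)) = c2 at k1 k2 k3 k4 ⊢
  generalize Algebra.trace KK M (c.α * ι x) = c1 at k1 k2 k3 k4 ⊢
  refine ⟨?_, ?_, ?_, ?_⟩
  · linear_combination (4 * k1 + 4 * k2 - k3 - k4) / 6
  · linear_combination (8 * k1 - 8 * k2 - k3 + k4) / 12
  · linear_combination (-k1 - k2 + k3 + k4) / 6
  · linear_combination (-2 * k1 + 2 * k2 + k3 - k4) / 12

/-- linear forms vanishing off the cubic curve vanish -/
lemma lin_zero {c : Fin 3 → ℂ} (h : ∀ z : Fin 3 → ℂ, ∑ j, c j * z j = 0) : c = 0 := by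
  funext j
  have h1 := h (Pi.single j 1)
  rw [Finset.sum_eq_single j (by
    intro i _ hi
    rw [Pi.single_eq_of_ne hi, mul_zero]) (fun h => absurd (Finset.mem_univ j) h),
    Pi.single_eq_same, mul_one] at h1
  exact h1

lemma detX_algebraMap (z : Fin 3 → ℂ) :
    D.detX (fun j => algebraMap ℂ KK (z j)) = algebraMap ℂ KK (D.detX z) :=
  (D.map_detX (Algebra.ofId ℂ KK) z).symm

lemma detY_algebraMap (z : Fin 3 → ℂ) :
    D.detY (fun j => algebraMap ℂ KK (z j)) = algebraMap ℂ KK (D.detY z) :=
  (D.map_detY (Algebra.ofId ℂ KK) z).symm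

/-- the first degenerate case -/
theorem false_of_alpha (hs : H925.IsSmooth D.form) {w : Fin 3 → ℂ} (hw : D.detX w ≠ 0)
    {M : Type} [Field M] [Algebra KK M] {ι : (Fin 3 → KK) ≃ₗ[KK] M} {c : CubeData KK M}
    (hX : D.IsCube ι c) (ha : c.a = 0) (hα : c.α = 0) : False := by
  have hDa : D.a = 0 := by
    have h1 := (coeffs hX (fun j => algebraMap ℂ KK (w j))).1
    rw [detX_algebraMap, ha, mul_zero, ← map_mul, map_eq_zero] at h1
    exact (mul_eq_zero.1 h1).resolve_left hw
  have hl : ∀ z : Fin 3 → ℂ, D.detX z ≠ 0 → ∀ i, ∑ j, D.α i j * z j = 0 := by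
    intro z hz
    have h1 := (coeffs hX (fun j => algebraMap ℂ KK (z j))).2.1
    rw [detX_algebraMap, hα, zero_mul, map_zero, mul_zero] at h1
    have h2 := (mul_eq_zero.1 h1).resolve_left ((map_ne_zero _).2 hz)
    have h3 := tvec_indep (k := fun i => ∑ j, D.α i j * z j) (by
      rw [← h2, lx]
      refine Finset.sum_congr rfl fun i _ => ?_
      rw [map_sum]
      congr 1
      refine Finset.sum_congr rfl fun j _ => ?_
      rw [map_mul])
    intro i
    exact congrFun h3 i
  have hDα : D.α = 0 := by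
    funext i
    apply lin_zero
    have hp : (∑ j, C (D.α i j) * X j : MvPolynomial (Fin 3) ℂ) * D.detX X = 0 := by
      apply MvPolynomial.funext
      intro z
      rw [map_mul, map_zero, map_sum]
      by_cases hz : D.detX z = 0
      · have h5 : eval z (D.detX X) = D.detX z := by
          rw [H925.eval_eq_aeval, D.map_detX]
          simp
        rw [h5, hz, mul_zero]
      · have h6 := hl z hz i
        have h7 : ∑ x, (eval z) (C (D.α i x) * X x) = ∑ j, D.α i j * z j := by
          refine Finset.sum_congr rfl fun j _ => ?_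
          rw [map_mul, eval_C, eval_X]
        rw [h7, h6, zero_mul]
    have hd : D.detX (X : Fin 3 → MvPolynomial (Fin 3) ℂ) ≠ 0 := by
      intro h0
      have h1 := D.map_detX (MvPolynomial.aeval w : MvPolynomial (Fin 3) ℂ →ₐ[ℂ] ℂ) X
      rw [h0, map_zero] at h1
      apply hw
      rw [h1]
      congr 1
      funext j
      simp
    have h8 := (mul_eq_zero.1 hp).resolve_right hd
    intro z
    have h9 := congrArg (eval z) h8
    rw [map_sum, map_zero] at h9
    rw [← h9]
    refine Finset.sum_congr rfl fun j _ => ?_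
    rw [map_mul, eval_C, eval_X]
  -- singular points
  have hv : ∀ v u : Fin 3 → ℂ, D.dval (![1, 0, 0] : Fin 3 → ℂ) 0 v u = 0 := by
    intro v u
    have h1 := D.value_dual (![1, 0, 0] : Fin 3 → ℂ) 0 v u
    have h2 := congrArg TrivSqZeroExt.snd h1
    simp only [snd_add, snd_inl, snd_inr, zero_add] at h2
    rw [← h2]
    set x := fun j => (inl ((![1, 0, 0] : Fin 3 → ℂ) j) + inr (v j) : TrivSqZeroExt ℂ ℂ)
    set y := fun j => (inl ((0 : Fin 3 → ℂ) j) + inr (u j) : TrivSqZeroExt ℂ ℂ) with hy
    have hy0 : ∀ j, (y j).fst = 0 := by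
      intro j
      simp [hy]
    have hyy : ∀ j k, y j * y k = 0 := fun j k => fst_zero_mul (hy0 j) (hy0 k)
    have h4 : D.value x y = 0 := by
      have e1 : ∀ i, D.l i x y * dot (D.left i x) y = 0 := by
        intro i
        apply fst_zero_mul
        · simp [l, hDα, hy0, Fin.sum_univ_three]
        · simp [dot, hy0]
      have e2 : D.detY y = 0 := by
        have e3 : ∀ i j k l, D.right i y j * D.right k y l = 0 := by
          intro i j k l
          apply fst_zero_mul
          · simp [right, hy0, Fin.sum_univ_three]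
          · simp [right, hy0, Fin.sum_univ_three]
        simp [detY, det3, dot, cross, e3]
      simp only [value, e1, e2, hDa]
      simp
    rw [h4, snd_zero]
  have hP := pderiv_of_dval (D := D) (fun v => hv v 0) (fun u => hv 0 u)
  have h1 := hs _ (fun i => by rw [H925.eval_eq_aeval]; exact hP i)
  have h2 := congrFun h1 0
  simp at h2

lemma map_ly {R S : Type*} [CommRing R] [Algebra ℂ R] [CommRing S] [Algebra ℂ S] (f : R →ₐ[ℂ] S)
    (t y : Fin 3 → R) : f (D.ly t y) = D.ly (fun j => f (t j)) (fun j => f (y j)) := by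
  simp [ly]

lemma ly_smul (t y : Fin 3 → KK) (r : KK) : D.ly t (r • y) = r * D.ly t y := by
  simp [ly, Fin.sum_univ_three]
  ring

/-- the second degenerate case -/
theorem false_of_beta (hs : H925.IsSmooth D.form) (hP : Irreducible D.plane) {w : Fin 3 → ℂ}
    (hw : D.detX w ≠ 0) {M : Type} [Field M] [Algebra KK M] {ι : (Fin 3 → KK) ≃ₗ[KK] M}
    {c : CubeData KK M} (hX : D.IsCube ι c) (hb : c.b = 0) (hβ : c.β = 0) : False := by
  have hly : ∀ x, D.ly tvec (D.star tvec x) = 0 := by
    have hp : D.detX (X : Fin 3 → RR) * D.ly (fun j => (C (tvec j) : RR))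
        (D.star (fun j => (C (tvec j) : RR)) X) = 0 := by
      apply MvPolynomial.funext
      intro x
      rw [map_mul, map_zero, ← evC_apply, ← evC_apply, D.map_detX, D.map_ly]
      have e1 : (fun j => evC x (X j : RR)) = x := by
        funext j
        rw [evC_apply, eval_X]
      have e2 : (fun j => evC x (C (tvec j) : RR)) = tvec := by
        funext j
        rw [evC_apply, eval_C]
      have e3 : (fun k => evC x (D.star (fun j => (C (tvec j) : RR)) X k)) = D.star tvec x := by
        funext k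
        rw [D.map_star, e1, e2]
      rw [e1, e2, e3]
      have h1 := (coeffs hX x).2.2.1
      rw [hβ, zero_mul, map_zero, mul_zero] at h1
      exact h1
    have hd : D.detX (X : Fin 3 → RR) ≠ 0 := by
      intro h0
      have h2 := congrArg (evC fun j => algebraMap ℂ KK (w j)) h0
      rw [D.map_detX, map_zero] at h2
      have e1 : (fun j => evC (fun j => algebraMap ℂ KK (w j)) (X j : RR)) =
          fun j => algebraMap ℂ KK (w j) := by
        funext j
        rw [evC_apply, eval_X]
      rw [e1, detX_algebraMap, map_eq_zero] at h2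
      exact hw h2
    have hp0 := (mul_eq_zero.1 hp).resolve_left hd
    intro x
    have h1 := congrArg (evC x) hp0
    rw [D.map_ly, map_zero] at h1
    have e1 : (fun j => evC x (X j : RR)) = x := by
      funext j
      rw [evC_apply, eval_X]
    have e2 : (fun j => evC x (C (tvec j) : RR)) = tvec := by
      funext j
      rw [evC_apply, eval_C]
    have e3 : (fun k => evC x (D.star (fun j => (C (tvec j) : RR)) X k)) = D.star tvec x := by
      funext k
      rw [D.map_star, e1, e2]
    rw [e2, e3] at h1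
    exact h1
  have hdy : ∀ x, algebraMap ℂ KK D.b * D.detY (D.star tvec x) = 0 := by
    intro x
    have h1 := (coeffs hX x).2.2.2
    rw [hb, zero_mul, mul_zero] at h1
    exact h1
  obtain ⟨hirr, hdeg⟩ := irreducible_pencil hP
  obtain ⟨N, i1, i2, h3, ρ, u, hB2, hB1⟩ := exists_rep hirr hdeg
  have hfd : FiniteDimensional KK N := FiniteDimensional.of_finrank_pos (by omega)
  set y0 := D.star tvec ![1, 0, 0] with hy0
  have hso := D.star_orb ρ h3 hfd hB2 hB1
  have hy0' : y0 ≠ 0 := by
    intro h
    have h1 : ∀ x, D.star tvec x = 0 := by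
      intro x
      have h2 := hso (iot ρ h3 hfd x)
      rw [orb_iot, ← hy0, h, Matrix.mulVec_zero] at h2
      exact h2
    have h2 := D.q_star tvec (fun j => algebraMap ℂ KK (w j)) 0
    rw [h1, tvec_zero, one_mul, detX_algebraMap] at h2
    have h4 : dot (D.left 0 fun j => algebraMap ℂ KK (w j)) (0 : Fin 3 → KK) = 0 := by
      simp [dot]
    rw [h4] at h2
    exact hw ((map_eq_zero _).1 h2.symm)
  let g : N →ₗ[KK] (Fin 3 → KK) :=
    { toFun := fun n => rhoY ρ D.B2 n *ᵥ y0
      map_add' := fun a b => by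
        rw [rhoY, rhoY, rhoY, map_add, Matrix.transpose_add, Matrix.mul_add, Matrix.add_mul,
          Matrix.add_mulVec]
      map_smul' := fun r a => by
        rw [rhoY, rhoY, map_smul, Matrix.transpose_smul, Matrix.mul_smul, Matrix.smul_mul,
          Matrix.smul_mulVec]
        rfl }
  have hginj : Function.Injective g := by
    rw [injective_iff_map_eq_zero]
    intro n hn
    by_contra h0
    have hn' : rhoY ρ D.B2 n *ᵥ y0 = 0 := hn
    apply hy0'
    have h1 : rhoY ρ D.B2 n⁻¹ * rhoY ρ D.B2 n = 1 := by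
      rw [rhoY, rhoY]
      calc D.B2⁻¹ * (ρ n⁻¹)ᵀ * D.B2 * (D.B2⁻¹ * (ρ n)ᵀ * D.B2)
          = D.B2⁻¹ * (ρ n⁻¹)ᵀ * (D.B2 * D.B2⁻¹) * (ρ n)ᵀ * D.B2 := by
            simp only [Matrix.mul_assoc]
        _ = D.B2⁻¹ * ((ρ n⁻¹)ᵀ * (ρ n)ᵀ) * D.B2 := by
          rw [Matrix.mul_nonsing_inv _ hB2, Matrix.mul_one]; simp only [Matrix.mul_assoc]
        _ = 1 := by
          rw [← transpose_mul, ← map_mul, mul_inv_cancel₀ h0, map_one, transpose_one,
            Matrix.mul_one, Matrix.nonsing_inv_mul _ hB2]
    have h2 := congrArg (fun v => rhoY ρ D.B2 n⁻¹ *ᵥ v) hn'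
    simp only [Matrix.mulVec_mulVec, h1, Matrix.one_mulVec, Matrix.mulVec_zero] at h2
    exact h2
  have hgsurj : Function.Surjective g :=
    (LinearMap.injective_iff_surjective_of_finrank_eq_finrank (by rw [h3]; simp)).1 hginj
  have hscale : ∀ y : Fin 3 → KK, ∃ (x : Fin 3 → KK) (r : KK), r ≠ 0 ∧ D.star tvec x = r • y := by
    intro y
    obtain ⟨n, rfl⟩ := hgsurj y
    by_cases hn : n = 0
    · refine ⟨0, 1, one_ne_zero, ?_⟩
      rw [hn, map_zero, smul_zero]
      have h1 := hso 0
      have h4 : adj KK (0 : N) = 0 := by simp [adj]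
      rw [map_zero, h4] at h1
      rw [h1]
      exact map_zero g
    · refine ⟨orb ρ (adj KK n), Algebra.norm KK n, ?_, ?_⟩
      · rw [Ne, Algebra.norm_eq_zero_iff]
        exact hn
      · rw [hso, adj_adj h3, ← Algebra.smul_def]
        exact map_smul g _ _
  have hDβ : D.β = 0 := by
    have hz : ∀ z : Fin 3 → ℂ, (fun i => ∑ j, D.β i j * z j) = 0 := by
      intro z
      apply tvec_indep
      obtain ⟨x, r, hr, hx⟩ := hscale (fun j => algebraMap ℂ KK (z j))
      have h1 := hly x
      rw [hx, ly_smul] at h1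
      have h2 := (mul_eq_zero.1 h1).resolve_left hr
      rw [← h2, ly]
      refine Finset.sum_congr rfl fun i _ => ?_
      rw [map_sum]
      congr 1
      refine Finset.sum_congr rfl fun j _ => ?_
      rw [map_mul]
    funext i
    apply lin_zero
    intro z
    exact congrFun (hz z) i
  have hDb : ∀ z : Fin 3 → ℂ, D.b * D.detY z = 0 := by
    intro z
    obtain ⟨x, r, hr, hx⟩ := hscale (fun j => algebraMap ℂ KK (z j))
    have h1 := hdy x
    have h2 : D.star tvec x = fun j => r * algebraMap ℂ KK (z j) := hx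
    rw [h2, detY_smul, detY_algebraMap] at h1
    apply (algebraMap ℂ KK).injective
    rw [map_mul, map_zero]
    have h4 : r ^ 3 * (algebraMap ℂ KK D.b * algebraMap ℂ KK (D.detY z)) = 0 := by
      linear_combination h1
    exact (mul_eq_zero.1 h4).resolve_left (pow_ne_zero 3 hr)
  have hDb' : algebraMap ℂ (MvPolynomial (Fin 3) ℂ) D.b * D.detY X = 0 := by
    apply MvPolynomial.funext
    intro z
    rw [map_zero, map_mul]
    have h5 : eval z (D.detY X) = D.detY z := by
      rw [H925.eval_eq_aeval, D.map_detY]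
      simp
    have h6 : eval z (algebraMap ℂ (MvPolynomial (Fin 3) ℂ) D.b) = D.b := eval_C _
    rw [h5, h6]
    exact hDb z
  have hv : ∀ v u : Fin 3 → ℂ, D.dval (0 : Fin 3 → ℂ) ![1, 0, 0] v u = 0 := by
    intro v u
    have h1 := D.value_dual (0 : Fin 3 → ℂ) ![1, 0, 0] v u
    have h2 := congrArg TrivSqZeroExt.snd h1
    simp only [snd_add, snd_inl, snd_inr, zero_add] at h2
    rw [← h2]
    set x := fun j => (inl ((0 : Fin 3 → ℂ) j) + inr (v j) : TrivSqZeroExt ℂ ℂ) with hx
    set y := fun j => (inl ((![1, 0, 0] : Fin 3 → ℂ) j) + inr (u j) : TrivSqZeroExt ℂ ℂ)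
    have hx0 : ∀ j, (x j).fst = 0 := by
      intro j
      simp [hx]
    have h4 : D.value x y = 0 := by
      have e0 : ∀ i j, (D.left i x j).fst = 0 := by
        intro i j
        simp [left, hx0, Fin.sum_univ_three]
      have e1 : ∀ i, D.l i x y * dot (D.left i x) y = 0 := by
        intro i
        apply fst_zero_mul
        · simp [l, hDβ, hx0, Fin.sum_univ_three]
        · simp [dot, e0]
      have e2 : D.detX x = 0 := by
        have e3 : ∀ i j k l, D.left i x j * D.left k x l = 0 := by
          intro i j k l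
          exact fst_zero_mul (e0 i j) (e0 k l)
        simp [detX, det3, dot, cross, e3]
      have e3 : algebraMap ℂ (TrivSqZeroExt ℂ ℂ) D.b * D.detY y = 0 := by
        have h5 := congrArg (MvPolynomial.aeval y : MvPolynomial (Fin 3) ℂ →ₐ[ℂ] _) hDb'
        rw [map_mul, AlgHom.commutes, D.map_detY, map_zero] at h5
        simpa using h5
      simp only [value, e1, e2, e3]
      simp
    rw [h4, snd_zero]
  have hP' := pderiv_of_dval (D := D) (fun v => hv v 0) (fun u => hv 0 u)
  have h1 := hs _ (fun i => by rw [H925.eval_eq_aeval]; exact hP' i)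
  have h2 := congrFun h1 3
  simp at h2

/-- The cube of a smooth cubic fourfold has non zero discriminant. -/
theorem disc_ne_zero (hs : H925.IsSmooth D.form) (hP : Irreducible D.plane)
    {M : Type} [Field M] [Algebra KK M] {ι : (Fin 3 → KK) ≃ₗ[KK] M} {c : CubeData KK M}
    (hX : D.IsCube ι c) : c.disc ≠ 0 := by
  intro h0
  have : CharZero KK := charZero_of_injective_algebraMap (algebraMap ℂ KK).injective
  have h3 : Module.finrank KK M = 3 := by
    rw [← ι.finrank_eq]; simp
  have hfd : FiniteDimensional KK M := FiniteDimensional.of_finrank_pos (by omega)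
  obtain ⟨w, hw⟩ := exists_detX hP
  obtain ⟨e⟩ := exists_emb (K := KK) (M := M) (Ω := AlgebraicClosure KK) h3
  rcases disc_zero e c h3 h0 with ⟨h1, h2⟩ | ⟨h1, h2⟩ | ⟨x, hx, h⟩
  · exact false_of_alpha hs hw hX h1 h2
  · exact false_of_beta hs hP hw hX h1 h2
  · exact sing_false hs hw ι hX hx h

end Data18

end Vale.Agent.P287.H3
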