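import Vale.Agent.P287.H3.Forms
import Vale.Agent.P287.H3.Defs

/-!
The cubic field acting on the fibres of the sextic del Pezzo fibration.
-/

namespace Vale.Agent.P287.H3

open Matrix

section

variable {K : Type*} [Field K]

lemma cross_mulVec (P : Matrix (Fin 3) (Fin 3) K) (u v : Fin 3 → K) :
    cross (P *ᵥ u) (P *ᵥ v) = P.adjugateᵀ *ᵥ cross u v := by
  funext k
  fin_cases k <;>
    simp [cross, Matrix.mulVec, dotProduct, Fin.sum_univ_three, Matrix.adjugate_fin_three] <;> ring

end

section

variable {K M : Type*} [Field K] [Field M] [Algebra K M]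

lemma adj_adj [FiniteDimensional K M] (h3 : Module.finrank K M = 3) (x : M) :
    adj K (adj K x) = algebraMap K M (Algebra.norm K x) * x := by
  by_cases hx : x = 0
  · subst hx
    simp [adj]
  have hn : Algebra.norm K x ≠ 0 := by
    rw [Ne, Algebra.norm_eq_zero_iff]
    exact hx
  have hn' : algebraMap K M (Algebra.norm K x) ≠ 0 := by
    rwa [Ne, map_eq_zero]
  have h1 : Algebra.norm K (algebraMap K M (Algebra.norm K x) * x⁻¹) = Algebra.norm K x ^ 2 := by
    rw [map_mul, Algebra.norm_algebraMap, h3]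
    have h2 : Algebra.norm K x * Algebra.norm K x⁻¹ = 1 := by
      rw [← map_mul, mul_inv_cancel₀ hx, map_one]
    linear_combination (Algebra.norm K x) ^ 2 * h2
  rw [adj, adj, h1, map_pow]
  field_simp

/-- functionals on a separable extension -/
lemma exists_trace_rep [FiniteDimensional K M] [Algebra.IsSeparable K M] (Λ : M →ₗ[K] K) :
    ∃ α : M, ∀ m, Λ m = Algebra.trace K M (α * m) := by
  refine ⟨(LinearMap.BilinForm.toDual (Algebra.traceForm K M)
    (traceForm_nondegenerate K M)).symm Λ, fun m => ?_⟩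
  have h := LinearMap.BilinForm.apply_toDual_symm_apply (B := Algebra.traceForm K M)
    (hB := traceForm_nondegenerate K M) Λ m
  rw [← h]
  rfl

end

/-- The pencil of bilinear forms. -/
noncomputable def pencil {K : Type*} [Field K] (B1 B2 : Matrix (Fin 3) (Fin 3) K) : Polynomial K :=
  det ((Polynomial.X : Polynomial K) • B2.map Polynomial.C + B1.map Polynomial.C)

lemma pencil_eq {K : Type*} [Field K] {B1 B2 U : Matrix (Fin 3) (Fin 3) K}
    (h : B1ᵀ = -(B2ᵀ * U)) : pencil B1 B2 = Polynomial.C B2.det * U.charpoly := by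
  have h0 : B1 = -(Uᵀ * B2) := by
    have h1 := congrArg transpose h
    rwa [transpose_transpose, transpose_neg, transpose_mul, transpose_transpose] at h1
  have h2 : (Polynomial.X : Polynomial K) • B2.map Polynomial.C + B1.map Polynomial.C =
      Uᵀ.charmatrix * B2.map (Polynomial.C : K →+* Polynomial K) := by
    rw [Matrix.charmatrix, Matrix.sub_mul]
    have e1 : (Polynomial.C.mapMatrix Uᵀ) * (B2.map (Polynomial.C : K →+* Polynomial K)) =
        -(B1.map (Polynomial.C : K →+* Polynomial K)) := by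
      have e2 : (Polynomial.C.mapMatrix Uᵀ) * (B2.map (Polynomial.C : K →+* Polynomial K)) =
          (Uᵀ * B2).map (Polynomial.C : K →+* Polynomial K) := by
        rw [Matrix.map_mul]
        rfl
      rw [e2, h0]
      ext i j
      simp
    rw [e1, sub_neg_eq_add]
    congr 1
    ext i j
    simp
  have h3 : det (B2.map (Polynomial.C : K →+* Polynomial K)) = Polynomial.C B2.det :=
    (RingHom.map_det Polynomial.C B2).symm
  rw [pencil, h2, det_mul, h3, ← Matrix.charpoly, Matrix.charpoly_transpose, mul_comm]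

lemma coeff_pencil {K : Type*} [Field K] (B1 B2 : Matrix (Fin 3) (Fin 3) K) :
    (pencil B1 B2).coeff 3 = B2.det := by
  have h1 := Polynomial.coeff_det_X_add_C_card B2 B1
  rwa [Fintype.card_fin] at h1

/-- The representation of an extension given by a root of a multiple of the characteristic
polynomial. -/
theorem exists_rep_aux {K : Type} [Field K] {f : Polynomial K} (hirr : Irreducible f)
    {U : Matrix (Fin 3) (Fin 3) K} (hfU : Polynomial.aeval U f = 0) :
    ∃ (M : Type) (_ : Field M) (_ : Algebra K M), Module.finrank K M = f.natDegree ∧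
      ∃ (ρ : M →ₐ[K] Matrix (Fin 3) (Fin 3) K) (u : M), ρ u = U := by
  have hfact : Fact (Irreducible f) := ⟨hirr⟩
  let ρ : AdjoinRoot f →ₐ[K] Matrix (Fin 3) (Fin 3) K :=
    Ideal.Quotient.liftₐ (Ideal.span {f}) (Polynomial.aeval U) (by
      intro a ha
      rw [Ideal.mem_span_singleton] at ha
      obtain ⟨b, rfl⟩ := ha
      rw [map_mul, hfU, zero_mul])
  refine ⟨AdjoinRoot f, inferInstance, inferInstance, ?_, ρ, AdjoinRoot.root f, ?_⟩
  · rw [(AdjoinRoot.powerBasis hirr.ne_zero).finrank, AdjoinRoot.powerBasis_dim]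
  · have h1 : ρ (AdjoinRoot.root f) = Polynomial.aeval U (Polynomial.X : Polynomial K) := rfl
    rw [h1, Polynomial.aeval_X]

/-- A representation of a cubic field on `K³` compatible with a pencil of bilinear forms. -/
theorem exists_rep {K : Type} [Field K] {B1 B2 : Matrix (Fin 3) (Fin 3) K}
    (hirr : Irreducible (pencil B1 B2)) (hdeg : (pencil B1 B2).natDegree = 3) :
    ∃ (M : Type) (_ : Field M) (_ : Algebra K M), Module.finrank K M = 3 ∧
      ∃ (ρ : M →ₐ[K] Matrix (Fin 3) (Fin 3) K) (u : M), IsUnit B2.det ∧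
        B1ᵀ = -(B2ᵀ * ρ u) := by
  have hB2 : B2.det ≠ 0 := by
    intro h0
    apply hirr.ne_zero
    rw [← Polynomial.leadingCoeff_eq_zero, Polynomial.leadingCoeff, hdeg, coeff_pencil, h0]
  have hu : IsUnit B2.det := isUnit_iff_ne_zero.2 hB2
  have hut : IsUnit B2ᵀ.det := by rwa [det_transpose]
  obtain ⟨U, hU⟩ : ∃ U : Matrix (Fin 3) (Fin 3) K, B1ᵀ = -(B2ᵀ * U) := by
    refine ⟨-((B2ᵀ)⁻¹ * B1ᵀ), ?_⟩
    rw [mul_neg, neg_neg, ← mul_assoc, mul_nonsing_inv _ hut, one_mul]
  have hfU : Polynomial.aeval U (pencil B1 B2) = 0 := by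
    rw [pencil_eq hU, map_mul, Matrix.aeval_self_charpoly, mul_zero]
  obtain ⟨M, i1, i2, h3, ρ, u, hρ⟩ := exists_rep_aux hirr hfU
  refine ⟨M, i1, i2, by rw [h3, hdeg], ρ, u, hu, ?_⟩
  rw [hρ]
  exact hU

end Vale.Agent.P287.H3
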