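import Vale.Agent.P287.H3.Iso2
import Vale.Agent.P287.H3.XCube

/-!
Cubes with zero discriminant.
-/

namespace Vale.Agent.P287.H3

section cubes

variable {Ω : Type*} [Field Ω]

/-- the translate of a cube -/
def Cube.tra (c : Cube Ω) (x : Fin 3 → Ω) : Cube Ω :=
  ⟨c.G x, c.α + polar c.β x + c.b • sharp x, c.β + c.b • x, c.b⟩

lemma Cube.tra_P (c : Cube Ω) (x : Fin 3 → Ω) (i : Fin 3) :
    (c.tra x).P i = c.P i + c.Qm i * x i + c.R i * x i ^ 2 := by
  revert i
  rw [forall3]
  refine ⟨?_, ?_, ?_⟩ <;>
  · simp only [Cube.tra, Cube.P, Cube.Qm, Cube.R, Cube.G, tr, nm, polar, Pi.add_apply,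
      Pi.mul_apply, Pi.smul_apply, Pi.sub_apply, smul_eq_mul, sharp0, sharp1, sharp2]
    ring

lemma Cube.tra_Qm (c : Cube Ω) (x : Fin 3 → Ω) (i : Fin 3) :
    (c.tra x).Qm i = c.Qm i + 2 * (c.R i * x i) := by
  revert i
  rw [forall3]
  refine ⟨?_, ?_, ?_⟩ <;>
  · simp only [Cube.tra, Cube.Qm, Cube.R, Cube.G, tr, nm, polar, Pi.add_apply,
      Pi.mul_apply, Pi.smul_apply, Pi.sub_apply, smul_eq_mul, sharp0, sharp1, sharp2]
    ring

lemma Cube.tra_R (c : Cube Ω) (x : Fin 3 → Ω) (i : Fin 3) : (c.tra x).R i = c.R i := by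
  revert i
  rw [forall3]
  refine ⟨?_, ?_, ?_⟩ <;>
  · simp only [Cube.tra, Cube.R, polar, Pi.add_apply,
      Pi.smul_apply, Pi.sub_apply, smul_eq_mul, sharp0, sharp1, sharp2]
    ring

lemma Cube.tra_G (c : Cube Ω) (x y : Fin 3 → Ω) : (c.tra x).G y = c.G (x + y) := by
  simp only [Cube.tra, Cube.G, tr, nm, polar, Pi.add_apply,
    Pi.mul_apply, Pi.smul_apply, Pi.sub_apply, smul_eq_mul, sharp0, sharp1, sharp2]
  ring

end cubes

variable {K M Ω : Type*} [Field K] [Field M] [Field Ω] [Algebra K M] [Algebra K Ω]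

namespace CubeData

variable (c : CubeData K M)

/-- first coefficient of the quadratic form -/
noncomputable def qa : M := adj K c.α - algebraMap K M c.a * c.β

/-- second coefficient of the quadratic form -/
noncomputable def qb : M :=
  algebraMap K M (Algebra.trace K M (c.α * c.β) - c.a * c.b) - 2 * (c.α * c.β)

/-- third coefficient of the quadratic form -/
noncomputable def qc : M := adj K c.β - algebraMap K M c.b * c.α

/-- the translate of a cube -/
noncomputable def tra (x : M) : CubeData K M :=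
  ⟨c.surf x, c.α + (adj K (c.β + x) - adj K c.β - adj K x) + c.b • adj K x, c.β + c.b • x, c.b⟩

end CubeData

namespace Emb

variable (e : Emb K M Ω) (c : CubeData K M)

lemma vec_qa : e.vec c.qa = (e.cube c).P := by
  funext i
  rw [CubeData.qa, map_sub, vec_mul, vec_adj, vec_algebraMap]
  simp [Cube.P, cube]

lemma vec_qb : e.vec c.qb = (e.cube c).Qm := by
  funext i
  have h1 := e.tr_vec (c.α * c.β)
  have h2 : e.vec (2 : M) = 2 := by
    funext i
    exact map_ofNat (e.σ i) 2
  rw [CubeData.qb, map_sub, vec_mul, vec_mul, vec_algebraMap, h2]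
  rw [vec_mul] at h1
  simp only [Cube.Qm, cube, h1, Pi.sub_apply, Pi.mul_apply, Pi.ofNat_apply, map_sub, map_mul]
  ring

lemma vec_qc : e.vec c.qc = (e.cube c).R := by
  funext i
  rw [CubeData.qc, map_sub, vec_mul, vec_adj, vec_algebraMap]
  simp [Cube.R, cube]

lemma cube_tra (x : M) : e.cube (c.tra x) = (e.cube c).tra (e.vec x) := by
  simp only [cube, CubeData.tra, Cube.tra]
  congr 1
  · exact (e.G_vec c x).symm
  · simp only [map_add, map_sub, map_smul, vec_adj, polar]
    congr 1
    funext i
    simp [Algebra.smul_def]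
  · simp only [map_add, map_smul]
    congr 1
    funext i
    simp [Algebra.smul_def]

end Emb

variable (e : Emb K M Ω) (c : CubeData K M)

include e

lemma surf_tra (x y : M) : (c.tra x).surf y = c.surf (x + y) := by
  apply (algebraMap K Ω).injective
  rw [← e.G_vec, ← e.G_vec, e.cube_tra, Cube.tra_G, map_add]

lemma qa_tra (x : M) : (c.tra x).qa = c.qa + c.qb * x + c.qc * x ^ 2 := by
  apply e.vec_injective
  funext i
  rw [e.vec_qa, e.cube_tra, Cube.tra_P, map_add, map_add, e.vec_mul, e.vec_mul, e.vec_qa,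
    e.vec_qb, e.vec_qc]
  simp

lemma qb_tra (x : M) : (c.tra x).qb = c.qb + 2 * (c.qc * x) := by
  apply e.vec_injective
  funext i
  have h2 : e.vec (2 : M) = 2 := by
    funext i
    exact map_ofNat (e.σ i) 2
  rw [e.vec_qb, e.cube_tra, Cube.tra_Qm, map_add, e.vec_mul, e.vec_mul, e.vec_qb, e.vec_qc, h2]
  simp

lemma qc_tra (x : M) : (c.tra x).qc = c.qc := by
  apply e.vec_injective
  funext i
  rw [e.vec_qc, e.cube_tra, Cube.tra_R, e.vec_qc]

lemma disc_quad : c.qb ^ 2 - 4 * (c.qa * c.qc) = algebraMap K M c.disc := by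
  apply e.vec_injective
  funext i
  have h := (e.cube c).disc_eq i
  rw [e.disc_cube, ← e.vec_qa, ← e.vec_qb, ← e.vec_qc] at h
  simp only [Emb.vec_apply, map_sub, map_pow, map_mul, map_ofNat, AlgHom.commutes] at h ⊢
  exact h

omit e

variable (K) in
lemma adj_eq_zero [FiniteDimensional K M] {x : M} (h : adj K x = 0) : x = 0 := by
  by_contra hx
  rw [adj] at h
  rcases mul_eq_zero.1 h with h1 | h1
  · rw [map_eq_zero, Algebra.norm_eq_zero_iff] at h1
    exact hx h1
  · exact hx (inv_eq_zero.1 h1)

/-- the product of an element and its adjoint -/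
lemma mul_adj [FiniteDimensional K M] (x : M) : x * adj K x = algebraMap K M (Algebra.norm K x) := by
  by_cases hx : x = 0
  · subst hx
    rw [zero_mul, Algebra.norm_zero, map_zero]
  · rw [adj]
    field_simp

include e

/-- Cubes of discriminant zero: the surface is a cone, or its point at infinity is singular, or it
has a singular point different from the origin. -/
theorem disc_zero [CharZero K] [FiniteDimensional K M] (h3 : Module.finrank K M = 3)
    (h : c.disc = 0) :
    (c.a = 0 ∧ c.α = 0) ∨ (c.b = 0 ∧ c.β = 0) ∨ ∃ x : M, x ≠ 0 ∧ ∀ y, c.surf (x + y) =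
      Algebra.trace K M ((c.β + c.b • x) * adj K y) + c.b * Algebra.norm K y := by
  have hcM : CharZero M := charZero_of_injective_algebraMap (algebraMap K M).injective
  have hdq := disc_quad e c
  rw [h, map_zero] at hdq
  -- a criterion
  have key : ∀ x : M, (c.tra x).a = 0 → (c.tra x).α = 0 →
      (c.a = 0 ∧ c.α = 0) ∨ (c.b = 0 ∧ c.β = 0) ∨ ∃ x : M, x ≠ 0 ∧ ∀ y, c.surf (x + y) =
        Algebra.trace K M ((c.β + c.b • x) * adj K y) + c.b * Algebra.norm K y := by
    intro x ha hα
    by_cases hx : x = 0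
    · left
      subst hx
      have h1 : (c.tra 0).a = c.surf 0 := rfl
      have h2 : (c.tra 0).α = c.α + (adj K (c.β + 0) - adj K c.β - adj K 0) + c.b • adj K (0 : M) := rfl
      have h4 : adj K (0 : M) = 0 := by simp [adj]
      rw [h1] at ha
      rw [h2, add_zero, h4] at hα
      refine ⟨?_, ?_⟩
      · rw [← ha]
        simp [CubeData.surf, h4]
      · rw [← hα]
        simp
    · right; right
      refine ⟨x, hx, fun y => ?_⟩
      rw [← surf_tra e, CubeData.surf, ha, hα]
      simp [CubeData.tra]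
  by_cases hc : c.qc = 0
  · have hb : c.qb = 0 := by
      rw [hc, mul_zero, mul_zero, sub_zero] at hdq
      exact pow_eq_zero_iff (by norm_num) |>.1 hdq
    by_cases hb0 : c.b = 0
    · right; left
      refine ⟨hb0, ?_⟩
      rw [CubeData.qc, hb0, map_zero, zero_mul, sub_zero] at hc
      exact adj_eq_zero K hc
    · have hb0' : algebraMap K M c.b ≠ 0 := (map_ne_zero _).2 hb0
      have hβ : (c.tra (-((c.b)⁻¹ • c.β))).β = 0 := by
        change c.β + c.b • (-((c.b)⁻¹ • c.β)) = 0
        rw [smul_neg, smul_smul, mul_inv_cancel₀ hb0, one_smul, add_neg_cancel]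
      have hbt : (c.tra (-((c.b)⁻¹ • c.β))).b = c.b := rfl
      have hα : (c.tra (-((c.b)⁻¹ • c.β))).α = 0 := by
        have h1 := qc_tra e c (-((c.b)⁻¹ • c.β))
        rw [hc, CubeData.qc, hβ, hbt] at h1
        have h4 : adj K (0 : M) = 0 := by simp [adj]
        rw [h4, zero_sub, neg_eq_zero] at h1
        exact (mul_eq_zero.1 h1).resolve_left hb0'
      apply key _ _ hα
      have h1 := qb_tra e c (-((c.b)⁻¹ • c.β))
      rw [hc, hb, CubeData.qb, hβ, hbt, hα] at h1
      simp only [mul_zero, zero_mul, map_zero, zero_sub, map_neg, sub_zero, add_zero, neg_eq_zero,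
        map_eq_zero] at h1
      exact (mul_eq_zero.1 h1).resolve_right hb0
  · set x := -(c.qb / (2 * c.qc)) with hx
    have h2 : (2 : M) ≠ 0 := two_ne_zero
    have hqc := qc_tra e c x
    have hqb : (c.tra x).qb = 0 := by
      rw [qb_tra e, hx]
      field_simp
      ring
    have hqa : (c.tra x).qa = 0 := by
      rw [qa_tra e, hx]
      have h4 : c.qa + c.qb * -(c.qb / (2 * c.qc)) + c.qc * (-(c.qb / (2 * c.qc))) ^ 2 =
          -(c.qb ^ 2 - 4 * (c.qa * c.qc)) / (4 * c.qc) := by
        field_simp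
        ring
      rw [h4, hdq, neg_zero, zero_div]
    generalize hc' : c.tra x = c' at hqc hqb hqa
    have hqc' : c'.qc ≠ 0 := by rwa [hqc]
    have ha0 : c'.a = 0 := by
      by_contra ha
      have ha' : algebraMap K M c'.a ≠ 0 := (map_ne_zero _).2 ha
      have hβ : algebraMap K M c'.a * c'.β = adj K c'.α := (sub_eq_zero.1 hqa).symm
      have h5 : algebraMap K M c'.a * (c'.α * c'.β) = algebraMap K M (Algebra.norm K c'.α) := by
        rw [← mul_adj, ← hβ]
        ring
      have h6 : c'.α * c'.β = algebraMap K M (Algebra.norm K c'.α / c'.a) := by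
        rw [map_div₀, eq_div_iff ha', ← h5]
        ring
      have h7 : Algebra.norm K c'.α / c'.a = c'.a * c'.b := by
        rw [CubeData.qb, h6, Algebra.trace_algebraMap, h3] at hqb
        generalize Algebra.norm K c'.α / c'.a = κ at hqb
        apply (algebraMap K M).injective
        rw [map_sub, map_nsmul, map_mul, nsmul_eq_mul] at hqb
        push_cast at hqb
        rw [map_mul]
        linear_combination hqb
      apply hqc'
      rw [CubeData.qc]
      apply mul_left_cancel₀ (pow_ne_zero 2 ha')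
      rw [mul_zero, mul_sub]
      have h8 : algebraMap K M c'.a ^ 2 * adj K c'.β = adj K (algebraMap K M c'.a * c'.β) := by
        rw [adj, adj, map_mul, Algebra.norm_algebraMap, h3]
        by_cases hβ0 : c'.β = 0
        · rw [hβ0]
          simp
        · rw [mul_inv, map_mul, map_pow]
          field_simp
      rw [h8, hβ, adj_adj h3]
      have h9 : Algebra.norm K c'.α = c'.a ^ 2 * c'.b := by
        rw [div_eq_iff ha] at h7
        rw [h7]
        ring
      rw [h9, map_mul, map_pow]
      ring
    have hα0 : c'.α = 0 := by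
      rw [CubeData.qa, ha0, map_zero, zero_mul, sub_zero] at hqa
      exact adj_eq_zero K hqa
    exact key x (by rw [hc']; exact ha0) (by rw [hc']; exact hα0)

end Vale.Agent.P287.H3
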