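import Vale.Agent.P287.H3.Forms
import Vale.Agent.P287.H925.Dehom

/-!
The projection of a net of type `G₂` to the plane is dominant as soon as the three binary cubics
are linearly independent.
-/

namespace Vale.Agent.P287.H3

open MvPolynomial H925

section

variable {R : Type*} [CommRing R]

lemma cross_add_left (u u' v : Fin 3 → R) (k : Fin 3) :
    cross (u + u') v k = cross u v k + cross u' v k := by
  fin_cases k <;> simp [cross] <;> ring

lemma cross_anti (u v : Fin 3 → R) : cross v u = fun k => (-1) * cross u v k := by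
  funext k
  fin_cases k <;> simp [cross] <;> ring

end

/-- the rational cubic curve of the net -/
def phi (f : Fin 3 → Fin 4 → ℂ) (x : ℂ) : Fin 3 → ℂ := fun j => ∑ i : Fin 4, f j i * x ^ (i : ℕ)

/-- the polynomial `∑ⱼ wⱼ fⱼ` -/
noncomputable def fpoly (f : Fin 3 → Fin 4 → ℂ) (w : Fin 3 → ℂ) : Polynomial ℂ :=
  ∑ i : Fin 4, Polynomial.C (∑ j, w j * f j i) * Polynomial.X ^ (i : ℕ)

lemma eval_fpoly (f : Fin 3 → Fin 4 → ℂ) (w : Fin 3 → ℂ) (x : ℂ) :
    (fpoly f w).eval x = dot w (phi f x) := by
  simp [fpoly, phi, dot, Fin.sum_univ_four, Fin.sum_univ_three]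
  ring

lemma fpoly_ne_zero {f : Fin 3 → Fin 4 → ℂ} (hf : LinearIndependent ℂ f) {w : Fin 3 → ℂ}
    (hw : w ≠ 0) : fpoly f w ≠ 0 := by
  intro h
  apply hw
  have h1 : ∀ i : Fin 4, ∑ j, w j * f j i = 0 := by
    intro i
    have h2 := congrArg (fun p => Polynomial.coeff p (i : ℕ)) h
    simp only [fpoly, Polynomial.finsetSum_coeff, Polynomial.coeff_C_mul, Polynomial.coeff_X_pow,
      Polynomial.coeff_zero] at h2
    rw [← h2]
    rw [Finset.sum_eq_single i]
    · simp
    · intro b _ hb
      have : (i : ℕ) ≠ (b : ℕ) := fun h3 => hb (Fin.ext h3.symm)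
      simp [this]
    · simp
  rw [Fintype.linearIndependent_iff] at hf
  funext j
  apply hf w
  funext i
  simpa using h1 i

lemma cross_ne_zero_iff {p r : Fin 3 → ℂ} {s : Fin 3 → ℂ} (h : det3 s p r ≠ 0) :
    cross p r ≠ 0 ∧ cross p s ≠ 0 ∧ ∀ l : ℂ, (fun k => cross p r k + l * cross p s k) ≠ 0 := by
  refine ⟨?_, ?_, ?_⟩
  · intro h1
    apply h
    simp [det3, dot, h1]
  · intro h1
    apply h
    have h2 : det3 s p r = -dot r (cross p s) := by
      simp [det3, dot, cross]; ring
    rw [h2, h1]
    simp [dot]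
  · intro l h1
    apply h
    have h2 : det3 s p r = dot s (fun k => cross p r k + l * cross p s k) := by
      simp [det3, dot, cross]; ring
    rw [h2, h1]
    simp [dot]

theorem pencil_vanish {f : Fin 3 → Fin 4 → ℂ} (hf : LinearIndependent ℂ f) {d : ℕ}
    {P : MvPolynomial (Fin 3) ℂ} (hP : P.IsHomogeneous d) (hd : d ≠ 0) {p : Fin 3 → ℂ}
    (h : ∀ b, eval (cross p (phi f b)) P = 0) (r : Fin 3 → ℂ) : eval (cross p r) P = 0 := by
  have hzero : eval (0 : Fin 3 → ℂ) P = 0 := by
    have h1 := aeval_scale (S := ℂ) hP 0 (0 : Fin 3 → ℂ)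
    rw [zero_pow hd, zero_mul] at h1
    rw [eval_eq_aeval]
    have h2 : (fun i => (0 : ℂ) * (0 : Fin 3 → ℂ) i) = 0 := by
      funext i; simp
    rw [h2] at h1
    exact h1
  by_cases hpr : cross p r = 0
  · rw [hpr]; exact hzero
  obtain ⟨k, hk⟩ : ∃ k, cross p r k ≠ 0 := by
    by_contra hcon
    push Not at hcon
    exact hpr (funext hcon)
  set s : Fin 3 → ℂ := Pi.single k 1 with hs
  have hdet : det3 s p r ≠ 0 := by
    have h1 : det3 s p r = cross p r k := by
      fin_cases k <;> simp [det3, dot, hs]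
    rw [h1]
    exact hk
  obtain ⟨-, hps, hl⟩ := cross_ne_zero_iff hdet
  -- the polynomials
  set A := fpoly f (fun k => -cross p s k) with hA
  set B := fpoly f (cross p r) with hB
  have hA0 : A ≠ 0 := by
    apply fpoly_ne_zero hf
    intro h1
    apply hps
    funext k
    have := congrFun h1 k
    simpa using this
  set S : Polynomial ℂ := aeval (fun j => Polynomial.C (cross p r j) +
    Polynomial.X * Polynomial.C (cross p s j)) P with hS
  have hSe : ∀ l, S.eval l = eval (fun j => cross p r j + l * cross p s j) P := by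
    intro l
    have h1 := MvPolynomial.comp_aeval_apply (f := fun j => Polynomial.C (cross p r j) +
      Polynomial.X * Polynomial.C (cross p s j)) (Polynomial.aeval l : Polynomial ℂ →ₐ[ℂ] ℂ) P
    rw [← hS, Polynomial.coe_aeval_eq_eval] at h1
    rw [h1, eval_eq_aeval]
    congr 2
    funext j
    simp
    ring
  -- values
  have hval : ∀ b, A.eval b ≠ 0 → S.eval (B.eval b / A.eval b) = 0 := by
    intro b hb
    rw [hSe]
    have h1 : (fun j => A.eval b * (cross p r j + B.eval b / A.eval b * cross p s j)) =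
        fun j => det3 s p r * cross p (phi f b) j := by
      funext j
      have h2 : A.eval b * (cross p r j + B.eval b / A.eval b * cross p s j) =
          A.eval b * cross p r j + B.eval b * cross p s j := by
        field_simp
      rw [h2, hA, hB, eval_fpoly, eval_fpoly]
      fin_cases j <;> simp [dot, cross, det3] <;> ring
    have h2 := aeval_scale (S := ℂ) hP (A.eval b)
      (fun j => cross p r j + B.eval b / A.eval b * cross p s j)
    have h3 := aeval_scale (S := ℂ) hP (det3 s p r) (cross p (phi f b))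
    rw [h1, h3, ← eval_eq_aeval, ← eval_eq_aeval, h b, mul_zero] at h2
    exact (mul_eq_zero.1 h2.symm).resolve_left (pow_ne_zero d hb)
  have hS0 : S = 0 := by
    by_contra hS0
    set W : Polynomial ℂ := A * (S.roots.map (fun ρ => B - Polynomial.C ρ * A)).prod with hW
    have hW0 : W = 0 := by
      apply Polynomial.funext
      intro b
      rw [Polynomial.eval_zero, hW, Polynomial.eval_mul]
      by_cases hb : A.eval b = 0
      · rw [hb, zero_mul]
      · have h1 : B.eval b / A.eval b ∈ S.roots := by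
          rw [Polynomial.mem_roots hS0]
          exact hval b hb
        have h2 : (S.roots.map (fun ρ => B - Polynomial.C ρ * A)).prod.eval b = 0 := by
          rw [Polynomial.eval_multiset_prod, Multiset.prod_eq_zero_iff, Multiset.map_map,
            Multiset.mem_map]
          refine ⟨_, h1, ?_⟩
          simp
          field_simp
          simp
        rw [h2, mul_zero]
    rw [hW, mul_eq_zero] at hW0
    have h1 := hW0.resolve_left hA0
    rw [Multiset.prod_eq_zero_iff, Multiset.mem_map] at h1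
    obtain ⟨ρ, -, hρ⟩ := h1
    have h2 : B - Polynomial.C ρ * A = fpoly f (fun k => cross p r k + ρ * cross p s k) := by
      apply Polynomial.funext
      intro b
      rw [Polynomial.eval_sub, Polynomial.eval_mul, Polynomial.eval_C, hA, hB, eval_fpoly,
        eval_fpoly, eval_fpoly]
      simp [dot]
      ring
    rw [h2] at hρ
    exact fpoly_ne_zero hf (hl ρ) hρ
  have h1 := hSe 0
  rw [hS0, Polynomial.eval_zero] at h1
  rw [h1]
  congr 2
  funext j
  simp

/-- the projection is dominant -/
theorem dominant {B : NetG2} (hf : LinearIndependent ℂ B.f) (d : ℕ) (P : MvPolynomial (Fin 3) ℂ)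
    (hP : P.IsHomogeneous d)
    (h : aeval (B.proj (X : Fin 4 → MvPolynomial (Fin 4) ℂ)) P = 0) : P = 0 := by
  by_cases hd : d = 0
  · subst hd
    by_contra hP0
    have h1 := hP.totalDegree hP0
    rw [totalDegree_eq_zero_iff_eq_C] at h1
    rw [h1, aeval_C] at h
    have h2 : P.coeff 0 = 0 := by
      have h3 : (C (P.coeff 0) : MvPolynomial (Fin 4) ℂ) = 0 := h
      exact (C_eq_zero).1 h3
    rw [h2, map_zero] at h1
    exact hP0 h1
  -- values
  have h0 : ∀ n : Fin 4 → ℂ, eval (B.proj n) P = 0 := by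
    intro n
    have h1 := MvPolynomial.comp_aeval_apply (f := B.proj (X : Fin 4 → MvPolynomial (Fin 4) ℂ))
      (aeval n : MvPolynomial (Fin 4) ℂ →ₐ[ℂ] ℂ) P
    rw [h, map_zero] at h1
    rw [eval_eq_aeval, h1]
    congr 2
    funext j
    rw [B.map_proj]
    congr 1
    funext i
    simp
  have hzero : eval (0 : Fin 3 → ℂ) P = 0 := by
    have h1 := aeval_scale (S := ℂ) hP 0 (0 : Fin 3 → ℂ)
    rw [zero_pow hd, zero_mul] at h1
    rw [eval_eq_aeval]
    have h2 : (fun i => (0 : ℂ) * (0 : Fin 3 → ℂ) i) = 0 := by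
      funext i; simp
    rw [h2] at h1
    exact h1
  -- leading terms
  have hT : ∀ n : Fin 4 → ℂ, eval (cross (fun j => ∑ i, B.f j i * n i)
      (fun j => ∑ i, B.f j i * cov n i)) P = 0 := by
    intro n
    obtain ⟨F1, hF1⟩ : ∃ F1 : Fin 3 → ℂ, ∀ j, ∑ i, B.f j i * n i = F1 j := ⟨_, fun _ => rfl⟩
    obtain ⟨F2, hF2⟩ : ∃ F2 : Fin 3 → ℂ, ∀ j, ∑ i, B.k j i * n i = F2 j := ⟨_, fun _ => rfl⟩
    obtain ⟨F3, hF3⟩ : ∃ F3 : Fin 3 → ℂ, ∀ j, ∑ i, B.g j i * hess n i = F3 j := ⟨_, fun _ => rfl⟩
    obtain ⟨F4, hF4⟩ : ∃ F4 : Fin 3 → ℂ, ∀ j, ∑ i, B.f j i * cov n i = F4 j := ⟨_, fun _ => rfl⟩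
    set Δ : Fin 3 → Polynomial ℂ := cross
      (fun j => Polynomial.C (F1 j) - Polynomial.X * Polynomial.C (B.h j))
      (fun j => Polynomial.X ^ 3 * Polynomial.C (B.c j) +
        Polynomial.X ^ 2 * Polynomial.C (F2 j) +
        Polynomial.X * Polynomial.C (F3 j) +
        Polynomial.C (F4 j)) with hΔ
    set S : Polynomial ℂ := aeval Δ P with hS
    have hSe : ∀ l, S.eval l = eval (fun j => (Δ j).eval l) P := by
      intro l
      have h1 := MvPolynomial.comp_aeval_apply (f := Δ) (Polynomial.aeval l : Polynomial ℂ →ₐ[ℂ] ℂ) P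
      rw [← hS, Polynomial.coe_aeval_eq_eval] at h1
      rw [h1, eval_eq_aeval]
    have hval : ∀ l : ℂ, l ≠ 0 → S.eval l = 0 := by
      intro l hl
      rw [hSe]
      have h1 : (fun j => (Δ j).eval l) = fun j => l ^ 4 * B.proj (fun i => n i / l) j := by
        funext j
        have e1 : ∀ j, B.Phi1 j (fun i => n i / l) = (F1 j - l * B.h j) / l := by
          intro j
          rw [← hF1]
          simp [NetG2.Phi1, Fin.sum_univ_four]
          field_simp
        have e2 : ∀ j, B.Phi2 j (fun i => n i / l) = (l ^ 3 * B.c j + l ^ 2 * F2 j +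
            l * F3 j + F4 j) / l ^ 3 := by
          intro j
          rw [← hF2, ← hF3, ← hF4]
          simp [NetG2.Phi2, Fin.sum_univ_four, Fin.sum_univ_three, hess, cov]
          field_simp
        have e3 : B.proj (fun i => n i / l) j = (Δ j).eval l / l ^ 4 := by
          rw [NetG2.proj]
          simp only [e1, e2]
          fin_cases j <;> simp [Δ, cross] <;> field_simp
        rw [e3]
        field_simp
      have h2 := aeval_scale (S := ℂ) hP (l ^ 4) (B.proj (fun i => n i / l))
      rw [h1, eval_eq_aeval, h2, ← eval_eq_aeval, h0, mul_zero]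
    have hS0 : Polynomial.X * S = 0 := by
      apply Polynomial.funext
      intro l
      rw [Polynomial.eval_mul, Polynomial.eval_X, Polynomial.eval_zero]
      by_cases hl : l = 0
      · rw [hl, zero_mul]
      · rw [hval l hl, mul_zero]
    have hS1 : S = 0 := (mul_eq_zero.1 hS0).resolve_left Polynomial.X_ne_zero
    have h1 := hSe 0
    rw [hS1, Polynomial.eval_zero] at h1
    rw [h1]
    simp only [hF1, hF4]
    congr 2
    funext j
    fin_cases j <;> simp [Δ, cross]
  -- secants of the cubic curve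
  have hab : ∀ a b : ℂ, eval (cross (phi B.f a) (phi B.f b)) P = 0 := by
    intro a b
    by_cases hne : a = b
    · subst hne
      have h1 : cross (phi B.f a) (phi B.f a) = 0 := by
        funext k
        fin_cases k <;> simp [cross] <;> ring
      rw [h1, hzero]
    · have h1 := hT (fun i => a ^ (i : ℕ) + b ^ (i : ℕ))
      have h2 : cross (fun j => ∑ i, B.f j i * (a ^ (i : ℕ) + b ^ (i : ℕ)))
          (fun j => ∑ i, B.f j i * cov (fun i : Fin 4 => a ^ (i : ℕ) + b ^ (i : ℕ)) i) =
          fun k => (-2 * (b - a) ^ 3) * cross (phi B.f a) (phi B.f b) k := by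
        funext k
        fin_cases k <;> simp [cross, phi, cov, Fin.sum_univ_four] <;> ring
      rw [h2, eval_eq_aeval, aeval_scale (S := ℂ) hP, ← eval_eq_aeval] at h1
      refine (mul_eq_zero.1 h1).resolve_left (pow_ne_zero d ?_)
      refine mul_ne_zero (by norm_num) (pow_ne_zero 3 ?_)
      exact sub_ne_zero.2 (Ne.symm hne)
  have h3 : ∀ (a : ℂ) (r : Fin 3 → ℂ), eval (cross (phi B.f a) r) P = 0 := fun a r =>
    pencil_vanish hf hP hd (hab a) r
  have h4 : ∀ r r' : Fin 3 → ℂ, eval (cross r r') P = 0 := by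
    intro r r'
    refine pencil_vanish hf hP hd ?_ r'
    intro b
    have h5 := h3 b r
    rw [cross_anti r (phi B.f b), eval_eq_aeval, aeval_scale (S := ℂ) hP, ← eval_eq_aeval] at h5
    exact (mul_eq_zero.1 h5).resolve_left (pow_ne_zero d (by norm_num))
  have h5 : X 0 * P = 0 := by
    apply MvPolynomial.funext
    intro t
    rw [map_zero, map_mul, eval_X]
    by_cases ht : t 0 = 0
    · rw [ht, zero_mul]
    · have h6 := h4 ![-(t 1), t 0, 0] ![-(t 2), 0, t 0]
      have h7 : cross ![-(t 1), t 0, 0] ![-(t 2), 0, t 0] = fun k => t 0 * t k := by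
        funext k
        fin_cases k <;> simp [cross] <;> ring
      rw [h7, eval_eq_aeval, aeval_scale (S := ℂ) hP, ← eval_eq_aeval] at h6
      rw [(mul_eq_zero.1 h6).resolve_left (pow_ne_zero d ht), mul_zero]
  exact (mul_eq_zero.1 h5).resolve_left (X_ne_zero 0)

end Vale.Agent.P287.H3
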