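import Mathlib

/-!
The function field of a hypersurface, from a point over a field of the right transcendence degree
whose coordinates generate the field.
-/

namespace Vale.Agent.P287.H3

open MvPolynomial

theorem fieldIso {n : ℕ} {f : MvPolynomial (Fin (n + 1)) ℂ} (hf : Prime f) {L : Type} [Field L]
    [Algebra ℂ L] {z : Fin (n + 1) → L} (hz : aeval z f = 0)
    (hgen : IntermediateField.adjoin ℂ (Set.range z) = ⊤) (htr : (n : Cardinal) ≤ Algebra.trdeg ℂ L) :
    Nonempty (FractionRing (MvPolynomial (Fin (n + 1)) ℂ ⧸ Ideal.span {f}) ≃ₐ[ℂ] L) := by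
  classical
  set I := Ideal.span {f} with hI
  have hprime : I.IsPrime := (Ideal.span_singleton_prime hf.ne_zero).mpr hf
  have : IsDomain (MvPolynomial (Fin (n + 1)) ℂ ⧸ I) := Ideal.Quotient.isDomain _
  let θ : (MvPolynomial (Fin (n + 1)) ℂ ⧸ I) →ₐ[ℂ] L := Ideal.Quotient.liftₐ I (aeval z) (by
    intro a ha
    rw [hI, Ideal.mem_span_singleton] at ha
    obtain ⟨b, rfl⟩ := ha
    rw [map_mul, hz, zero_mul])
  have hθ : ∀ p, θ (Ideal.Quotient.mk I p) = aeval z p := fun p => rfl
  let xb : Fin (n + 1) → MvPolynomial (Fin (n + 1)) ℂ ⧸ I := fun i => Ideal.Quotient.mk I (X i)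
  have hadj : Algebra.adjoin ℂ (Set.range xb) = ⊤ := by
    rw [eq_top_iff]
    rintro a -
    obtain ⟨p, rfl⟩ := Ideal.Quotient.mk_surjective a
    have h1 : Ideal.Quotient.mk I p = aeval xb p := by
      have h2 : (Ideal.Quotient.mkₐ ℂ I) = aeval xb := by
        apply MvPolynomial.algHom_ext
        intro i
        simp [xb]
      exact DFunLike.congr_fun h2 p
    rw [h1, Algebra.adjoin_range_eq_range_aeval]
    exact ⟨p, rfl⟩
  -- the transcendence degree of the quotient
  have htr2 : Algebra.trdeg ℂ (MvPolynomial (Fin (n + 1)) ℂ ⧸ I) ≤ n := by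
    by_contra hcon
    push Not at hcon
    have h5 : ((n + 1 : ℕ) : Cardinal) ≤ Algebra.trdeg ℂ (MvPolynomial (Fin (n + 1)) ℂ ⧸ I) := by
      rw [Nat.cast_add, Nat.cast_one, ← Cardinal.succ_natCast]
      exact Order.succ_le_of_lt hcon
    have halg : Algebra.IsAlgebraic (Algebra.adjoin ℂ (Set.range xb))
        (MvPolynomial (Fin (n + 1)) ℂ ⧸ I) := by
      rw [hadj]
      constructor
      intro a
      exact isAlgebraic_algebraMap (R := (⊤ : Subalgebra ℂ (MvPolynomial (Fin (n + 1)) ℂ ⧸ I)))
        ⟨a, trivial⟩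
    have hb := Algebra.IsAlgebraic.isTranscendenceBasis_of_le_trdeg_of_finite ℂ xb
      (by simpa using h5)
    have h6 := hb.1
    rw [algebraicIndependent_iff] at h6
    have h7 : aeval xb f = 0 := by
      have h2 : (Ideal.Quotient.mkₐ ℂ I) = aeval xb := by
        apply MvPolynomial.algHom_ext
        intro i
        simp [xb]
      rw [← h2]
      change Ideal.Quotient.mk I f = 0
      rw [Ideal.Quotient.eq_zero_iff_mem, hI]
      exact Ideal.mem_span_singleton_self f
    exact hf.ne_zero (h6 f h7)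
  -- a transcendence basis of `L` among the coordinates
  have halgL : Algebra.IsAlgebraic (Algebra.adjoin ℂ (Set.range z)) L := by
    constructor
    intro e
    have he : e ∈ IntermediateField.adjoin ℂ (Set.range z) := by rw [hgen]; trivial
    rw [IntermediateField.mem_adjoin_iff_div] at he
    obtain ⟨r, hr, s, hs, rfl⟩ := he
    have h1 : IsAlgebraic (Algebra.adjoin ℂ (Set.range z)) r :=
      isAlgebraic_algebraMap (R := Algebra.adjoin ℂ (Set.range z)) (⟨r, hr⟩ : Algebra.adjoin ℂ (Set.range z))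
    have h2 : IsAlgebraic (Algebra.adjoin ℂ (Set.range z)) s :=
      isAlgebraic_algebraMap (R := Algebra.adjoin ℂ (Set.range z)) (⟨s, hs⟩ : Algebra.adjoin ℂ (Set.range z))
    rw [div_eq_mul_inv]
    exact h1.mul h2.inv
  obtain ⟨t, ht, htb⟩ := exists_isTranscendenceBasis_subset (R := ℂ) (Set.range z)
  have htfin : t.Finite := (Set.finite_range z).subset ht
  have hfinite : Finite t := htfin
  have hcard : (n : Cardinal) ≤ Cardinal.mk t := by
    rw [htb.cardinalMk_eq_trdeg]
    exact htr
  -- lifts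
  choose idx hidx using fun w : t => ht w.2
  let y : t → MvPolynomial (Fin (n + 1)) ℂ ⧸ I := fun w => xb (idx w)
  have hθy : (θ ∘ y) = ((↑) : t → L) := by
    funext w
    simp only [Function.comp_apply, y, xb, hθ, aeval_X]
    exact hidx w
  have hy : AlgebraicIndependent ℂ y := by
    rw [algebraicIndependent_iff]
    intro p hp
    have h1 := congrArg θ hp
    rw [map_zero, MvPolynomial.comp_aeval_apply] at h1
    have h2 := htb.1
    rw [algebraicIndependent_iff] at h2
    apply h2
    rw [← hθy]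
    exact h1
  have hyb : IsTranscendenceBasis ℂ y := hy.isTranscendenceBasis_of_trdeg_le_of_finite
    (htr2.trans hcard)
  have halg := hyb.isAlgebraic
  -- injectivity
  have hinj : Function.Injective θ := by
    rw [injective_iff_map_eq_zero]
    intro a ha
    by_contra ha0
    have h1 : Ideal.comap (algebraMap (Algebra.adjoin ℂ (Set.range y))
        (MvPolynomial (Fin (n + 1)) ℂ ⧸ I)) (RingHom.ker θ) ≠ ⊥ :=
      Ideal.comap_ne_bot_of_algebraic_mem ha0 (by exact ha) (halg.isAlgebraic a)
    obtain ⟨b, hb, hb0⟩ := Submodule.exists_mem_ne_zero_of_ne_bot h1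
    have hbm : (b : MvPolynomial (Fin (n + 1)) ℂ ⧸ I) ∈ (aeval y : MvPolynomial t ℂ →ₐ[ℂ] _).range := by
      rw [← Algebra.adjoin_range_eq_range_aeval]
      exact b.2
    obtain ⟨p, hp⟩ := hbm
    have hp : aeval y p = (b : MvPolynomial (Fin (n + 1)) ℂ ⧸ I) := hp
    have h2 : θ (b : MvPolynomial (Fin (n + 1)) ℂ ⧸ I) = 0 := hb
    have h3 := htb.1
    rw [algebraicIndependent_iff] at h3
    have h4 : p = 0 := by
      apply h3
      rw [← hp] at h2
      have h5 : θ (aeval y p) = 0 := h2
      rw [MvPolynomial.comp_aeval_apply] at h5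
      rw [← hθy]
      exact h5
    apply hb0
    apply Subtype.ext
    rw [← hp, h4]
    simp
  let ψ : FractionRing (MvPolynomial (Fin (n + 1)) ℂ ⧸ I) →ₐ[ℂ] L :=
    IsFractionRing.liftAlgHom (K := FractionRing (MvPolynomial (Fin (n + 1)) ℂ ⧸ I)) hinj
  have hψ : ∀ a, ψ (algebraMap _ _ a) = θ a := fun a => IsFractionRing.lift_algebraMap hinj a
  have hsurj : Function.Surjective ψ := by
    rw [← AlgHom.fieldRange_eq_top, ← hgen]
    apply le_antisymm
    · rw [hgen]; exact le_top
    · rw [IntermediateField.adjoin_le_iff]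
      rintro _ ⟨i, rfl⟩
      refine ⟨algebraMap _ _ (xb i), ?_⟩
      have := hψ (xb i)
      rw [hθ, aeval_X] at this
      exact this
  exact ⟨AlgEquiv.ofBijective ψ ⟨ψ.toRingHom.injective, hsurj⟩⟩

end Vale.Agent.P287.H3
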