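import Vale.Agent.P287.H3.XSide
import Vale.Agent.P287.H3.FieldIso

/-!
The function field of the cubic fourfold.
-/

namespace Vale.Agent.P287.H3

open MvPolynomial H925

lemma aeval_dehom {n : ℕ} {R : Type*} [CommRing R] [Algebra ℂ R] (z : Fin n → R)
    (p : MvPolynomial (Fin (n + 1)) ℂ) :
    aeval z (dehom p) = aeval (Fin.cons 1 z : Fin (n + 1) → R) p := by
  have h : (aeval z : MvPolynomial (Fin n) ℂ →ₐ[ℂ] R).comp dehom =
      aeval (Fin.cons 1 z : Fin (n + 1) → R) := by
    apply MvPolynomial.algHom_ext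
    intro i
    refine Fin.cases ?_ (fun i => ?_) i
    · simp [dehom]
    · simp [dehom]
  exact DFunLike.congr_fun h p

lemma not_dvd_X {f : MvPolynomial (Fin 6) ℂ} (hf : f.IsHomogeneous 3) : ¬ f ∣ X 0 := by
  rintro ⟨q, hq⟩
  have hX : (X 0 : MvPolynomial (Fin 6) ℂ) ≠ 0 := X_ne_zero 0
  have hf0 : f ≠ 0 := by
    rintro rfl
    rw [zero_mul] at hq
    exact hX hq
  have hq0 : q ≠ 0 := by
    rintro rfl
    rw [mul_zero] at hq
    exact hX hq
  have h1 := congrArg totalDegree hq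
  rw [totalDegree_mul_of_isDomain hf0 hq0, totalDegree_X, hf.totalDegree hf0] at h1
  omega

namespace Data18

variable (D : Data18)

lemma isHomogeneous_detX : (D.detX (X : Fin 3 → MvPolynomial (Fin 3) ℂ)).IsHomogeneous 3 := by
  have hl : ∀ i k, (D.left i (X : Fin 3 → MvPolynomial (Fin 3) ℂ) k).IsHomogeneous 1 := by
    intro i k
    refine IsHomogeneous.sum _ _ _ fun j _ => ?_
    have h1 : (algebraMap ℂ (MvPolynomial (Fin 3) ℂ) (D.A i j k)).IsHomogeneous 0 :=
      isHomogeneous_C _ _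
    have := h1.mul (isHomogeneous_X ℂ j)
    simpa using this
  have hcross : ∀ u v : Fin 3 → MvPolynomial (Fin 3) ℂ, ∀ m n, (∀ k, (u k).IsHomogeneous m) →
      (∀ k, (v k).IsHomogeneous n) → ∀ k, (cross u v k).IsHomogeneous (m + n) := by
    intro u v m n hu hv k
    fin_cases k
    · exact ((hu 1).mul (hv 2)).sub ((hu 2).mul (hv 1))
    · exact ((hu 2).mul (hv 0)).sub ((hu 0).mul (hv 2))
    · exact ((hu 0).mul (hv 1)).sub ((hu 1).mul (hv 0))
  have hdot : ∀ u v : Fin 3 → MvPolynomial (Fin 3) ℂ, ∀ m n, (∀ k, (u k).IsHomogeneous m) →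
      (∀ k, (v k).IsHomogeneous n) → (dot u v).IsHomogeneous (m + n) := by
    intro u v m n hu hv
    exact (((hu 0).mul (hv 0)).add ((hu 1).mul (hv 1))).add ((hu 2).mul (hv 2))
  exact hdot _ _ 1 2 (hl 0) (hcross _ _ 1 1 (hl 1) (hl 2))

lemma detX_ne_zero {Ω : Type*} [Field Ω] [Algebra ℂ Ω] {u v : Ω}
    (h : AlgebraicIndependent ℂ ![u, v]) {w : Fin 3 → ℂ} (hw : D.detX w ≠ 0) :
    D.detX ![1, u, v] ≠ 0 := by
  set P : MvPolynomial (Fin 3) ℂ := D.detX X with hP
  have hP0 : P ≠ 0 := by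
    intro h0
    apply hw
    have h1 : aeval w P = D.detX w := by
      rw [hP, D.map_detX]
      simp
    rw [← h1, h0, map_zero]
  have h1 : dehom P ≠ 0 := fun h0 => hP0 (dehom_inj D.isHomogeneous_detX h0)
  have h2 : aeval ![u, v] (dehom P) = D.detX ![1, u, v] := by
    rw [aeval_dehom, hP, D.map_detX]
    congr 1
    funext j
    fin_cases j <;> simp
  rw [← h2]
  intro h3
  rw [algebraicIndependent_iff] at h
  exact h1 (h _ h3)

variable {R : Type*} [CommRing R] [Algebra ℂ R]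

lemma left_smul (r : R) (i : Fin 3) (x : Fin 3 → R) (k : Fin 3) :
    D.left i (fun j => r * x j) k = r * D.left i x k := by
  simp [left, Fin.sum_univ_three]; ring

lemma detX_smul (r : R) (x : Fin 3 → R) : D.detX (fun j => r * x j) = r ^ 3 * D.detX x := by
  simp only [detX, det3, dot, cross, left_smul]
  simp
  ring

lemma star_smul (r : R) (t x : Fin 3 → R) (k : Fin 3) :
    D.star t (fun j => r * x j) k = r ^ 2 * D.star t x k := by
  fin_cases k <;> simp only [star, cross, left_smul] <;> simp <;> ring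

omit [Algebra ℂ R] in
lemma dot_mul (r : R) (u v : Fin 3 → R) : dot u (fun j => r * v j) = r * dot u v := by
  simp [dot]; ring

lemma left_mem {L Ω : Type*} [Field L] [Field Ω] [Algebra ℂ Ω] [Algebra ℂ L] [Algebra L Ω]
    {F : IntermediateField ℂ Ω} {x : Fin 3 → Ω} (hx : ∀ j, x j ∈ F) (i k : Fin 3) :
    D.left i x k ∈ F :=
  sum_mem fun j _ => F.mul_mem (F.algebraMap_mem _) (hx j)

end Data18

lemma algebraMap_mem_of {Ω : Type} [Field Ω] [Algebra KK Ω] [Algebra ℂ Ω] [IsScalarTower ℂ KK Ω]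
    {F : IntermediateField ℂ Ω} (h : ∀ j, algebraMap KK Ω (tvec j) ∈ F) (k : KK) :
    algebraMap KK Ω k ∈ F := by
  obtain ⟨a, b, -, rfl⟩ := IsFractionRing.div_surjective (A := MvPolynomial (Fin 2) ℂ) k
  have h1 : ∀ p : MvPolynomial (Fin 2) ℂ, algebraMap KK Ω (algebraMap (MvPolynomial (Fin 2) ℂ) KK p) ∈ F := by
    intro p
    have h2 : algebraMap KK Ω (algebraMap (MvPolynomial (Fin 2) ℂ) KK p) =
        aeval (fun j : Fin 2 => algebraMap KK Ω (algebraMap (MvPolynomial (Fin 2) ℂ) KK (X j))) p := by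
      have h3 : ((IsScalarTower.toAlgHom ℂ KK Ω).comp
          (IsScalarTower.toAlgHom ℂ (MvPolynomial (Fin 2) ℂ) KK)) =
          aeval (fun j : Fin 2 => algebraMap KK Ω (algebraMap (MvPolynomial (Fin 2) ℂ) KK (X j))) := by
        apply MvPolynomial.algHom_ext
        intro i
        simp
      exact DFunLike.congr_fun h3 p
    rw [h2]
    have h4 : ∀ j : Fin 2, algebraMap KK Ω (algebraMap (MvPolynomial (Fin 2) ℂ) KK (X j)) ∈ F := by
      intro j
      fin_cases j
      · exact h 1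
      · exact h 2
    have h5 : aeval (fun j : Fin 2 => algebraMap KK Ω (algebraMap (MvPolynomial (Fin 2) ℂ) KK (X j))) p =
      ((aeval (fun j : Fin 2 => (⟨_, h4 j⟩ : F)) p : F) : Ω) := by
      have h6 : (aeval (fun j : Fin 2 => algebraMap KK Ω (algebraMap (MvPolynomial (Fin 2) ℂ) KK (X j))) :
          MvPolynomial (Fin 2) ℂ →ₐ[ℂ] Ω) =
          F.val.comp (aeval (fun j : Fin 2 => (⟨_, h4 j⟩ : F))) := by
        apply MvPolynomial.algHom_ext
        intro i
        simp
      exact DFunLike.congr_fun h6 p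
    rw [h5]
    exact Subtype.mem _
  rw [map_div₀]
  exact F.div_mem (h1 a) (h1 b)

end Vale.Agent.P287.H3
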