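import Vale.Agent.P287.H3.Grad
import Vale.Agent.P287.H3.XRat

/-!
Derivations of `K[x₀, x₁, x₂]` through dual numbers.
-/

namespace Vale.Agent.P287.H3

open MvPolynomial TrivSqZeroExt

section dualMap

variable {R S : Type*} [CommRing R] [CommRing S]

/-- dual numbers are functorial -/
def dualMap (f : R →+* S) : TrivSqZeroExt R R →+* TrivSqZeroExt S S where
  toFun z := inl (f z.fst) + inr (f z.snd)
  map_one' := by ext <;> simp
  map_mul' x y := by ext <;> simp
  map_zero' := by ext <;> simp
  map_add' x y := by ext <;> simp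

lemma fst_dualMap (f : R →+* S) (z : TrivSqZeroExt R R) : (dualMap f z).fst = f z.fst := by
  simp [dualMap]

lemma snd_dualMap (f : R →+* S) (z : TrivSqZeroExt R R) : (dualMap f z).snd = f z.snd := by
  simp [dualMap]

end dualMap

lemma lift_dual {A K R : Type*} [CommRing A] [IsDomain A] [Field K] [Algebra A K]
    [IsFractionRing A K] [CommRing R] [Algebra K R] (g : A →+* TrivSqZeroExt R R)
    (hg : ∀ a, (g a).fst = algebraMap K R (algebraMap A K a)) :
    ∃ G : K →+* TrivSqZeroExt R R, (∀ a, G (algebraMap A K a) = g a) ∧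
      ∀ x, (G x).fst = algebraMap K R x := by
  have hu : ∀ y : nonZeroDivisors A, IsUnit (g y) := by
    intro y
    rw [TrivSqZeroExt.isUnit_iff_isUnit_fst, hg]
    apply IsUnit.map
    apply IsUnit.mk0
    rw [Ne, map_eq_zero_iff _ (IsFractionRing.injective A K)]
    exact nonZeroDivisors.ne_zero y.2
  refine ⟨IsLocalization.lift hu, fun a => IsLocalization.lift_eq hu a, ?_⟩
  have h : (fstHom R R R : TrivSqZeroExt R R →+* R).comp (IsLocalization.lift hu) =
      algebraMap K R := by
    apply IsLocalization.ringHom_ext (nonZeroDivisors A)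
    apply RingHom.ext
    intro a
    simp [hg]
  intro x
  exact congrArg (fun f => f x) h

/-- the derivations of a purely transcendental extension, on polynomials -/
theorem exists_dual {K : Type*} [Field K] [Algebra ℂ K] [Algebra (MvPolynomial (Fin 2) ℂ) K]
    [IsScalarTower ℂ (MvPolynomial (Fin 2) ℂ) K] [IsFractionRing (MvPolynomial (Fin 2) ℂ) K]
    (i : Fin 2) :
    ∃ Th : MvPolynomial (Fin 3) K →ₐ[ℂ] TrivSqZeroExt (MvPolynomial (Fin 3) K)
        (MvPolynomial (Fin 3) K),
      (∀ j, Th (X j) = inl (X j)) ∧ (∀ x : K, (Th (C x)).fst = C x) ∧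
      ∀ j, Th (C (algebraMap (MvPolynomial (Fin 2) ℂ) K (X j))) =
        inl (C (algebraMap (MvPolynomial (Fin 2) ℂ) K (X j))) +
          inr ((Pi.single i 1 : Fin 2 → MvPolynomial (Fin 3) K) j) := by
  set R := MvPolynomial (Fin 3) K with hR
  let dl0 : MvPolynomial (Fin 2) ℂ →ₐ[ℂ] TrivSqZeroExt R R :=
    aeval fun j => inl (C (algebraMap (MvPolynomial (Fin 2) ℂ) K (X j))) +
      inr ((Pi.single i 1 : Fin 2 → R) j)
  have h1 : ∀ p, (dl0 p).fst = algebraMap K R (algebraMap (MvPolynomial (Fin 2) ℂ) K p) := by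
    intro p
    have h : (fstHom ℂ R R).comp dl0 =
        (IsScalarTower.toAlgHom ℂ K R).comp
          (IsScalarTower.toAlgHom ℂ (MvPolynomial (Fin 2) ℂ) K) := by
      apply MvPolynomial.algHom_ext
      intro j
      simp [dl0]
      rfl
    exact congrArg (fun f => f p) h
  obtain ⟨G, hG1, hG2⟩ := lift_dual (K := K) (R := R) dl0.toRingHom h1
  refine ⟨{ toRingHom := eval₂Hom G (fun j => inl (X j)), commutes' := ?_ }, ?_, ?_, ?_⟩
  · intro r
    have h2 : algebraMap ℂ R r = C (algebraMap (MvPolynomial (Fin 2) ℂ) K (C r)) := by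
      rw [← MvPolynomial.algebraMap_eq (R := ℂ), ← IsScalarTower.algebraMap_apply ℂ _ K]
      rfl
    have h3 : dl0.toRingHom (C r) = algebraMap ℂ (TrivSqZeroExt R R) r := by
      change dl0 (C r) = _
      rw [MvPolynomial.algHom_C]
    rw [h2, ← h3, ← hG1]
    change eval₂Hom G (fun j => inl (X j)) (C _) = _
    rw [eval₂Hom_C]
  · intro j
    change eval₂Hom G (fun j => inl (X j)) (X j) = _
    rw [eval₂Hom_X']
  · intro x
    change (eval₂Hom G (fun j => inl (X j)) (C x)).fst = _
    rw [eval₂Hom_C, hG2]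
    rfl
  · intro j
    change eval₂Hom G (fun j => inl (X j)) (C _) = _
    rw [eval₂Hom_C, hG1]
    change dl0 (X j) = _
    rw [aeval_X]

end Vale.Agent.P287.H3
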