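import Vale.Agent.P287.H3.NetExist

/-!
Irreducibility of the generic binary cubic of a net without base points.
-/

namespace Vale.Agent.P287.H3

open MvPolynomial

/-- Gauss' lemma for the function field of the plane. -/
lemma gauss {φ : Polynomial (MvPolynomial (Fin 2) ℂ)} (h : Irreducible φ) (hd : φ.natDegree ≠ 0) :
    Irreducible (φ.map (algebraMap (MvPolynomial (Fin 2) ℂ) KK)) :=
  (Polynomial.IsPrimitive.irreducible_iff_irreducible_map_fraction_map (h.isPrimitive hd)).1 h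

/-- one of the binary cubics, as a polynomial -/
noncomputable def cpoly (v : Fin 4 → ℂ) : Polynomial ℂ :=
  ∑ i : Fin 4, Polynomial.C (v i) * Polynomial.X ^ (i : ℕ)

lemma bezout {f : Fin 3 → Fin 4 → ℂ} (hbp : ∀ z : ℂ, ∃ j, (cpoly (f j)).eval z ≠ 0) :
    ∃ u : Fin 3 → Polynomial ℂ, ∑ j, u j * cpoly (f j) = 1 := by
  have h1 : Ideal.span (Set.range fun j => cpoly (f j)) = ⊤ := by
    by_contra hne
    obtain ⟨g, hg⟩ := (IsPrincipalIdealRing.principal
      (Ideal.span (Set.range fun j => cpoly (f j)))).principal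
    have hdvd : ∀ j, g ∣ cpoly (f j) := by
      intro j
      have h2 : cpoly (f j) ∈ Ideal.span (Set.range fun j => cpoly (f j)) :=
        Ideal.subset_span ⟨j, rfl⟩
      rw [hg] at h2
      exact Ideal.mem_span_singleton.1 h2
    have hroot : ∃ z, g.eval z = 0 := by
      by_cases hg0 : g = 0
      · exact ⟨0, by rw [hg0, Polynomial.eval_zero]⟩
      · have hdeg : g.degree ≠ 0 := by
          intro h0
          apply hne
          rw [hg]
          apply Ideal.span_singleton_eq_top.2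
          exact Polynomial.isUnit_iff_degree_eq_zero.2 h0
        exact IsAlgClosed.exists_root g hdeg
    obtain ⟨z, hz⟩ := hroot
    obtain ⟨j, hj⟩ := hbp z
    apply hj
    obtain ⟨q, hq⟩ := hdvd j
    rw [hq, Polynomial.eval_mul, hz, zero_mul]
  have h2 : (1 : Polynomial ℂ) ∈ Ideal.span (Set.range fun j => cpoly (f j)) := by
    rw [h1]; trivial
  rw [Ideal.mem_span_range_iff_exists_fun] at h2
  obtain ⟨u, hu⟩ := h2
  exact ⟨u, hu⟩

/-- `v (X 1)` -/
noncomputable def mpoly {n : ℕ} (k : Fin n) (v : Fin 4 → ℂ) : MvPolynomial (Fin n) ℂ :=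
  ∑ i : Fin 4, C (v i) * X k ^ (i : ℕ)

lemma mpoly_eq {n : ℕ} (k : Fin n) (v : Fin 4 → ℂ) :
    mpoly k v = Polynomial.aeval (X k : MvPolynomial (Fin n) ℂ) (cpoly v) := by
  simp [mpoly, cpoly]

lemma mpoly_ne_zero {n : ℕ} (k : Fin n) {v : Fin 4 → ℂ} (hv : v ≠ 0) : mpoly k v ≠ 0 := by
  intro h
  apply hv
  have h1 : ∀ z : ℂ, ∑ i : Fin 4, v i * z ^ (i : ℕ) = 0 := by
    intro z
    have := congrArg (eval (fun _ => z)) h
    simpa [mpoly] using this
  have h2 : cpoly v = 0 := by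
    apply Polynomial.funext
    intro z
    rw [Polynomial.eval_zero, ← h1 z]
    simp [cpoly, Polynomial.eval_finsetSum]
  funext i
  have h3 := congrArg (fun p => Polynomial.coeff p (i : ℕ)) h2
  simp only [cpoly, Polynomial.finsetSum_coeff, Polynomial.coeff_C_mul, Polynomial.coeff_X_pow,
    Polynomial.coeff_zero] at h3
  rw [Finset.sum_eq_single i] at h3
  · simpa using h3
  · intro b _ hb
    have : (i : ℕ) ≠ (b : ℕ) := fun h3 => hb (Fin.ext h3.symm)
    simp [this]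
  · simp

lemma finSucc_C (n : ℕ) (r : ℂ) : finSuccEquiv ℂ n (C r) = Polynomial.C (C r) := by
  simp [finSuccEquiv_apply]

lemma relPrime {f : Fin 3 → Fin 4 → ℂ} (hbp : ∀ z : ℂ, ∃ j, (cpoly (f j)).eval z ≠ 0)
    (h1 : f 1 ≠ 0) : IsRelPrime (mpoly (1 : Fin 2) (f 1))
      (mpoly (1 : Fin 2) (f 0) + X 0 * mpoly (1 : Fin 2) (f 2)) := by
  intro c hca hcb
  have e0 : ∀ v, finSuccEquiv ℂ 1 (mpoly (1 : Fin 2) v) = Polynomial.C (mpoly (0 : Fin 1) v) := by
    intro v
    have e1 : finSuccEquiv ℂ 1 (X 1) = Polynomial.C (X 0) := finSuccEquiv_X_succ (j := 0)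
    have e2 : ∀ r : ℂ, finSuccEquiv ℂ 1 (C r) = Polynomial.C (C r) := finSucc_C 1
    simp only [mpoly, map_sum, map_mul, map_pow, e1, e2]
  have e3 : finSuccEquiv ℂ 1 (X 0) = Polynomial.X := finSuccEquiv_X_zero
  have hca' := map_dvd (finSuccEquiv ℂ 1) hca
  have hcb' := map_dvd (finSuccEquiv ℂ 1) hcb
  rw [e0] at hca'
  rw [map_add, map_mul, e0, e0, e3] at hcb'
  have hdeg : (finSuccEquiv ℂ 1 c).natDegree = 0 := by
    have h2 := Polynomial.natDegree_le_of_dvd hca' (by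
      rw [Ne, Polynomial.C_eq_zero]
      exact mpoly_ne_zero _ h1)
    rw [Polynomial.natDegree_C] at h2
    omega
  obtain ⟨γ, hγ⟩ := Polynomial.natDegree_eq_zero.1 hdeg
  rw [← hγ] at hca' hcb'
  rw [Polynomial.C_dvd_iff_dvd_coeff] at hca' hcb'
  have d1 : γ ∣ mpoly (0 : Fin 1) (f 1) := by
    have := hca' 0
    simpa using this
  have d0 : γ ∣ mpoly (0 : Fin 1) (f 0) := by
    have := hcb' 0
    simpa using this
  have d2 : γ ∣ mpoly (0 : Fin 1) (f 2) := by
    have := hcb' 1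
    simpa [Polynomial.coeff_C, Polynomial.coeff_X_mul] using this
  obtain ⟨u, hu⟩ := bezout hbp
  have h3 : γ ∣ 1 := by
    have h4 := congrArg (Polynomial.aeval (X 0 : MvPolynomial (Fin 1) ℂ)) hu
    rw [map_sum, map_one, Fin.sum_univ_three] at h4
    simp only [map_mul, ← mpoly_eq] at h4
    rw [← h4]
    exact dvd_add (dvd_add (Dvd.dvd.mul_left d0 _) (Dvd.dvd.mul_left d1 _)) (Dvd.dvd.mul_left d2 _)
  have h5 : IsUnit γ := isUnit_of_dvd_one h3
  have h6 : IsUnit (finSuccEquiv ℂ 1 c) := by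
    rw [← hγ]
    exact h5.map Polynomial.C
  exact (MulEquiv.isUnit_map (finSuccEquiv ℂ 1)).1 h6

/-- The generic binary cubic of a base point free net is irreducible. -/
theorem irreducible_gpoly {B : NetG2} (hbp : ∀ z : ℂ, ∃ j, (cpoly (B.f j)).eval z ≠ 0)
    (h1 : B.f 1 ≠ 0) (h3 : ∃ j, B.f j 3 ≠ 0) :
    Irreducible B.gpoly ∧ B.gpoly.natDegree = 3 := by
  have hco3 : B.co tvec 3 ≠ 0 := by
    intro h
    obtain ⟨j, hj⟩ := h3
    exact hj (congrFun (tvec_indep h) j)
  have hdeg : B.gpoly.natDegree = 3 := by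
    apply le_antisymm
    · rw [NetG2.gpoly]
      apply Polynomial.natDegree_sum_le_of_forall_le
      intro i _
      refine (Polynomial.natDegree_C_mul_X_pow_le _ _).trans ?_
      omega
    · apply Polynomial.le_natDegree_of_ne_zero
      rw [B.coeff_gpoly]
      exact hco3
  refine ⟨?_, hdeg⟩
  -- the linear polynomial
  have hlin := Polynomial.irreducible_C_mul_X_add_C (mpoly_ne_zero (1 : Fin 2) h1)
    (relPrime hbp h1)
  set Q' : MvPolynomial (Fin 3) ℂ := mpoly 2 (B.f 1) * X 0 +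
    (mpoly 2 (B.f 0) + X 1 * mpoly 2 (B.f 2)) with hQ'
  have e1 : finSuccEquiv ℂ 2 Q' = Polynomial.C (mpoly (1 : Fin 2) (B.f 1)) * Polynomial.X +
      Polynomial.C (mpoly (1 : Fin 2) (B.f 0) + X 0 * mpoly (1 : Fin 2) (B.f 2)) := by
    have a0 : finSuccEquiv ℂ 2 (X 0) = Polynomial.X := finSuccEquiv_X_zero
    have a1 : finSuccEquiv ℂ 2 (X 1) = Polynomial.C (X 0) := finSuccEquiv_X_succ (j := 0)
    have a2 : finSuccEquiv ℂ 2 (X 2) = Polynomial.C (X 1) := finSuccEquiv_X_succ (j := 1)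
    have a3 : ∀ v, finSuccEquiv ℂ 2 (mpoly (2 : Fin 3) v) = Polynomial.C (mpoly (1 : Fin 2) v) := by
      intro v
      simp only [mpoly, map_sum, map_mul, map_pow, a2, finSucc_C]
    rw [hQ', map_add, map_add, map_mul, map_mul, a3, a3, a3, a0, a1, map_add, map_mul]
  have hQ'irr : Irreducible Q' := by
    rw [← MulEquiv.irreducible_iff (finSuccEquiv ℂ 2), e1]
    exact hlin
  -- permutation of the variables
  let τ : Fin 3 ≃ Fin 3 := ⟨![1, 2, 0], ![2, 0, 1], by decide, by decide⟩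
  set Q : MvPolynomial (Fin 3) ℂ := mpoly 0 (B.f 1) * X 1 +
    (mpoly 0 (B.f 0) + X 2 * mpoly 0 (B.f 2)) with hQ
  have e2 : renameEquiv ℂ τ Q' = Q := by
    have a0 : rename τ (X 0 : MvPolynomial (Fin 3) ℂ) = X 1 := rename_X _ _
    have a1 : rename τ (X 1 : MvPolynomial (Fin 3) ℂ) = X 2 := rename_X _ _
    have a2 : rename τ (X 2 : MvPolynomial (Fin 3) ℂ) = X 0 := rename_X _ _
    have a3 : ∀ v, rename τ (mpoly (2 : Fin 3) v) = mpoly (0 : Fin 3) v := by
      intro v
      simp only [mpoly, map_sum, map_mul, map_pow, a2, rename_C]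
    rw [renameEquiv_apply, hQ', map_add, map_add, map_mul, map_mul, a3, a3, a3, a0, a1]
  have hQirr : Irreducible Q := by
    rw [← e2]
    exact (MulEquiv.irreducible_iff (renameEquiv ℂ τ)).2 hQ'irr
  set φ : Polynomial (MvPolynomial (Fin 2) ℂ) := ∑ i : Fin 4,
    Polynomial.C (C (B.f 1 i) * X 0 + (C (B.f 0 i) + X 1 * C (B.f 2 i))) *
      Polynomial.X ^ (i : ℕ) with hφ
  have e3 : finSuccEquiv ℂ 2 Q = φ := by
    have a0 : finSuccEquiv ℂ 2 (X 0) = Polynomial.X := finSuccEquiv_X_zero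
    have a1 : finSuccEquiv ℂ 2 (X 1) = Polynomial.C (X 0) := finSuccEquiv_X_succ (j := 0)
    have a2 : finSuccEquiv ℂ 2 (X 2) = Polynomial.C (X 1) := finSuccEquiv_X_succ (j := 1)
    rw [hQ, hφ]
    simp only [mpoly, map_add, map_mul, map_pow, a0, a1, a2, finSucc_C,
      Fin.sum_univ_four]
    ring
  have hφirr : Irreducible φ := by
    rw [← e3]
    exact (MulEquiv.irreducible_iff (finSuccEquiv ℂ 2)).2 hQirr
  have hmap : φ.map (algebraMap (MvPolynomial (Fin 2) ℂ) KK) = B.gpoly := by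
    rw [hφ, NetG2.gpoly, Polynomial.map_sum]
    refine Finset.sum_congr rfl fun i _ => ?_
    rw [Polynomial.map_mul, Polynomial.map_pow, Polynomial.map_X, Polynomial.map_C]
    congr 2
    have a4 : ∀ r : ℂ, algebraMap (MvPolynomial (Fin 2) ℂ) KK (C r) = algebraMap ℂ KK r :=
      fun r => rfl
    simp only [map_add, map_mul, a4, NetG2.co, Fin.sum_univ_three, tvec]
    simp
    ring
  rw [← hmap]
  apply gauss hφirr
  rw [← hmap] at hdeg
  have h4 := Polynomial.natDegree_map_le (f := algebraMap (MvPolynomial (Fin 2) ℂ) KK) (p := φ)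
  omega

end Vale.Agent.P287.H3
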