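import Vale.Agent.P287.H3.XCube3
import Vale.Agent.P287.H3.IrrNet

/-!
Irreducibility of the pencil of a cubic fourfold with irreducible plane cubic.
-/

namespace Vale.Agent.P287.H3

open MvPolynomial H925

lemma det_homog {n : ℕ} {M : Matrix (Fin 3) (Fin 3) (MvPolynomial (Fin n) ℂ)}
    (h : ∀ j k, (M j k).IsHomogeneous 1) : M.det.IsHomogeneous 3 := by
  have h3 : ∀ a b c d e f, (M a b * M c d * M e f).IsHomogeneous 3 := fun a b c d e f =>
    ((h a b).mul (h c d)).mul (h e f)
  rw [Matrix.det_fin_three]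
  exact (((((h3 _ _ _ _ _ _).sub (h3 _ _ _ _ _ _)).sub (h3 _ _ _ _ _ _)).add
    (h3 _ _ _ _ _ _)).add (h3 _ _ _ _ _ _)).sub (h3 _ _ _ _ _ _)

/-- the first change of variables -/
noncomputable def sig : MvPolynomial (Fin 3) ℂ ≃ₐ[ℂ] MvPolynomial (Fin 3) ℂ :=
  AlgEquiv.ofAlgHom (aeval ![-X 1, X 0, X 2]) (aeval ![X 1, -X 0, X 2])
    (by
      apply MvPolynomial.algHom_ext
      intro i
      fin_cases i <;> simp)
    (by
      apply MvPolynomial.algHom_ext
      intro i
      fin_cases i <;> simp)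

/-- the second change of variables -/
noncomputable def psi : MvPolynomial (Fin 3) ℂ ≃ₐ[ℂ] MvPolynomial (Fin 3) ℂ :=
  AlgEquiv.ofAlgHom (aeval ![X 2, X 1 + X 2 * X 0, X 0]) (aeval ![X 2, X 1 - X 0 * X 2, X 0])
    (by
      apply MvPolynomial.algHom_ext
      intro i
      fin_cases i <;> simp)
    (by
      apply MvPolynomial.algHom_ext
      intro i
      fin_cases i <;> simp)

/-- the composite homomorphism -/
noncomputable def toK : MvPolynomial (Fin 3) ℂ →ₐ[ℂ] Polynomial KK :=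
  (Polynomial.mapAlgHom (IsScalarTower.toAlgHom ℂ (MvPolynomial (Fin 2) ℂ) KK)).comp
    ((finSuccEquiv ℂ 2).toAlgHom.comp (psi.toAlgHom.comp ((finSuccEquiv ℂ 2).symm.toAlgHom.comp
      (Polynomial.CAlgHom.comp (dehom.comp sig.toAlgHom)))))

lemma toK_apply (p : MvPolynomial (Fin 3) ℂ) : toK p =
    (finSuccEquiv ℂ 2 (psi ((finSuccEquiv ℂ 2).symm (Polynomial.C (dehom (sig p)))))).map
      (algebraMap (MvPolynomial (Fin 2) ℂ) KK) := rfl

lemma toK_X0 : toK (X 0) = -(Polynomial.C (tvec 1) + Polynomial.C (tvec 2) * Polynomial.X) := by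
  have s1 : (finSuccEquiv ℂ 2).symm (Polynomial.C (X 0)) = X 1 := by
    rw [AlgEquiv.symm_apply_eq]
    exact (finSuccEquiv_X_succ (j := 0)).symm
  have a0 : finSuccEquiv ℂ 2 (X 0) = Polynomial.X := finSuccEquiv_X_zero
  have a1 : finSuccEquiv ℂ 2 (X 1) = Polynomial.C (X 0) := finSuccEquiv_X_succ (j := 0)
  have a2 : finSuccEquiv ℂ 2 (X 2) = Polynomial.C (X 1) := finSuccEquiv_X_succ (j := 1)
  have d1 : dehom (X 1 : MvPolynomial (Fin 3) ℂ) = X 0 := by
    rw [dehom, aeval_X]; rfl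
  have e1 : sig (X 0) = -X 1 := by simp [sig]
  have e2 : psi (X 1) = X 1 + X 2 * X 0 := by simp [psi]
  rw [toK_apply, e1, map_neg, d1, map_neg, map_neg, s1, map_neg, e2, map_neg, map_add, map_mul,
    a0, a1, a2]
  simp [tvec]

lemma toK_X1 : toK (X 1) = 1 := by
  have d1 : dehom (X 0 : MvPolynomial (Fin 3) ℂ) = 1 := by
    rw [dehom, aeval_X]; rfl
  have e1 : sig (X 1) = X 0 := by simp [sig]
  rw [toK_apply, e1, d1]
  simp

lemma toK_X2 : toK (X 2) = Polynomial.X := by
  have s1 : (finSuccEquiv ℂ 2).symm (Polynomial.C (X 1)) = X 2 := by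
    rw [AlgEquiv.symm_apply_eq]
    exact (finSuccEquiv_X_succ (j := 1)).symm
  have a0 : finSuccEquiv ℂ 2 (X 0) = Polynomial.X := finSuccEquiv_X_zero
  have d1 : dehom (X 2 : MvPolynomial (Fin 3) ℂ) = X 1 := by
    rw [dehom, aeval_X]; rfl
  have e1 : sig (X 2) = X 2 := by simp [sig]
  have e2 : psi (X 2) = X 0 := by simp [psi]
  rw [toK_apply, e1, d1, s1, e2, a0]
  simp

lemma toK_plane (D : Data18) : toK D.plane = pencil D.B1 D.B2 := by
  have h := AlgHom.map_det toK (Matrix.of fun j k => ∑ i, X i * C (D.A i j k))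
  rw [Data18.plane, h, pencil]
  congr 1
  ext j k : 2
  have hC : ∀ r : ℂ, toK (C r) = Polynomial.C (algebraMap ℂ KK r) := fun r => toK.commutes r
  simp only [AlgHom.mapMatrix_apply, Matrix.map_apply, Matrix.of_apply, map_mul, map_add,
    Fin.sum_univ_three, toK_X0, toK_X1, toK_X2, hC, Data18.B1, Data18.B2, Data18.mat,
    Matrix.add_apply, Matrix.smul_apply, Matrix.sub_apply, smul_eq_mul, map_sub]
  ring_nf

lemma plane_homog (D : Data18) : (sig D.plane).IsHomogeneous 3 := by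
  have h := AlgHom.map_det sig.toAlgHom (Matrix.of fun j k => ∑ i, X i * C (D.A i j k))
  have h' : sig D.plane = (sig.toAlgHom.mapMatrix
      (Matrix.of fun j k => ∑ i, X i * C (D.A i j k))).det := h
  rw [h']
  apply det_homog
  intro j k
  have h1 : (sig.toAlgHom.mapMatrix (Matrix.of fun j k => ∑ i, X i * C (D.A i j k))) j k =
      -X 1 * C (D.A 0 j k) + X 0 * C (D.A 1 j k) + X 2 * C (D.A 2 j k) := by
    have h2 : (sig.toAlgHom.mapMatrix (Matrix.of fun j k => ∑ i, X i * C (D.A i j k))) j k =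
      sig (∑ i, X i * C (D.A i j k)) := rfl
    rw [h2, Fin.sum_univ_three]
    simp [sig]
  rw [h1]
  have h3 : ∀ (i : Fin 3) (r : ℂ), ((X i : MvPolynomial (Fin 3) ℂ) * C r).IsHomogeneous 1 := by
    intro i r
    have := (isHomogeneous_X ℂ i).mul (isHomogeneous_C (Fin 3) r)
    simpa using this
  have h4 : (-X 1 * C (D.A 0 j k) : MvPolynomial (Fin 3) ℂ) = -(X 1 * C (D.A 0 j k)) := by ring
  rw [h4]
  exact ((h3 _ _).neg.add (h3 _ _)).add (h3 _ _)

lemma eval_coeff_zero (v : Fin 2 → ℂ) (p : MvPolynomial (Fin 3) ℂ) :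
    eval v ((finSuccEquiv ℂ 2 p).coeff 0) = eval ![0, v 0, v 1] p := by
  induction p using MvPolynomial.induction_on with
  | C r => simp [finSucc_C]
  | add p q hp hq => simp only [map_add, Polynomial.coeff_add, hp, hq]
  | mul_X p i hp =>
    have a0 : finSuccEquiv ℂ 2 (X 0) = Polynomial.X := finSuccEquiv_X_zero
    have a1 : finSuccEquiv ℂ 2 (X 1) = Polynomial.C (X 0) := finSuccEquiv_X_succ (j := 0)
    have a2 : finSuccEquiv ℂ 2 (X 2) = Polynomial.C (X 1) := finSuccEquiv_X_succ (j := 1)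
    have h1 : eval v ((finSuccEquiv ℂ 2 (X i)).coeff 0) = (![0, v 0, v 1] : Fin 3 → ℂ) i := by
      fin_cases i
      · change eval v ((finSuccEquiv ℂ 2 (X 0)).coeff 0) = 0
        rw [a0]; simp
      · change eval v ((finSuccEquiv ℂ 2 (X 1)).coeff 0) = v 0
        rw [a1]; simp
      · change eval v ((finSuccEquiv ℂ 2 (X 2)).coeff 0) = v 1
        rw [a2]; simp
    rw [map_mul, Polynomial.mul_coeff_zero, map_mul, hp, map_mul, eval_X, h1]

lemma eval_sig (a b : ℂ) (p : MvPolynomial (Fin 3) ℂ) :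
    eval ![0, a, b] (sig p) = eval ![-a, 0, b] p := by
  induction p using MvPolynomial.induction_on with
  | C r =>
    have : sig (C r) = C r := sig.commutes r
    rw [this, eval_C, eval_C]
  | add p q hp hq => simp only [map_add, hp, hq]
  | mul_X p i hp =>
    rw [map_mul, map_mul, hp, map_mul, eval_X]
    congr 1
    fin_cases i <;> simp [sig]

lemma eval_plane (D : Data18) (a b : ℂ) (hb : b ≠ 0) :
    eval ![-a, 0, b] D.plane = b ^ 3 * (D.A 2 - (a / b) • D.A 0).det := by
  have h9 : eval ![-a, 0, b] D.plane = (b • (D.A 2 - (a / b) • D.A 0)).det := by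
    rw [Data18.plane, RingHom.map_det]
    congr 1
    ext j k
    have h1 : b * (a / b) = a := by field_simp
    simp only [RingHom.mapMatrix_apply, Matrix.map_apply, Matrix.of_apply, Fin.sum_univ_three,
      map_add, map_mul, eval_X, eval_C, Matrix.smul_apply, Matrix.sub_apply, smul_eq_mul,
      Matrix.cons_val_zero, Matrix.cons_val_one, Matrix.cons_val]
    linear_combination (D.A 0 j k) * h1
  rw [h9, Matrix.det_smul, Fintype.card_fin]

lemma det_zero (D : Data18) (h0 : D.B2.det = 0) (z : ℂ) : (D.A 2 - z • D.A 0).det = 0 := by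
  have h2 : algebraMap (MvPolynomial (Fin 2) ℂ) KK
      ((D.A 2).map C - (X 1 : MvPolynomial (Fin 2) ℂ) • (D.A 0).map C).det = 0 := by
    rw [← h0, RingHom.map_det]
    congr 1
    ext j k
    simp only [RingHom.mapMatrix_apply, Matrix.map_apply, Matrix.sub_apply, Matrix.smul_apply,
      smul_eq_mul, map_sub, map_mul, Data18.B2, Data18.mat]
    rfl
  have h3 : ((D.A 2).map C - (X 1 : MvPolynomial (Fin 2) ℂ) • (D.A 0).map C).det = 0 :=
    (IsFractionRing.injective (MvPolynomial (Fin 2) ℂ) KK) (by rw [h2, map_zero])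
  have h4 := congrArg (eval ![0, z]) h3
  rw [RingHom.map_det, map_zero] at h4
  rw [← h4]
  congr 1
  ext j k
  simp

lemma X_dvd_of (D : Data18) (h0 : D.B2.det = 0) : X 0 ∣ sig D.plane := by
  have h5 : X 1 * (finSuccEquiv ℂ 2 (sig D.plane)).coeff 0 = 0 := by
    apply MvPolynomial.funext
    intro v
    rw [map_mul, eval_X, map_zero]
    by_cases hv : v 1 = 0
    · rw [hv, zero_mul]
    · rw [eval_coeff_zero, eval_sig, eval_plane D _ _ hv, det_zero D h0, mul_zero, mul_zero]
  have h6 : (finSuccEquiv ℂ 2 (sig D.plane)).coeff 0 = 0 :=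
    (mul_eq_zero.1 h5).resolve_left (X_ne_zero 1)
  have h7 : Polynomial.X ∣ finSuccEquiv ℂ 2 (sig D.plane) := Polynomial.X_dvd_iff.2 h6
  have h8 := map_dvd (finSuccEquiv ℂ 2).symm h7
  rw [AlgEquiv.symm_apply_apply] at h8
  have h9 : (finSuccEquiv ℂ 2).symm Polynomial.X = X 0 := by
    rw [AlgEquiv.symm_apply_eq]
    exact finSuccEquiv_X_zero.symm
  rwa [h9] at h8

lemma not_dvd_X3 {f : MvPolynomial (Fin 3) ℂ} (hf : f.IsHomogeneous 3) (hf0 : f ≠ 0) :
    ¬ f ∣ X 0 := by
  rintro ⟨q, hq⟩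
  have hX : (X 0 : MvPolynomial (Fin 3) ℂ) ≠ 0 := X_ne_zero 0
  have hq0 : q ≠ 0 := by
    rintro rfl
    rw [mul_zero] at hq
    exact hX hq
  have h1 := congrArg totalDegree hq
  rw [totalDegree_mul_of_isDomain hf0 hq0, totalDegree_X, hf.totalDegree hf0] at h1
  omega

/-- The pencil is irreducible if the plane cubic is. -/
theorem irreducible_pencil {D : Data18} (hP : Irreducible D.plane) :
    Irreducible (pencil D.B1 D.B2) ∧ (pencil D.B1 D.B2).natDegree = 3 := by
  have hirr1 : Irreducible (sig D.plane) := (MulEquiv.irreducible_iff sig).2 hP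
  have hX0 : ¬ sig D.plane ∣ X 0 := not_dvd_X3 (plane_homog D) hirr1.ne_zero
  have hprime := prime_dehom (plane_homog D) hirr1.prime hX0
  have hC : Prime (Polynomial.C (dehom (sig D.plane))) := Polynomial.prime_C_iff.2 hprime
  have hφirr : Irreducible (finSuccEquiv ℂ 2 (psi ((finSuccEquiv ℂ 2).symm
      (Polynomial.C (dehom (sig D.plane)))))) := by
    rw [MulEquiv.irreducible_iff (finSuccEquiv ℂ 2), MulEquiv.irreducible_iff psi,
      MulEquiv.irreducible_iff (finSuccEquiv ℂ 2).symm]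
    exact hC.irreducible
  have hmap := toK_plane D
  rw [toK_apply] at hmap
  generalize finSuccEquiv ℂ 2 (psi ((finSuccEquiv ℂ 2).symm
      (Polynomial.C (dehom (sig D.plane))))) = φ at hφirr hmap
  -- the leading coefficient
  have hdet : D.B2.det ≠ 0 := by
    intro h0
    have h1 : Associated (X 0) (sig D.plane) :=
      X_prime.irreducible.associated_of_dvd hirr1 (X_dvd_of D h0)
    exact hX0 h1.symm.dvd
  have hdeg : (pencil D.B1 D.B2).natDegree = 3 := by
    apply le_antisymm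
    · have h1 := Polynomial.natDegree_det_X_add_C_le D.B2 D.B1
      rwa [Fintype.card_fin] at h1
    · apply Polynomial.le_natDegree_of_ne_zero
      rw [coeff_pencil]
      exact hdet
  refine ⟨?_, hdeg⟩
  rw [← hmap]
  apply gauss hφirr
  rw [← hmap] at hdeg
  have h4 := Polynomial.natDegree_map_le (f := algebraMap (MvPolynomial (Fin 2) ℂ) KK) (p := φ)
  omega

end Vale.Agent.P287.H3
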