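import Vale.Agent.P287.H3.XRat

/-!
The net side.
-/

namespace Vale.Agent.P287.H3

open MvPolynomial H925

/-- The function field of affine space of dimension four. -/
abbrev LL : Type := FractionRing (MvPolynomial (Fin 4) ℂ)

lemma trdeg_frac (n : ℕ) : Algebra.trdeg ℂ (FractionRing (MvPolynomial (Fin n) ℂ)) = n := by
  have h1 : Algebra.IsAlgebraic (MvPolynomial (Fin n) ℂ) (FractionRing (MvPolynomial (Fin n) ℂ)) :=
    IsLocalization.isAlgebraic (FractionRing (MvPolynomial (Fin n) ℂ))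
      (nonZeroDivisors (MvPolynomial (Fin n) ℂ))
  rw [← trdeg_add_eq ℂ (MvPolynomial (Fin n) ℂ), MvPolynomial.trdeg_of_isDomain,
    trdeg_eq_zero]
  simp

/-- `L` has transcendence degree two over `K`. -/
lemma exists_pair [Algebra KK LL] [IsScalarTower ℂ KK LL] :
    ∃ y : Fin 2 → LL, AlgebraicIndependent KK y := by
  have h := trdeg_add_eq ℂ KK (A := LL)
  rw [trdeg_frac, trdeg_frac] at h
  have hlt : Algebra.trdeg KK LL < Cardinal.aleph0 := by
    refine lt_of_le_of_lt ?_ (Cardinal.natCast_lt_aleph0 (n := 4))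
    rw [← h]
    exact le_add_self
  obtain ⟨m, hm⟩ := Cardinal.lt_aleph0.1 hlt
  rw [hm] at h
  have hm2 : m = 2 := by
    have h3 : ((2 + m : ℕ) : Cardinal) = (4 : ℕ) := by
      rw [Nat.cast_add]
      exact h
    have h4 := Nat.cast_injective (R := Cardinal) h3
    omega
  rw [hm2] at hm
  obtain ⟨s, hs⟩ := exists_isTranscendenceBasis KK LL
  have hcard := hs.cardinalMk_eq_trdeg
  rw [hm] at hcard
  have hfin : Nonempty (s ≃ Fin 2) := by
    rw [← Cardinal.mk_fin 2] at hcard
    exact Cardinal.eq.1 hcard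
  obtain ⟨q⟩ := hfin
  exact ⟨((↑) : s → LL) ∘ q.symm, hs.1.comp _ q.symm.injective⟩

/-- the coordinates of the generic point of affine space -/
noncomputable def nn : Fin 4 → LL := fun i => algebraMap (MvPolynomial (Fin 4) ℂ) LL (X i)

/-- the coordinates of the corresponding point of the plane -/
noncomputable def nd (B : NetG2) : Fin 3 → LL := B.proj nn

lemma nd_eq (B : NetG2) (j : Fin 3) : nd B j = algebraMap (MvPolynomial (Fin 4) ℂ) LL (B.proj X j) := by
  have h := B.map_proj (IsScalarTower.toAlgHom ℂ (MvPolynomial (Fin 4) ℂ) LL) X j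
  exact h.symm

theorem exists_hom {B : NetG2} (hdom : ∀ (d : ℕ) (P : MvPolynomial (Fin 3) ℂ),
    P.IsHomogeneous d → aeval (B.proj (X : Fin 4 → MvPolynomial (Fin 4) ℂ)) P = 0 → P = 0) :
    nd B 0 ≠ 0 ∧ ∃ g : KK →ₐ[ℂ] LL, ∀ j, g (tvec j) * nd B 0 = nd B j := by
  have hnd : ∀ P : MvPolynomial (Fin 3) ℂ, aeval (nd B) P =
      algebraMap (MvPolynomial (Fin 4) ℂ) LL (aeval (B.proj X) P) := by
    intro P
    have h := MvPolynomial.comp_aeval_apply (f := B.proj (X : Fin 4 → MvPolynomial (Fin 4) ℂ))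
      (IsScalarTower.toAlgHom ℂ (MvPolynomial (Fin 4) ℂ) LL) P
    have h2 : (fun i => (IsScalarTower.toAlgHom ℂ (MvPolynomial (Fin 4) ℂ) LL) (B.proj X i)) =
        nd B := by
      funext i
      exact (nd_eq B i).symm
    rw [h2] at h
    exact h.symm
  have hdomL : ∀ (d : ℕ) (P : MvPolynomial (Fin 3) ℂ), P.IsHomogeneous d →
      aeval (nd B) P = 0 → P = 0 := by
    intro d P hP h
    apply hdom d P hP
    rw [hnd] at h
    exact (IsFractionRing.injective (MvPolynomial (Fin 4) ℂ) LL) (by rw [h, map_zero])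
  have h0 : nd B 0 ≠ 0 := by
    intro h
    have h1 := hdomL 1 (X 0) (isHomogeneous_X _ _) (by rw [aeval_X]; exact h)
    exact X_ne_zero _ h1
  refine ⟨h0, ?_⟩
  let s : Fin 2 → LL := ![nd B 1 / nd B 0, nd B 2 / nd B 0]
  have hinj : Function.Injective (aeval s : MvPolynomial (Fin 2) ℂ →ₐ[ℂ] LL) := by
    rw [injective_iff_map_eq_zero]
    intro a ha
    obtain ⟨d, hd⟩ := exists_homogenisation a
    obtain ⟨P, hP, rfl⟩ := hd d le_rfl
    rw [aeval_dehom] at ha
    have h1 := aeval_scale (S := LL) hP (nd B 0) (Fin.cons 1 s : Fin 3 → LL)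
    rw [ha, mul_zero] at h1
    have h2 : (fun i => nd B 0 * (Fin.cons 1 s : Fin 3 → LL) i) = nd B := by
      funext i
      refine Fin.cases ?_ (fun i => ?_) i
      · simp
      · fin_cases i
        · simp [s]; field_simp
        · simp [s]; field_simp
    rw [h2] at h1
    rw [hdomL d P hP h1, map_zero]
  refine ⟨IsFractionRing.liftAlgHom (K := KK) hinj, ?_⟩
  have hg : ∀ a, IsFractionRing.liftAlgHom (K := KK) hinj (algebraMap _ _ a) = aeval s a :=
    fun a => IsFractionRing.lift_algebraMap hinj a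
  intro j
  fin_cases j
  · simp [tvec]
  · simp [tvec, hg, s]; field_simp
  · simp [tvec, hg, s]; field_simp

end Vale.Agent.P287.H3
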