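import Vale.Agent.P287.H3.Iso3
import Vale.Agent.P287.H3.NetSide
import Vale.Agent.P287.H3.XMain

/-!
Rationality of cubic fourfolds with isotropic norm form.
-/

namespace Vale.Agent.P287.H3

open MvPolynomial H925

lemma mem_of_nn {Ω : Type} [Field Ω] [Algebra ℂ Ω] [Algebra KK Ω] [Algebra LL Ω]
    [IsScalarTower ℂ KK Ω] [IsScalarTower ℂ LL Ω] {F : IntermediateField KK Ω}
    (h : ∀ i, algebraMap LL Ω (nn i) ∈ F) (l : LL) : algebraMap LL Ω l ∈ F := by
  obtain ⟨a, b, -, rfl⟩ := IsFractionRing.div_surjective (A := MvPolynomial (Fin 4) ℂ) l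
  have h6 : ∀ p : MvPolynomial (Fin 4) ℂ, algebraMap LL Ω (algebraMap _ LL p) ∈ F := by
    intro p
    induction p using MvPolynomial.induction_on with
    | C r =>
      have h7 : algebraMap LL Ω (algebraMap (MvPolynomial (Fin 4) ℂ) LL (C r)) =
          algebraMap KK Ω (algebraMap ℂ KK r) := by
        have e1 : algebraMap (MvPolynomial (Fin 4) ℂ) LL (C r) = algebraMap ℂ LL r := rfl
        rw [e1, ← IsScalarTower.algebraMap_apply ℂ LL Ω, ← IsScalarTower.algebraMap_apply ℂ KK Ω]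
      rw [h7]
      exact F.algebraMap_mem _
    | add p q hp hq =>
      rw [map_add, map_add]
      exact F.add_mem hp hq
    | mul_X p i hp =>
      rw [map_mul, map_mul]
      exact F.mul_mem hp (h i)
  rw [map_div₀]
  exact F.div_mem (h6 a) (h6 b)

lemma exists_std : ∃ g : KK →ₐ[ℂ] LL, g (tvec 1) = nn 0 ∧ g (tvec 2) = nn 1 := by
  let f : MvPolynomial (Fin 2) ℂ →ₐ[ℂ] LL :=
    (IsScalarTower.toAlgHom ℂ (MvPolynomial (Fin 4) ℂ) LL).comp (rename (Fin.castAdd 2))
  have hinj : Function.Injective f :=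
    (IsFractionRing.injective (MvPolynomial (Fin 4) ℂ) LL).comp
      (rename_injective _ (Fin.castAdd_injective 2 2))
  have hg : ∀ a, IsFractionRing.liftAlgHom (K := KK) hinj (algebraMap _ _ a) = f a :=
    fun a => IsFractionRing.lift_algebraMap hinj a
  refine ⟨IsFractionRing.liftAlgHom (K := KK) hinj, ?_, ?_⟩
  · have h1 : tvec 1 = algebraMap (MvPolynomial (Fin 2) ℂ) KK (X 0) := rfl
    rw [h1, hg]
    simp [f, nn]
  · have h1 : tvec 2 = algebraMap (MvPolynomial (Fin 2) ℂ) KK (X 1) := rfl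
    rw [h1, hg]
    simp [f, nn]

theorem iso_main {D : Data18} (hs : IsSmooth D.form) (hw : ∃ w : Fin 3 → ℂ, D.detX w ≠ 0)
    {M : Type} [Field M] [Algebra KK M] {c : CubeData KK M} (ι : (Fin 3 → KK) ≃ₗ[KK] M)
    (hX : ∀ x : Fin 3 → KK, D.value x (D.star tvec x) = D.detX x * c.surf (ι x))
    (hd : c.disc ≠ 0) {u : M × M × M} (hu : u ≠ 0) (h : c.normForm u = 0) :
    IsRational D.form := by
  obtain ⟨w, hw⟩ := hw
  obtain ⟨g, hg1, hg2⟩ := exists_std
  let _ : Algebra KK LL := g.toRingHom.toAlgebra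
  have : IsScalarTower ℂ KK LL := IsScalarTower.of_algebraMap_eq fun x => (g.commutes x).symm
  have hgm : ∀ k, algebraMap KK LL k = g k := fun k => rfl
  let Ω := AlgebraicClosure LL
  have : CharZero Ω := charZero_of_injective_algebraMap (algebraMap LL Ω).injective
  have h3M : Module.finrank KK M = 3 := by
    rw [← ι.finrank_eq]; simp
  have : CharZero KK := charZero_of_injective_algebraMap (algebraMap ℂ KK).injective
  obtain ⟨e⟩ := exists_emb (K := KK) (M := M) (Ω := Ω) h3M
  obtain ⟨y', hy'⟩ := exists_pair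
  let E : IntermediateField KK Ω := (IsScalarTower.toAlgHom KK LL Ω).fieldRange
  have hE : ∀ a, a ∈ E ↔ ∃ l : LL, algebraMap LL Ω l = a := fun a => Iff.rfl
  have hy : AlgebraicIndependent KK ((IsScalarTower.toAlgHom KK LL Ω) ∘ y') :=
    hy'.map' (f := IsScalarTower.toAlgHom KK LL Ω) (algebraMap LL Ω).injective
  have hyE : ∀ i, ((IsScalarTower.toAlgHom KK LL Ω) ∘ y') i ∈ E := fun i => (hE _).2 ⟨y' i, rfl⟩
  set p : Ω := algebraMap LL Ω (nn 2) with hp
  set q : Ω := algebraMap LL Ω (nn 3) with hq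
  -- any field containing `p` and `q` contains everything
  have hall : ∀ F : IntermediateField KK Ω, p ∈ F → q ∈ F → E ≤ F := by
    intro F h1 h2 a ha
    obtain ⟨l, rfl⟩ := (hE _).1 ha
    apply mem_of_nn
    intro i
    fin_cases i
    · change algebraMap LL Ω (nn 0) ∈ F
      rw [← hg1, ← hgm, ← IsScalarTower.algebraMap_apply KK LL Ω]
      exact F.algebraMap_mem _
    · change algebraMap LL Ω (nn 1) ∈ F
      rw [← hg2, ← hgm, ← IsScalarTower.algebraMap_apply KK LL Ω]
      exact F.algebraMap_mem _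
    · exact h1
    · exact h2
  have hpq : AlgebraicIndependent KK ![p, q] := by
    apply indep_pair hy hyE
    exact hall _ (subset_CL _ (by simp)) (subset_CL _ (by simp))
  have hEadj : E ≤ IntermediateField.adjoin KK (Set.range ![p, q]) :=
    hall _ (IntermediateField.subset_adjoin _ _ ⟨0, rfl⟩)
      (IntermediateField.subset_adjoin _ _ ⟨1, rfl⟩)
  obtain ⟨x, hxE, hG, hgen⟩ := iso_point e hd hu h (E := E) ((hE _).2 ⟨_, rfl⟩)
    ((hE _).2 ⟨_, rfl⟩) hpq hEadj
  exact xmain D hs hw e ι hX hE (by rw [trdeg_frac]; norm_num) hy hyE hd hxE hG hgen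

end Vale.Agent.P287.H3
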