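import Vale.Agent.P287.H3.Assembly
import Vale.Agent.P287.H3.IsoMain
import Vale.Agent.P287.H3.Dom
import Vale.Agent.P287.H3.IrrX

/-!
Rationality of cubic fourfolds from nets of type `G₂`: final statements.
-/

namespace Vale.Agent.P287.H3

open MvPolynomial H925

section

variable {K M : Type*} [Field K] [Field M] [Algebra K M]

lemma norm_smul3 (h3 : Module.finrank K M = 3) (r : K) (x : M) :
    Algebra.norm K (r • x) = r ^ 3 * Algebra.norm K x := by
  rw [Algebra.smul_def, map_mul, Algebra.norm_algebraMap, h3]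

lemma adj_smul3 (h3 : Module.finrank K M = 3) {r : K} (hr : r ≠ 0) (x : M) :
    adj K (r • x) = (r ^ 2) • adj K x := by
  have h0 : algebraMap K M r ≠ 0 := (map_ne_zero _).2 hr
  rw [adj, adj, norm_smul3 h3, Algebra.smul_def, Algebra.smul_def, mul_inv, map_mul, map_pow,
    map_pow]
  field_simp

end

namespace Data18

variable (D : Data18) {R : Type*} [CommRing R] [Algebra ℂ R]

lemma right_smul (r : R) (i : Fin 3) (y : Fin 3 → R) (k : Fin 3) :
    D.right i (fun j => r * y j) k = r * D.right i y k := by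
  simp only [right, Fin.sum_univ_three]; ring

lemma detY_smul (r : R) (y : Fin 3 → R) : D.detY (fun j => r * y j) = r ^ 3 * D.detY y := by
  simp only [detY, det3, dot, cross, right_smul]
  simp
  ring

/-- the part of `∑ tᵢ lᵢ` in `x` -/
def lx (t x : Fin 3 → R) : R := ∑ i, t i * ∑ j, algebraMap ℂ R (D.α i j) * x j

/-- the part of `∑ tᵢ lᵢ` in `y` -/
def ly (t y : Fin 3 → R) : R := ∑ i, t i * ∑ j, algebraMap ℂ R (D.β i j) * y j

lemma value_star (t x : Fin 3 → R) : D.value x (D.star t x) =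
    D.detX x * (D.lx t x + D.ly t (D.star t x)) + algebraMap ℂ R D.a * D.detX x +
      algebraMap ℂ R D.b * D.detY (D.star t x) := by
  simp only [value, q_star, l, lx, ly, Fin.sum_univ_three]
  ring

lemma value_star_smul (r : R) (t x : Fin 3 → R) :
    D.value (fun j => r * x j) (D.star t (fun j => r * x j)) =
      r ^ 3 * (D.detX x * (r * D.lx t x + r ^ 2 * D.ly t (D.star t x)) +
        algebraMap ℂ R D.a * D.detX x + r ^ 3 * (algebraMap ℂ R D.b * D.detY (D.star t x))) := by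
  have h1 : D.star t (fun j => r * x j) = fun j => r ^ 2 * D.star t x j := by
    funext k
    exact D.star_smul r t x k
  rw [value_star, detX_smul, h1, detY_smul]
  simp only [lx, ly, Fin.sum_univ_three]
  ring

variable {D}

lemma a_eq {M : Type} [Field M] [Algebra KK M] {ι : (Fin 3 → KK) ≃ₗ[KK] M} {c : CubeData KK M}
    (hX : D.IsCube ι c) {x : Fin 3 → KK} (hx : D.detX x ≠ 0) : c.a = algebraMap ℂ KK D.a := by
  have : CharZero KK := charZero_of_injective_algebraMap (algebraMap ℂ KK).injective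
  have h3 : Module.finrank KK M = 3 := by
    rw [← ι.finrank_eq]; simp
  have key : ∀ r : KK, r ≠ 0 →
      D.detX x * (r * D.lx tvec x + r ^ 2 * D.ly tvec (D.star tvec x)) +
        algebraMap ℂ KK D.a * D.detX x +
        r ^ 3 * (algebraMap ℂ KK D.b * D.detY (D.star tvec x)) =
      D.detX x * (c.a + r * Algebra.trace KK M (c.α * ι x) +
        r ^ 2 * Algebra.trace KK M (c.β * adj KK (ι x)) +
        r ^ 3 * (c.b * Algebra.norm KK (ι x))) := by
    intro r hr
    have h1 := hX (fun j => r * x j)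
    have h2 : ι (fun j => r * x j) = r • ι x := by
      rw [← map_smul]
      rfl
    rw [value_star_smul, h2, detX_smul, CubeData.surf, adj_smul3 h3 hr, norm_smul3 h3,
      mul_smul_comm, mul_smul_comm, map_smul, map_smul, smul_eq_mul, smul_eq_mul] at h1
    have h4 : r ^ 3 ≠ 0 := pow_ne_zero 3 hr
    apply mul_left_cancel₀ h4
    rw [h1]
    ring
  have k1 := key 1 one_ne_zero
  have k2 := key (-1) (neg_ne_zero.2 one_ne_zero)
  have k3 := key 2 two_ne_zero
  have k4 := key (-2) (neg_ne_zero.2 two_ne_zero)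
  apply mul_left_cancel₀ hx
  linear_combination (-4 * k1 - 4 * k2 + k3 + k4) / 6

end Data18

lemma NetG2.IsGeneral.one_ne {B : NetG2} (h : B.IsGeneral) : B.f 1 ≠ 0 := h.1.ne_zero 1

lemma NetG2.IsGeneral.three {B : NetG2} (h : B.IsGeneral) : ∃ j, B.f j 3 ≠ 0 := by
  obtain ⟨j, hj⟩ := h.2 0 1 (Or.inr one_ne_zero)
  refine ⟨j, ?_⟩
  simpa [Fin.sum_univ_four] using hj

lemma NetG2.IsGeneral.bp {B : NetG2} (h : B.IsGeneral) (z : ℂ) :
    ∃ j, (cpoly (B.f j)).eval z ≠ 0 := by
  obtain ⟨j, hj⟩ := h.2 1 z (Or.inl one_ne_zero)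
  refine ⟨j, ?_⟩
  simpa [cpoly, Polynomial.eval_finsetSum] using hj

theorem cube_exists (D : Data18) (hP : Irreducible D.plane) :
    ∃ (M : Type) (_ : Field M) (_ : Algebra KK M) (ι : (Fin 3 → KK) ≃ₗ[KK] M)
      (c : CubeData KK M), D.IsCube ι c := by
  obtain ⟨h1, h2⟩ := irreducible_pencil hP
  obtain ⟨M, i1, i2, ι, c, -, h⟩ := exists_cube D h1 h2
  exact ⟨M, i1, i2, ι, c, h⟩

theorem netCube_exists (B : NetG2) (hB : B.IsGeneral) :
    ∃ (N : Type) (_ : Field N) (_ : Algebra KK N) (ι' : (Fin 3 → KK) ≃ₗ[KK] N)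
      (c' : CubeData KK N), B.IsCube ι' c' := by
  obtain ⟨h1, h2⟩ := irreducible_gpoly hB.bp hB.one_ne hB.three
  exact exists_netCube B h1 h2

theorem rational_of_similar {D : Data18} (hs : IsSmooth D.form) (ha : D.a ≠ 0)
    (hw : ∃ w : Fin 3 → ℂ, D.detX w ≠ 0) {M : Type} [Field M] [Algebra KK M]
    {ι : (Fin 3 → KK) ≃ₗ[KK] M} {c : CubeData KK M} (hX : D.IsCube ι c) (hd : c.disc ≠ 0)
    (h : (∃ u, u ≠ 0 ∧ c.normForm u = 0) ∨
      ∃ (B : NetG2) (N : Type) (_ : Field N) (_ : Algebra KK N) (ι' : (Fin 3 → KK) ≃ₗ[KK] N)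
        (c' : CubeData KK N), B.IsGeneral ∧ B.IsCube ι' c' ∧ Similar c c') :
    IsRational D.form := by
  by_cases hiso : ∃ u, u ≠ 0 ∧ c.normForm u = 0
  · obtain ⟨u, hu, h0⟩ := hiso
    obtain ⟨w, hw'⟩ := id hw
    have hx : D.detX (fun j => algebraMap ℂ KK (w j)) ≠ 0 := by
      have h1 := D.map_detX (Algebra.ofId ℂ KK) w
      have h2 : D.detX (fun j => algebraMap ℂ KK (w j)) = algebraMap ℂ KK (D.detX w) := h1.symm
      rw [h2]
      exact (map_ne_zero _).2 hw'
    have hca : c.a ≠ 0 := by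
      rw [Data18.a_eq hX hx]
      exact (map_ne_zero _).2 ha
    exact iso_main hs hw ι hX hd hu h0
  · rcases h with h | ⟨B, N, i1, i2, ι', c', hB, hc', φ, r, hr, hφ⟩
    · exact absurd h hiso
    · refine main hs hw ι hX hB.three (fun d P hP h => dominant hB.1 d P hP h) ι' hc' φ r hφ ?_
      intro u hu
      by_contra h0
      exact hiso ⟨u, h0, hu⟩

end Vale.Agent.P287.H3
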