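import Vale.Agent.P287.H3.Dual
import Vale.Agent.P287.H3.Final

/-!
The differential of the cubic form along the fibration.
-/

namespace Vale.Agent.P287.H3

open MvPolynomial TrivSqZeroExt

namespace Data18

variable (D : Data18) {R : Type*} [CommRing R] [Algebra ℂ R]

lemma l_smul (r : R) (i : Fin 3) (x y : Fin 3 → R) :
    D.l i (fun j => r * x j) (fun j => r * y j) = r * D.l i x y := by
  simp only [l, Fin.sum_univ_three]; ring

lemma value_smul (r : R) (x y : Fin 3 → R) :
    D.value (fun j => r * x j) (fun j => r * y j) = r ^ 3 * D.value x y := by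
  have h : ∀ i, dot (D.left i fun j => r * x j) (fun j => r * y j) =
      r ^ 2 * dot (D.left i x) y := by
    intro i
    simp only [dot, left_smul]
    ring
  simp only [value, l_smul, h, detX_smul, detY_smul, Fin.sum_univ_three]
  ring

lemma star_lin (t x : Fin 3 → R) (k : Fin 3) : D.star t x k =
    t 0 * D.star ![1, 0, 0] x k + t 1 * D.star ![0, 1, 0] x k + t 2 * D.star ![0, 0, 1] x k := by
  simp [star]

lemma detX_mul (x w : Fin 3 → R) (k : Fin 3) : D.detX x * w k =
    dot (D.left 0 x) w * D.star ![1, 0, 0] x k + dot (D.left 1 x) w * D.star ![0, 1, 0] x k +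
      dot (D.left 2 x) w * D.star ![0, 0, 1] x k := by
  fin_cases k <;> simp [star, detX, det3, dot, cross] <;> ring

lemma star_dual_t (t e x : Fin 3 → R) (k : Fin 3) :
    D.star (fun j => (inl (t j) + inr (e j) : TrivSqZeroExt R R)) (fun j => inl (x j)) k =
      inl (D.star t x k) + inr (D.star e x k) := by
  have hl : ∀ i k, D.left i (fun j => (inl (x j) : TrivSqZeroExt R R)) k = inl (D.left i x k) :=
    fun i k => (D.map_left (inlAlgHom ℂ R R) i x k).symm
  have h0 : ∀ i j k, cross (D.left i fun j => (inl (x j) : TrivSqZeroExt R R))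
      (D.left j fun j => (inl (x j) : TrivSqZeroExt R R)) k =
        inl (cross (D.left i x) (D.left j x) k) := by
    intro i j k
    fin_cases k <;> simp [cross, hl]
  simp only [star, h0]
  ext
  · simp
  · simp

variable {D}

lemma dual_t {t x : Fin 3 → R} {S : R} (hI : D.value x (D.star t x) = D.detX x * S)
    {Th : R →ₐ[ℂ] TrivSqZeroExt R R} (hx : ∀ j, Th (x j) = inl (x j)) {e : Fin 3 → R}
    (ht : ∀ j, Th (t j) = inl (t j) + inr (e j)) :
    D.dval x (D.star t x) 0 (D.star e x) = D.detX x * (Th S).snd := by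
  have h1 := congrArg Th hI
  have h2 : (fun k => Th (D.star t x k)) =
      fun k => (inl (D.star t x k) + inr (D.star e x k) : TrivSqZeroExt R R) := by
    funext k
    rw [D.map_star]
    simp only [hx, ht]
    exact D.star_dual_t t e x k
  have h3 : (fun k => Th (x k)) =
      fun k => (inl (x k) + inr ((0 : Fin 3 → R) k) : TrivSqZeroExt R R) := by
    funext k
    rw [hx]
    simp
  have h4 : D.detX (fun k => Th (x k)) = inl (D.detX x) := by
    have h5 : (fun k => Th (x k)) = fun k => (inl (x k) : TrivSqZeroExt R R) := by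
      funext k
      rw [hx]
    rw [h5]
    exact (D.map_detX (inlAlgHom ℂ R R) x).symm
  rw [D.map_value, map_mul, D.map_detX, h4, h2, h3, D.value_dual] at h1
  have h5 := congrArg TrivSqZeroExt.snd h1
  simpa using h5

lemma dual_e {t x : Fin 3 → R} {S : R} (hI : D.value x (D.star t x) = D.detX x * S)
    {Th : R →ₐ[ℂ] TrivSqZeroExt R R} (hx : ∀ j, Th (x j) = inl (x j) + inr (x j))
    (ht : ∀ j, Th (t j) = inl (t j)) :
    D.dval x (D.star t x) 0 (D.star t x) = D.detX x * (Th S).snd := by
  set u : TrivSqZeroExt R R := inl 1 + inr 1 with hu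
  set v : TrivSqZeroExt R R := inl 1 + inr (-1) with hv
  have huv : v * u = 1 := by
    ext
    · simp [hu, hv]
    · simp [hu, hv]
  have h1 := congrArg Th hI
  have hxu : (fun k => Th (x k)) = fun k => u * (inl (x k) : TrivSqZeroExt R R) := by
    funext k
    rw [hx, hu]
    ext
    · simp
    · simp
  have htu : (fun k => Th (t k)) = fun k => (inl (t k) : TrivSqZeroExt R R) := by
    funext k
    rw [ht]
  have h2 : (fun k => Th (D.star t x k)) =
      fun k => u ^ 2 * (inl (D.star t x k) : TrivSqZeroExt R R) := by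
    funext k
    rw [D.map_star, hxu, htu, D.star_smul]
    congr 1
    exact (D.map_star (inlAlgHom ℂ R R) t x k).symm
  have h4 : D.detX (fun k => Th (x k)) = u ^ 3 * inl (D.detX x) := by
    rw [hxu, D.detX_smul]
    congr 1
    exact (D.map_detX (inlAlgHom ℂ R R) x).symm
  rw [D.map_value, map_mul, D.map_detX, h4, h2, hxu] at h1
  have h6 := D.value_smul v (fun k => u * (inl (x k) : TrivSqZeroExt R R))
    (fun k => u ^ 2 * (inl (D.star t x k) : TrivSqZeroExt R R))
  rw [h1] at h6
  have h7 : (fun k => v * (u * (inl (x k) : TrivSqZeroExt R R))) =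
      fun k => (inl (x k) + inr ((0 : Fin 3 → R) k) : TrivSqZeroExt R R) := by
    funext k
    rw [← mul_assoc, huv]
    simp
  have h8 : (fun k => v * (u ^ 2 * (inl (D.star t x k) : TrivSqZeroExt R R))) =
      fun k => (inl (D.star t x k) + inr (D.star t x k) : TrivSqZeroExt R R) := by
    funext k
    rw [← mul_assoc, sq, ← mul_assoc, huv, one_mul, hu]
    ext
    · simp
    · simp
  have h9 : v ^ 3 * (u ^ 3 * inl (D.detX x) * Th S) = inl (D.detX x) * Th S := by
    have : v ^ 3 * (u ^ 3 * inl (D.detX x) * Th S) = (v * u) ^ 3 * (inl (D.detX x) * Th S) := by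
      ring
    rw [this, huv]
    ring
  rw [h7, h8, D.value_dual, h9] at h6
  have h5 := congrArg TrivSqZeroExt.snd h6
  simpa using h5

/-- the differential along the directions `y` -/
theorem dval_y {t x : Fin 3 → R} (ht0 : t 0 = 1) {S : R}
    (hI : D.value x (D.star t x) = D.detX x * S) (hreg : ∀ z, D.detX x * z = 0 → z = 0)
    {Th : Fin 2 → (R →ₐ[ℂ] TrivSqZeroExt R R)} (hx : ∀ i j, Th i (x j) = inl (x j))
    (h0 : ∀ j, Th 0 (t j) = inl (t j) + inr ((![0, 1, 0] : Fin 3 → R) j))
    (h1 : ∀ j, Th 1 (t j) = inl (t j) + inr ((![0, 0, 1] : Fin 3 → R) j))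
    {Eu : R →ₐ[ℂ] TrivSqZeroExt R R} (hEx : ∀ j, Eu (x j) = inl (x j) + inr (x j))
    (hEt : ∀ j, Eu (t j) = inl (t j)) (w : Fin 3 → R) :
    D.dval x (D.star t x) 0 w =
      dot (D.left 0 x) w * ((Eu S).snd - t 1 * (Th 0 S).snd - t 2 * (Th 1 S).snd) +
        dot (D.left 1 x) w * (Th 0 S).snd + dot (D.left 2 x) w * (Th 1 S).snd := by
  have k0 := dual_t hI (hx 0) h0
  have k1 := dual_t hI (hx 1) h1
  have k2 := dual_e hI hEx hEt
  have hz : ∀ r : R, r • (0 : Fin 3 → R) = 0 := fun r => smul_zero r
  have hsm : ∀ (r : R) (w : Fin 3 → R), D.dval x (D.star t x) 0 (r • w) =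
      r * D.dval x (D.star t x) 0 w := by
    intro r w
    have := D.dval_smul x (D.star t x) 0 w r
    rwa [hz] at this
  have had : ∀ (w w' : Fin 3 → R), D.dval x (D.star t x) 0 (w + w') =
      D.dval x (D.star t x) 0 w + D.dval x (D.star t x) 0 w' := by
    intro w w'
    have := D.dval_add x (D.star t x) 0 w 0 w'
    rwa [add_zero] at this
  have e1 : D.star t x = D.star ![1, 0, 0] x + t 1 • D.star ![0, 1, 0] x +
      t 2 • D.star ![0, 0, 1] x := by
    funext k
    have := D.star_lin t x k
    rw [ht0, one_mul] at this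
    exact this
  have k3 : D.dval x (D.star t x) 0 (D.star ![1, 0, 0] x) = D.detX x *
      ((Eu S).snd - t 1 * (Th 0 S).snd - t 2 * (Th 1 S).snd) := by
    have h5 := congrArg (D.dval x (D.star t x) 0) e1
    rw [had, had, hsm, hsm, k0, k1, k2] at h5
    linear_combination -h5
  have e2 : D.detX x • w = dot (D.left 0 x) w • D.star ![1, 0, 0] x +
      dot (D.left 1 x) w • D.star ![0, 1, 0] x + dot (D.left 2 x) w • D.star ![0, 0, 1] x := by
    funext k
    exact D.detX_mul x w k
  have h6 := congrArg (D.dval x (D.star t x) 0) e2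
  rw [had, had, hsm, hsm, hsm, hsm, k0, k1, k3] at h6
  rw [← sub_eq_zero]
  apply hreg
  linear_combination h6

end Data18

end Vale.Agent.P287.H3
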