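import Vale.Agent.P287.H3.LemA2

/-!
No cubic subfield, conclusion.
-/

namespace Vale.Agent.P287.H3

open MvPolynomial

lemma multi_expand {R : Type*} [CommRing R] (a b : R) (α β u : Fin 3 → R) (t : R) :
    multi a b α β (fun i => t + u i) = b * t ^ 3 +
      (b * (u 0 + u 1 + u 2) + (β 0 + β 1 + β 2)) * t ^ 2 +
      (b * (u 0 * u 1 + u 0 * u 2 + u 1 * u 2) + (α 0 + α 1 + α 2) +
        (β 0 * (u 1 + u 2) + β 1 * (u 0 + u 2) + β 2 * (u 0 + u 1))) * t + multi a b α β u := by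
  simp only [multi]
  ring

/-- A root in the fraction field of a polynomial ring is a polynomial. -/
lemma isInteger_of_multi {R Q : Type*} [CommRing R] [IsDomain R] [IsIntegrallyClosed R] [Field Q]
    [Algebra R Q] [IsFractionRing R Q] {a b b' : R} (hb : b' * b = 1) {α β u : Fin 3 → R} {t : Q}
    (h : multi (algebraMap R Q a) (algebraMap R Q b) (fun i => algebraMap R Q (α i))
      (fun i => algebraMap R Q (β i)) (fun i => t + algebraMap R Q (u i)) = 0) :
    ∃ r : R, algebraMap R Q r = t := by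
  apply IsIntegrallyClosed.isIntegral_iff.1
  set ι := algebraMap R Q with hι
  have hbi' : ι b' * ι b = 1 := by rw [← map_mul, hb, map_one]
  rw [multi_expand (u := fun i => ι (u i))] at h
  refine ⟨Polynomial.X ^ 3 + Polynomial.C (b' * (b * (u 0 + u 1 + u 2) +
      (β 0 + β 1 + β 2))) * Polynomial.X ^ 2 +
      Polynomial.C (b' * (b * (u 0 * u 1 + u 0 * u 2 + u 1 * u 2) + (α 0 + α 1 + α 2) +
        (β 0 * (u 1 + u 2) + β 1 * (u 0 + u 2) + β 2 * (u 0 + u 1)))) *
        Polynomial.X + Polynomial.C (b' * multi a b α β u), ?_, ?_⟩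
  · monicity!
  · simp only [Polynomial.eval₂_add, Polynomial.eval₂_mul, Polynomial.eval₂_pow,
      Polynomial.eval₂_X, Polynomial.eval₂_C]
    rw [← hι]
    simp only [map_add, map_mul, map_multi]
    linear_combination (ι b') * h - (t ^ 3) * hbi'

lemma exists_poly {A Ω : Type*} [Field A] [Field Ω] [Algebra A Ω] {x : Fin 2 → Ω}
    (hx : AlgebraicIndependent A x) {x0 : Ω}
    (h0 : x0 ∈ IntermediateField.adjoin A (Set.range x)) {c : Cube A} (hb : c.b ≠ 0)
    {ξ : Fin 3 → A} (hG : multi (algebraMap A Ω c.a) (algebraMap A Ω c.b)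
      (fun i => algebraMap A Ω (c.α i)) (fun i => algebraMap A Ω (c.β i))
      (fun i => x0 + (algebraMap A Ω (ξ i) * x 0 + algebraMap A Ω (ξ i) ^ 2 * x 1)) = 0) :
    ∃ r : MvPolynomial (Fin 2) A, multi (C c.a) (C c.b) (fun i => C (c.α i))
      (fun i => C (c.β i)) (fun i => r + lin (ξ i) (ξ i ^ 2)) = 0 := by
  let e := hx.aevalEquivField
  set ρ0 : FractionRing (MvPolynomial (Fin 2) A) := e.symm ⟨x0, h0⟩ with hρ0
  let ψ : FractionRing (MvPolynomial (Fin 2) A) →ₐ[A] Ω :=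
    (IntermediateField.adjoin A (Set.range x)).val.comp e.toAlgHom
  have hψρ : ψ ρ0 = x0 := by
    change ((e ρ0 : IntermediateField.adjoin A (Set.range x)) : Ω) = x0
    rw [hρ0, AlgEquiv.apply_symm_apply]
  have hψ : ∀ p : MvPolynomial (Fin 2) A,
      ψ (algebraMap _ (FractionRing (MvPolynomial (Fin 2) A)) p) =
        aeval x p := fun p => hx.aevalEquivField_algebraMap_apply_coe p
  set ι := algebraMap (MvPolynomial (Fin 2) A) (FractionRing (MvPolynomial (Fin 2) A)) with hι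
  have hιinj : Function.Injective ι := IsFractionRing.injective _ _
  have e1 : ∀ p : A, ψ (ι (C p)) = algebraMap A Ω p := by
    intro p
    rw [hψ, aeval_C]
  -- the relation in the fraction field
  have hrel : multi (ι (C c.a)) (ι (C c.b)) (fun i => ι (C (c.α i))) (fun i => ι (C (c.β i)))
      (fun i => ρ0 + ι (lin (ξ i) (ξ i ^ 2))) = 0 := by
    have h1 : ψ.toRingHom (multi (ι (C c.a)) (ι (C c.b)) (fun i => ι (C (c.α i)))
      (fun i => ι (C (c.β i))) (fun i => ρ0 + ι (lin (ξ i) (ξ i ^ 2)))) = 0 := by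
      rw [map_multi, ← hG]
      have e2 : ∀ q, ψ.toRingHom q = ψ q := fun q => rfl
      simp only [e2, e1, map_add, hψρ, hψ]
      congr 1
      funext i
      simp [lin]
    exact (map_eq_zero ψ.toRingHom).1 h1
  obtain ⟨r, hr⟩ := isInteger_of_multi (b' := C c.b⁻¹) (by rw [← C_mul, inv_mul_cancel₀ hb, C_1])
    hrel
  refine ⟨r, ?_⟩
  apply hιinj
  rw [map_multi, map_zero, ← hrel]
  congr 1
  funext i
  rw [map_add, hr]

variable {K Ω : Type*} [Field K] [Field Ω] [Algebra K Ω] [CharZero Ω]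

theorem disc_eq_zero_of_mem_AX {M : Cub K Ω} {c : Cube Ω} (hc : c.Mem M ⊥) (hb : c.b ≠ 0)
    {x : Fin 3 → Ω} (hG : c.G x = 0) {x0 x1 x2 : Ω}
    (hx : ∀ i, x i = x0 + x1 * M.ξ i + x2 * M.ξ i ^ 2)
    (ind : AlgebraicIndependent K ![x1, x2]) (h0 : x0 ∈ AX K ![x1, x2]) : c.disc = 0 := by
  have hcA : c.Mem M (algebraicClosure K Ω) := hc.mono bot_le
  have hξ := M.xi_alg
  -- the data over `A`
  let ξA : Fin 3 → algebraicClosure K Ω := fun i => ⟨M.ξ i, hξ i⟩
  let cA : Cube (algebraicClosure K Ω) :=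
    { a := ⟨c.a, hcA.a⟩
      b := ⟨c.b, hcA.b⟩
      α := fun i => ⟨c.α i, Cub.coords_of_mem hξ hcA.α i⟩
      β := fun i => ⟨c.β i, Cub.coords_of_mem hξ hcA.β i⟩ }
  have hbA : cA.b ≠ 0 := fun h => hb (congrArg Subtype.val h)
  have hξA : Function.Injective ξA := fun i j hij => M.inj (congrArg Subtype.val hij)
  have : CharZero (algebraicClosure K Ω) := by
    refine ⟨fun m n h => ?_⟩
    have h1 := congrArg (algebraMap (algebraicClosure K Ω) Ω) h
    rw [map_natCast, map_natCast] at h1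
    exact Nat.cast_injective h1
  obtain ⟨r, hrel⟩ := exists_poly ind.algebraicClosure h0 hbA (ξ := ξA) (by
    rw [← hG, Cube.G_eq_multi]
    congr 1
    funext i
    rw [hx i]
    have e2 : algebraMap (algebraicClosure K Ω) Ω (ξA i) = M.ξ i := rfl
    rw [e2]
    simp
    ring)
  have hdisc := disc_of_section hbA hξA hrel
  have hcast : c.disc = ((cA.disc : algebraicClosure K Ω) : Ω) := by
    simp [Cube.disc, Cube.Qm, Cube.P, Cube.R, sharp, tr, cA]
    rfl
  rw [hcast, hdisc]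
  rfl

/-- No root of an irreducible cubic polynomial over `K` lies in the function field. -/
theorem not_mem_field {M : Cub K Ω} {c : Cube Ω} (hc : c.Mem M ⊥) (hb : c.b ≠ 0)
    (hd : c.disc ≠ 0) {E : IntermediateField K Ω} {y : Fin 2 → Ω}
    (hy : AlgebraicIndependent K y) (hyE : ∀ i, y i ∈ E) {x : Fin 3 → Ω} (hxE : x ∈ M.alg E)
    (hG : c.G x = 0) (gen : ∀ F, x ∈ M.alg F → E ≤ F)
    {C : Cub K Ω} (hC : ∀ i, C.ξ i ∉ (⊥ : IntermediateField K Ω)) (i : Fin 3) : C.ξ i ∉ E := by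
  intro hi
  obtain ⟨x0, -, x1, -, x2, -, hx⟩ := hxE
  obtain ⟨h1, h2⟩ := mem_AX hc hb hy hyE hG gen hx hC hi
  exact hd (disc_eq_zero_of_mem_AX hc hb hG hx h1 h2)

end Vale.Agent.P287.H3
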