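import Vale.Agent.P287.H3.Emb

/-!
Embeddings of a cubic field with a given generator.
-/

namespace Vale.Agent.P287.H3

open Polynomial

variable {K M Ω : Type*} [Field K] [Field M] [Field Ω] [Algebra K M] [Algebra K Ω]

theorem exists_emb_gen [CharZero K] [IsAlgClosed Ω] (h3 : Module.finrank K M = 3) {θ : M}
    (hθ : IntermediateField.adjoin K {θ} = ⊤) : ∃ e : Emb K M Ω, e.θ = θ := by
  classical
  have hfd : FiniteDimensional K M := FiniteDimensional.of_finrank_pos (by omega)
  have hcΩ : CharZero Ω := charZero_of_injective_algebraMap (algebraMap K Ω).injective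
  have hcM : CharZero M := charZero_of_injective_algebraMap (algebraMap K M).injective
  have hint : IsIntegral K θ := Algebra.IsIntegral.isIntegral θ
  have hdeg : (minpoly K θ).natDegree = 3 := by
    rw [← IntermediateField.adjoin.finrank hint, hθ, IntermediateField.finrank_top', h3]
  have hcard : Fintype.card (M →ₐ[K] Ω) = 3 := by rw [AlgHom.card, h3]
  let e : Fin 3 ≃ (M →ₐ[K] Ω) := (Fintype.equivFinOfCardEq hcard).symm
  have hsum : ∀ f : (M →ₐ[K] Ω) → Ω, ∑ σ, f σ = tr (fun i => f (e i)) := by
    intro f
    rw [← Equiv.sum_comp e, Fin.sum_univ_three]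
    rfl
  have hprod : ∀ f : (M →ₐ[K] Ω) → Ω, ∏ σ, f σ = nm (fun i => f (e i)) := by
    intro f
    rw [← Equiv.prod_comp e, Fin.prod_univ_three]
    rfl
  have htr : ∀ x : M, algebraMap K Ω (Algebra.trace K M x) = tr (fun i => e i x) := by
    intro x
    rw [trace_eq_sum_embeddings, hsum]
  have hnm : ∀ x : M, algebraMap K Ω (Algebra.norm K x) = nm (fun i => e i x) := by
    intro x
    rw [Algebra.norm_eq_prod_embeddings, hprod]
  -- every element is a quadratic polynomial in θ
  have hgen : ∀ x : M, ∃ a b c : K,
      x = algebraMap K M a + algebraMap K M b * θ + algebraMap K M c * θ ^ 2 := by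
    intro x
    let pb : PowerBasis K M := (IntermediateField.adjoin.powerBasis hint).map
      ((IntermediateField.equivOfEq hθ).trans IntermediateField.topEquiv)
    have hpbdim : pb.dim = 3 := by
      rw [← pb.finrank, h3]
    have hpbgen : pb.gen = θ := by
      simp only [pb, PowerBasis.map_gen, IntermediateField.adjoin.powerBasis_gen]
      rfl
    obtain ⟨f, hf⟩ := pb.exists_eq_aeval' x
    obtain ⟨g, hg, hgx⟩ : ∃ g : K[X], g.natDegree ≤ 2 ∧ x = aeval θ g := by
      refine ⟨f %ₘ minpoly K θ, ?_, ?_⟩
      · have := natDegree_modByMonic_lt f (minpoly.monic hint) (by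
          intro h1
          rw [h1] at hdeg
          simp at hdeg)
        omega
      · rw [hpbgen] at hf
        rw [hf, modByMonic_eq_sub_mul_div, map_sub, map_mul, minpoly.aeval, zero_mul, sub_zero]
    refine ⟨g.coeff 0, g.coeff 1, g.coeff 2, ?_⟩
    rw [hgx, aeval_eq_sum_range' (n := 3) (by omega), Finset.sum_range_succ,
      Finset.sum_range_succ, Finset.sum_range_one]
    simp only [Algebra.smul_def]
    ring
  -- the Cub structure
  have hinj : Function.Injective (fun i => e i θ) := by
    intro i j hij
    apply e.injective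
    apply AlgHom.ext
    intro x
    obtain ⟨a, b, c, rfl⟩ := hgen x
    have hij' : e i θ = e j θ := hij
    simp only [map_add, map_mul, map_pow, AlgHom.commutes, hij']
  have hirr : ∀ i, e i θ ∉ (⊥ : IntermediateField K Ω) := by
    intro i hi
    rw [IntermediateField.mem_bot] at hi
    obtain ⟨k, hk⟩ := hi
    have h1 : θ = algebraMap K M k := by
      apply (e i).toRingHom.injective
      change e i θ = e i (algebraMap K M k)
      rw [AlgHom.commutes, hk]
    rw [h1] at hdeg
    rw [minpoly.eq_X_sub_C, natDegree_X_sub_C] at hdeg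
    omega
  let C : Cub K Ω :=
    { ξ := fun i => e i θ
      p := Algebra.trace K M θ
      q := (Algebra.trace K M θ ^ 2 - Algebra.trace K M (θ ^ 2)) / 2
      r := Algebra.norm K θ
      h1 := (htr θ).symm
      h2 := by
        have h := two_e2 (fun i => e i θ)
        have h4 : tr ((fun i => e i θ) * (fun i => e i θ)) =
            algebraMap K Ω (Algebra.trace K M (θ ^ 2)) := by
          rw [htr]
          congr 1
          funext i
          simp [sq]
        rw [h4, ← htr] at h
        rw [map_div₀, map_sub, map_pow, map_ofNat]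
        field_simp
        linear_combination h
      h3 := (hnm θ).symm
      inj := hinj }
  exact ⟨⟨fun i => e i, C, htr, hnm, θ, hgen, fun i => rfl, hirr⟩, rfl⟩

end Vale.Agent.P287.H3
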