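import Vale.Agent.P287.H3.Main

/-!
The key theorem: the surfaces are birational.
-/

namespace Vale.Agent.P287.H3

variable {K Ω : Type*} [Field K] [Field Ω] [Algebra K Ω] [CharZero Ω]

namespace Link

lemma fun2_smul (l m : Fin 3 → Ω) (r : Ω) (u : J Ω) : fun2 l m (r • u) = r * fun2 l m u := by
  simp [fun2, tr]; ring

lemma fun2_add (l m : Fin 3 → Ω) (u v : J Ω) : fun2 l m (u + v) = fun2 l m u + fun2 l m v := by
  simp [fun2, tr]; ring

end Link

/-- a quadratic equation with algebraic coefficients -/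
lemma quad_alg {A : IntermediateField K Ω} (hA : A = algebraicClosure K Ω) {p q r x d : Ω}
    (hp : p ∈ A) (hq : q ∈ A) (hr : r ∈ A) (hd : q ^ 2 - 4 * (p * r) = d) (hd0 : d ≠ 0)
    (h : p + q * x + r * x ^ 2 = 0) : x ∈ A := by
  by_cases hr0 : r = 0
  · subst hr0
    have hq0 : q ≠ 0 := by
      rintro rfl
      apply hd0
      rw [← hd]; ring
    have : x = -p / q := by
      field_simp
      linear_combination h
    rw [this]
    exact A.div_mem (A.neg_mem hp) hq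
  · have h4 : (4 : Ω) ∈ A := by exact_mod_cast A.natCast_mem 4
    have h2 : (2 : Ω) ∈ A := by exact_mod_cast A.natCast_mem 2
    have hdA : d ∈ A := by
      rw [← hd]
      exact A.sub_mem (pow_mem hq 2) (A.mul_mem h4 (A.mul_mem hp hr))
    have h1 : (2 * r * x + q) ^ 2 = d := by
      rw [← hd]; linear_combination (4 * r) * h
    have h5 : 2 * r * x + q ∈ A := by
      rw [hA, mem_algebraicClosure_iff] at hdA ⊢
      rw [← h1] at hdA
      exact hdA.of_pow (n := 2) (by norm_num)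
    have : x = ((2 * r * x + q) - q) / (2 * r) := by
      field_simp
      ring
    rw [this]
    exact A.div_mem (A.sub_mem h5 hq) (A.mul_mem h2 hr)

/-- the quadratic covariant does not vanish at the generic point -/
lemma Q_ne_zero {M : Cub K Ω} {c : Cube Ω} (hc : c.Mem M ⊥) (hd : c.disc ≠ 0)
    {E : IntermediateField K Ω} (hM : ∀ i, M.ξ i ∉ E) (hT : ∀ s : Ω, ¬ E ≤ clo K s)
    {x : Fin 3 → Ω} (hx : x ∈ M.alg E) (gen : ∀ F, x ∈ M.alg F → E ≤ F) (i : Fin 3) :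
    c.Q 1 x i ≠ 0 := by
  have hbot : (⊥ : IntermediateField K Ω) ≤ E := bot_le
  refine Cub.ne_zero_apply hM ((hc.mono hbot).Q (M.alg E).one_mem hx) ?_ i
  intro hQ
  set A := algebraicClosure K Ω with hA
  have hξ : ∀ i, M.ξ i ∈ A := M.xi_alg
  have hcA : c.Mem M A := hc.mono bot_le
  have hxA : x ∈ M.alg A := by
    apply Cub.mem_of_coords hξ
    intro j
    have h1 := congrFun hQ j
    simp only [Cube.Q, Pi.one_apply, one_pow, mul_one, one_mul, Pi.zero_apply] at h1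
    exact quad_alg hA (Cub.coords_of_mem hξ hcA.P j) (Cub.coords_of_mem hξ hcA.Qm j)
      (Cub.coords_of_mem hξ hcA.R j) (c.disc_eq j) hd h1
  exact hT 0 ((gen A hxA).trans (alg_le_clo 0))

namespace Link

variable (L : Link K Ω)

lemma l_ne_zero : L.l ≠ 0 := by
  intro h
  have h1 : JMem L.M ⊥ ((1 : Fin 3 → Ω), (0 : Fin 3 → Ω), (0 : Fin 3 → Ω)) :=
    ⟨(L.M.alg ⊥).one_mem, (L.M.alg ⊥).zero_mem, (L.M.alg ⊥).zero_mem⟩
  have h2 := L.aniso _ ((L.hφ ⊥ _).1 h1) (by rw [L.sim, h, zero_mul])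
  rw [map_eq_zero_iff _ L.φ.injective] at h2
  have h3 := congrFun (congrArg Prod.fst h2) 0
  simp at h3

/-- anisotropy of the other cube -/
lemma aniso' : ∀ u, JMem L.M ⊥ u → L.c.NJ u = 0 → u = 0 := by
  intro u hu h
  have h2 := L.aniso _ ((L.hφ ⊥ _).1 hu) (by rw [L.sim, h, mul_zero])
  rwa [map_eq_zero_iff _ L.φ.injective] at h2

theorem key (E : IntermediateField K Ω) (hM : ∀ i, L.M.ξ i ∉ E) (hN : ∀ i, L.N.ξ i ∉ E)
    (hT : ∀ s : Ω, ¬ E ≤ clo K s) {x : Fin 3 → Ω} (hx : x ∈ L.M.alg E) (hG : L.c.G x = 0)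
    (gen : ∀ F, x ∈ L.M.alg F → E ≤ F) :
    ∃ x' ∈ L.N.alg E, L.c'.G x' = 0 ∧ ∀ F, x' ∈ L.N.alg F → E ≤ F := by
  have hd : L.c.disc ≠ 0 := aniso_disc L.aniso'
  have hd' : L.c'.disc ≠ 0 := aniso_disc L.aniso
  have hb' : L.c'.b ≠ 0 := aniso_b L.aniso
  have hbot : (⊥ : IntermediateField K Ω) ≤ E := bot_le
  have hcE : L.c.Mem L.M E := L.hc.mono hbot
  have hcE' : L.c'.Mem L.N E := L.hc'.mono hbot
  obtain ⟨l1, hl1, m1, hm1, l2, hl2, m2, hm2, ind, hf1, hf2⟩ := L.exists_functionals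
  -- the covariant point
  have h1mem : (1 : Fin 3 → Ω) ∈ L.M.alg E := (L.M.alg E).one_mem
  set Y := L.c.Sy 1 x with hY
  set Z := L.c.Sz 1 x with hZ
  have hYm : Y ∈ L.M.alg E := hcE.Sy h1mem hx
  have hZm : Z ∈ L.M.alg E := hcE.Sz h1mem hx
  -- the multiplier
  let g : (Fin 3 → Ω) →ₗ[Ω] (Fin 2 → Ω) :=
    { toFun := fun ρ => ![fun2 l1 m1 (L.φ (0, ρ * Y, ρ * Z)), fun2 l2 m2 (L.φ (0, ρ * Y, ρ * Z))]
      map_add' := by
        intro ρ ρ'
        have e : ((0, (ρ + ρ') * Y, (ρ + ρ') * Z) : J Ω) =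
            (0, ρ * Y, ρ * Z) + (0, ρ' * Y, ρ' * Z) := by
          simp [add_mul]
        have h : ∀ l m, fun2 l m (L.φ (0, (ρ + ρ') * Y, (ρ + ρ') * Z)) =
            fun2 l m (L.φ (0, ρ * Y, ρ * Z)) + fun2 l m (L.φ (0, ρ' * Y, ρ' * Z)) := by
          intro l m
          rw [e, map_add, fun2_add]
        funext j
        fin_cases j
        · exact h l1 m1
        · exact h l2 m2
      map_smul' := by
        intro r ρ
        have e : ((0, (r • ρ) * Y, (r • ρ) * Z) : J Ω) = r • (0, ρ * Y, ρ * Z) := by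
          simp
        have h : ∀ l m, fun2 l m (L.φ (0, (r • ρ) * Y, (r • ρ) * Z)) =
            r * fun2 l m (L.φ (0, ρ * Y, ρ * Z)) := by
          intro l m
          rw [e, map_smul, fun2_smul]
        funext j
        fin_cases j
        · exact h l1 m1
        · exact h l2 m2 }
  obtain ⟨ρ, hρm, hρ0, hρg⟩ := L.M.exists_mem_ker E (by norm_num) g (by
    intro v hv j
    have h1 : JMem L.N E (L.φ (0, v * Y, v * Z)) := (L.hφ E _).1
      ⟨(L.M.alg E).zero_mem, (L.M.alg E).mul_mem hv hYm, (L.M.alg E).mul_mem hv hZm⟩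
    fin_cases j
    · exact Cub.tr_mem ((L.N.alg E).add_mem ((L.N.alg E).mul_mem (Cub.mono hbot hl1) h1.2.1)
        ((L.N.alg E).mul_mem (Cub.mono hbot hm1) h1.2.2))
    · exact Cub.tr_mem ((L.N.alg E).add_mem ((L.N.alg E).mul_mem (Cub.mono hbot hl2) h1.2.1)
        ((L.N.alg E).mul_mem (Cub.mono hbot hm2) h1.2.2)))
  have hρi := Cub.ne_zero_apply hM hρm hρ0
  have hρ1 : fun2 l1 m1 (L.φ (0, ρ * Y, ρ * Z)) = 0 := congrFun hρg 0
  have hρ2 : fun2 l2 m2 (L.φ (0, ρ * Y, ρ * Z)) = 0 := congrFun hρg 1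
  -- the singular element
  have hQi := Q_ne_zero L.hc hd hM hT hx gen
  have hC0 : L.c.C 1 x = 0 := by rw [Cube.C_one, hG]
  have hsing := L.c.sing_of_C hC0 hQi hρi
  set m : Fin 3 → Ω := fun i => nm ρ * L.c.Cs 1 x / (2 * ρ i ^ 2 * L.c.Q 1 x i) with hm
  have hmm : m ∈ L.M.alg E := by
    have e : m = (nm ρ * L.c.Cs 1 x / 2) • (ρ ^ 2 * L.c.Q 1 x)⁻¹ := by
      funext i
      have h1 := hQi i
      have h2 := hρi i
      simp only [hm, Pi.smul_apply, Pi.inv_apply, Pi.mul_apply, Pi.pow_apply, smul_eq_mul]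
      field_simp
    rw [e]
    refine Cub.smul_mem' (div_mem (mul_mem (Cub.nm_mem hρm) (hcE.Cs h1mem hx))
      (Cube.two_mem E)) (Cub.inv_mem' ((L.M.alg E).mul_mem ((L.M.alg E).pow_mem hρm 2)
      (hcE.Q h1mem hx)) ?_)
    intro i
    exact mul_ne_zero (pow_ne_zero 2 (hρi i)) (hQi i)
  set e : J Ω := (m, ρ * Y, ρ * Z) with he
  have heE : JMem L.M E e := ⟨hmm, (L.M.alg E).mul_mem hρm hYm, (L.M.alg E).mul_mem hρm hZm⟩
  have hesplit : e = (m, 0, 0) + (0, ρ * Y, ρ * Z) := by simp [he]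
  -- the image
  obtain ⟨m', y', z', he'⟩ : ∃ m' y' z', L.φ e = (m', y', z') := ⟨_, _, _, rfl⟩
  have heE' : JMem L.N E (L.φ e) := (L.hφ E e).1 heE
  have hsing' := Cube.Sing.map (c := L.c) (c' := L.c') (φ := (L.φ : J Ω →ₗ[Ω] J Ω))
    L.φ.surjective L.sim (e := e) hsing
  have hfe1 : fun2 l1 m1 (L.φ e) = 0 := by
    rw [hesplit, map_add, fun2_add, hf1, hρ1, add_zero]
  have hfe2 : fun2 l2 m2 (L.φ e) = 0 := by
    rw [hesplit, map_add, fun2_add, hf2, hρ2, add_zero]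
  change L.c'.Sing (L.φ e).1 (L.φ e).2.1 (L.φ e).2.2 at hsing'
  rw [he'] at heE' hsing' hfe1 hfe2
  simp only [fun2] at hfe1 hfe2
  obtain ⟨hm'E, hy'E, hz'E⟩ := heE'
  dsimp only at hm'E hy'E hz'E hsing'
  -- the image is not in the cubic algebra
  have hsharp : L.c'.Q y' z' = 0 → m' = 0 := by
    intro hQ
    by_contra hm0
    have hmi := Cub.ne_zero_apply hN hm'E hm0
    have h1 := hsing'.s1 0
    rw [hQ, Pi.zero_apply, add_zero] at h1
    have h2 := (mul_eq_zero.1 h1).resolve_left hd'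
    simp only [sharp, Matrix.cons_val_zero] at h2
    exact mul_ne_zero (hmi 1) (hmi 2) h2
  have hv0 : ¬ (y' = 0 ∧ z' = 0) := by
    rintro ⟨h1, h2⟩
    have h3 : m' = 0 := by
      apply hsharp
      funext i
      simp [h1, h2, Cube.Q]
    have h4 : L.φ e = 0 := by rw [he', h1, h2, h3]; rfl
    rw [map_eq_zero_iff _ L.φ.injective] at h4
    have h5 : ρ * Y = 0 := congrArg (fun u => u.2.1) h4
    have h6 : ρ * Z = 0 := congrArg (fun u => u.2.2) h4
    have h7 : ∀ i, Y i = 0 := fun i => (mul_eq_zero.1 (congrFun h5 i)).resolve_left (hρi i)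
    have h8 : ∀ i, Z i = 0 := fun i => (mul_eq_zero.1 (congrFun h6 i)).resolve_left (hρi i)
    have h9 := congrFun (L.c.Sy_S 1 x) 0
    rw [← hY, ← hZ] at h9
    simp [Cube.Sy, h7, h8] at h9
    exact hd h9.symm
  -- descent
  have descent : ∀ (F : IntermediateField K Ω) (κ : Ω), κ ≠ 0 → κ⁻¹ • y' ∈ L.N.alg F →
      κ⁻¹ • z' ∈ L.N.alg F → E ≤ F := by
    intro F κ hκ hyF hzF
    have hcF : L.c.Mem L.M F := L.hc.mono bot_le
    have hcF' : L.c'.Mem L.N F := L.hc'.mono bot_le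
    have hmF : κ⁻¹ • m' ∈ L.N.alg F := by
      by_cases hQ : L.c'.Q y' z' = 0
      · rw [hsharp hQ, smul_zero]
        exact (L.N.alg F).zero_mem
      · have hQi' := Cub.ne_zero_apply hN (hcE'.Q hy'E hz'E) hQ
        have hsm : ∀ u : Fin 3 → Ω, κ⁻¹ • u = (fun _ => κ⁻¹) * u := by
          intro u; funext i; simp
        have hQi2 : ∀ i, L.c'.Q (κ⁻¹ • y') (κ⁻¹ • z') i = (κ⁻¹) ^ 2 * L.c'.Q y' z' i := by
          intro i
          rw [hsm, hsm, Cube.Q_smul]
        have hC2 : L.c'.C (κ⁻¹ • y') (κ⁻¹ • z') = (κ⁻¹) ^ 3 * L.c'.C y' z' := by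
          rw [hsm, hsm, Cube.C_smul]
          simp only [nm]; ring
        have e1 : κ⁻¹ • m' = (-(L.c'.C (κ⁻¹ • y') (κ⁻¹ • z')) / 2) •
            (L.c'.Q (κ⁻¹ • y') (κ⁻¹ • z'))⁻¹ := by
          funext i
          have h1 := hsing'.c2 i
          have h2 := hQi' i
          rw [Pi.smul_apply, Pi.smul_apply, Pi.inv_apply, hQi2, hC2, smul_eq_mul, smul_eq_mul]
          have h3 : m' i = -(L.c'.C y' z') / (2 * L.c'.Q y' z' i) := by
            field_simp
            linear_combination h1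
          rw [h3]
          field_simp
        rw [e1]
        refine Cub.smul_mem' (div_mem (neg_mem (hcF'.C hyF hzF)) (Cube.two_mem F))
          (Cub.inv_mem' (hcF'.Q hyF hzF) ?_)
        intro i
        rw [hQi2]
        exact mul_ne_zero (pow_ne_zero 2 (inv_ne_zero hκ)) (hQi' i)
    have hJF : JMem L.N F (L.φ (κ⁻¹ • e)) := by
      rw [map_smul, he']
      exact ⟨hmF, hyF, hzF⟩
    obtain ⟨-, hYF, hZF⟩ := (L.hφ F _).2 hJF
    have hYF' : κ⁻¹ • (ρ * Y) ∈ L.M.alg F := hYF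
    have hZF' : κ⁻¹ • (ρ * Z) ∈ L.M.alg F := hZF
    set σ : Fin 3 → Ω := κ⁻¹ • ρ with hσ
    have e1 : κ⁻¹ • (ρ * Y) = σ * Y := by rw [hσ, smul_mul_assoc]
    have e2 : κ⁻¹ • (ρ * Z) = σ * Z := by rw [hσ, smul_mul_assoc]
    rw [e1] at hYF'
    rw [e2] at hZF'
    have h1 := hcF.Sy hYF' hZF'
    have h2 := hcF.Sz hYF' hZF'
    rw [Cube.Sy_smul, hY, hZ, Cube.Sy_S] at h1
    rw [Cube.Sz_smul, hY, hZ, Cube.Sz_S] at h2
    have hσi : ∀ i, (σ * L.c.disc • (1 : Fin 3 → Ω)) i ≠ 0 := by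
      intro i
      simp only [hσ, Pi.mul_apply, Pi.smul_apply, Pi.one_apply, smul_eq_mul, mul_one]
      exact mul_ne_zero (mul_ne_zero (inv_ne_zero hκ) (hρi i)) hd
    have h3 := Cub.div_mem' h2 h1 hσi
    have h4 : (σ * L.c.disc • x) / (σ * L.c.disc • (1 : Fin 3 → Ω)) = x := by
      funext i
      have := hσi i
      simp only [Pi.mul_apply, Pi.smul_apply, Pi.one_apply, smul_eq_mul, mul_one,
        Pi.div_apply] at this ⊢
      have h5 : σ i ≠ 0 := left_ne_zero_of_mul this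
      field_simp
    rw [h4] at h3
    exact gen F h3
  -- independence of the functionals
  have hcross : cr (l1 * y' + m1 * z') (l2 * y' + m2 * z') ≠ 0 :=
    cross_ne_zero L.hc' hN L.aniso hl1 hm1 hl2 hm2 ind hy'E hz'E hv0 hsing'.cs hfe1
      (fun F κ s hF hκ h1 h2 => hT s (hF ▸ descent F κ hκ h1 h2))
  -- the new point
  set y2 := L.c'.Sy y' z' with hy2
  set z2 := L.c'.Sz y' z' with hz2
  have hy2m : y2 ∈ L.N.alg E := hcE'.Sy hy'E hz'E
  have hz2m : z2 ∈ L.N.alg E := hcE'.Sz hy'E hz'E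
  have hC2 : L.c'.C y2 z2 = 0 := by rw [hy2, hz2, Cube.C_S, hsing'.cs, mul_zero]
  have hSy2 := L.c'.Sy_S y' z'
  have hSz2 := L.c'.Sz_S y' z'
  rw [← hy2, ← hz2] at hSy2 hSz2
  have hy20 : y2 ≠ 0 := by
    intro h
    have hz20 : z2 ≠ 0 := by
      intro h'
      apply hv0
      rw [h, h'] at hSy2 hSz2
      have a1 : L.c'.disc • y' = 0 := by
        rw [← hSy2]; funext i; simp [Cube.Sy]
      have a2 : L.c'.disc • z' = 0 := by
        rw [← hSz2]; funext i; simp [Cube.Sz]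
      exact ⟨(smul_eq_zero.1 a1).resolve_left hd', (smul_eq_zero.1 a2).resolve_left hd'⟩
    have hz2i := Cub.ne_zero_apply hN hz2m hz20
    rw [h] at hC2
    simp only [Cube.C, Cube.C3, Pi.zero_apply] at hC2
    have : L.c'.b * (z2 0 * z2 1 * z2 2) = 0 := by linear_combination hC2
    exact mul_ne_zero hb' (nm_ne_zero hz2i) this
  have hy2i := Cub.ne_zero_apply hN hy2m hy20
  have hx'm : z2 / y2 ∈ L.N.alg E := Cub.div_mem' hz2m hy2m hy2i
  refine ⟨z2 / y2, hx'm, ?_, ?_⟩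
  · have h1 := L.c'.G_div (z := z2) hy2i
    rw [hC2] at h1
    exact (mul_eq_zero.1 h1).resolve_left (nm_ne_zero hy2i)
  · intro F hF
    have hcF' : L.c'.Mem L.N F := L.hc'.mono bot_le
    have hbF : (⊥ : IntermediateField K Ω) ≤ F := bot_le
    have h1F : (1 : Fin 3 → Ω) ∈ L.N.alg F := (L.N.alg F).one_mem
    set wy := L.c'.Sy 1 (z2 / y2) with hwy
    set wz := L.c'.Sz 1 (z2 / y2) with hwz
    have hwyF : wy ∈ L.N.alg F := hcF'.Sy h1F hF
    have hwzF : wz ∈ L.N.alg F := hcF'.Sz h1F hF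
    set ρ' : Fin 3 → Ω := (L.c'.disc)⁻¹ • y2 with hρ'
    have hρ'i : ∀ i, ρ' i ≠ 0 := fun i => by
      rw [hρ', Pi.smul_apply, smul_eq_mul]
      exact mul_ne_zero (inv_ne_zero hd') (hy2i i)
    have hdiv : y2 * (z2 / y2) = z2 := by
      funext i
      have := hy2i i
      simp only [Pi.mul_apply, Pi.div_apply]
      field_simp
    have ey : y' = ρ' * wy := by
      have h1 := L.c'.Sy_smul y2 1 (z2 / y2)
      rw [mul_one, hdiv, hSy2, ← hwy] at h1
      rw [hρ', smul_mul_assoc, ← h1, smul_smul, inv_mul_cancel₀ hd', one_smul]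
    have ez : z' = ρ' * wz := by
      have h1 := L.c'.Sz_smul y2 1 (z2 / y2)
      rw [mul_one, hdiv, hSz2, ← hwz] at h1
      rw [hρ', smul_mul_assoc, ← h1, smul_smul, inv_mul_cancel₀ hd', one_smul]
    set a := l1 * wy + m1 * wz with ha
    set b := l2 * wy + m2 * wz with hb
    have haF : a ∈ L.N.alg F := (L.N.alg F).add_mem ((L.N.alg F).mul_mem (Cub.mono hbF hl1) hwyF)
      ((L.N.alg F).mul_mem (Cub.mono hbF hm1) hwzF)
    have hbF' : b ∈ L.N.alg F := (L.N.alg F).add_mem ((L.N.alg F).mul_mem (Cub.mono hbF hl2) hwyF)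
      ((L.N.alg F).mul_mem (Cub.mono hbF hm2) hwzF)
    have ea : l1 * y' + m1 * z' = ρ' * a := by rw [ey, ez, ha]; ring
    have eb : l2 * y' + m2 * z' = ρ' * b := by rw [ey, ez, hb]; ring
    rw [ea, eb, cr_mul] at hcross
    have hcross' : cr a b ≠ 0 := by
      intro h
      rw [h, mul_zero] at hcross
      exact hcross rfl
    rw [ea] at hfe1
    rw [eb] at hfe2
    let g' : (Fin 3 → Ω) →ₗ[Ω] (Fin 2 → Ω) :=
      { toFun := fun σ => ![tr (σ * a), tr (σ * b)]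
        map_add' := by
          intro σ σ'
          funext j
          fin_cases j <;> simp [add_mul, tr_add]
        map_smul' := by
          intro r σ
          funext j
          fin_cases j <;> simp [smul_mul_assoc, tr_smul] }
    obtain ⟨σ, hσF, hσ0, hσg⟩ := L.N.exists_mem_ker F (by norm_num) g' (by
      intro v hv j
      fin_cases j
      · exact Cub.tr_mem ((L.N.alg F).mul_mem hv haF)
      · exact Cub.tr_mem ((L.N.alg F).mul_mem hv hbF'))
    have hσ1 : tr (σ * a) = 0 := congrFun hσg 0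
    have hσ2 : tr (σ * b) = 0 := congrFun hσg 1
    obtain ⟨κ, hκ⟩ := par_of_orth hcross' hfe1 hfe2 hσ1 hσ2 hσ0
    have hκ0 : κ ≠ 0 := by
      intro h
      rw [h, zero_smul] at hκ
      exact hρ'i 0 (congrFun hκ 0)
    refine descent F κ hκ0 ?_ ?_
    · rw [ey, hκ, smul_mul_assoc, smul_smul, inv_mul_cancel₀ hκ0, one_smul]
      exact (L.N.alg F).mul_mem hσF hwyF
    · rw [ez, hκ, smul_mul_assoc, smul_smul, inv_mul_cancel₀ hκ0, one_smul]
      exact (L.N.alg F).mul_mem hσF hwzF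

end Link

end Vale.Agent.P287.H3
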