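import Vale.Agent.P287.H3.Sing

/-!
The trilinear form of the cubic form in nine variables; extension of identities.
-/

namespace Vale.Agent.P287.H3

variable {Ω : Type*} [Field Ω]

namespace Cube

variable (c : Cube Ω)

def T (e u w : J Ω) : Ω := c.dN (e + u) w - c.dN e w - c.dN u w

lemma T_symm (e u w : J Ω) : c.T e u w = c.T u e w := by
  simp only [T, add_comm]
  ring

lemma T_add1 (e e' u w : J Ω) : c.T (e + e') u w = c.T e u w + c.T e' u w := by
  obtain ⟨m, y, z⟩ := e
  obtain ⟨m1, y1, z1⟩ := e'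
  obtain ⟨m2, y2, z2⟩ := u
  obtain ⟨m3, y3, z3⟩ := w
  simp [T, dN, tr, sharp, Q, Cy, Cz, C3]
  ring

lemma T_smul1 (r : Ω) (e u w : J Ω) : c.T (r • e) u w = r * c.T e u w := by
  obtain ⟨m, y, z⟩ := e
  obtain ⟨m2, y2, z2⟩ := u
  obtain ⟨m3, y3, z3⟩ := w
  simp [T, dN, tr, sharp, Q, Cy, Cz, C3]
  ring

lemma T_add3 (e u w w' : J Ω) : c.T e u (w + w') = c.T e u w + c.T e u w' := by
  simp only [T, dN, tr, Prod.fst_add, Prod.snd_add, Pi.add_apply]
  ring

lemma T_smul3 (r : Ω) (e u w : J Ω) : c.T e u (r • w) = r * c.T e u w := by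
  simp only [T, dN, tr, Prod.smul_fst, Prod.smul_snd, Pi.smul_apply, smul_eq_mul]
  ring

lemma NJ_eq_T (u : J Ω) : 6 * c.NJ u = c.T u u u := by
  obtain ⟨m, y, z⟩ := u
  simp [T, NJ, N, dN, tr, nm, sharp, Q, C, Cy, Cz, C3]
  ring

variable {c} [CharZero Ω]

/-- A similarity on a spanning additive subgroup is a similarity. -/
theorem similar_ext {c' : Cube Ω} (φ : J Ω →ₗ[Ω] J Ω) {l : Ω} (S : AddSubgroup (J Ω))
    (hS : Submodule.span Ω (S : Set (J Ω)) = ⊤) (h : ∀ u ∈ S, c'.NJ (φ u) = l * c.NJ u) :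
    ∀ u, c'.NJ (φ u) = l * c.NJ u := by
  have h1 : ∀ e ∈ S, ∀ u ∈ S, c'.dN (φ e) (φ u) = l * c.dN e u := by
    intro e he u hu
    have h1 := h (e + u) (S.add_mem he hu)
    have h2 := h (e - u) (S.sub_mem he hu)
    have h3 := h u hu
    rw [map_add, NJ_add, NJ_add] at h1
    rw [map_sub, NJ_sub, NJ_sub] at h2
    have h4 : 2 * c'.dN (φ e) (φ u) = 2 * (l * c.dN e u) := by
      linear_combination h1 - h2 - 2 * h3
    exact mul_left_cancel₀ two_ne_zero h4
  have h2 : ∀ e ∈ S, ∀ u ∈ S, ∀ w ∈ S, c'.T (φ e) (φ u) (φ w) = l * c.T e u w := by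
    intro e he u hu w hw
    simp only [T]
    rw [← map_add, h1 _ (S.add_mem he hu) _ hw, h1 _ he _ hw, h1 _ hu _ hw]
    ring
  have h3 : ∀ e ∈ S, ∀ u ∈ S, ∀ w, c'.T (φ e) (φ u) (φ w) = l * c.T e u w := by
    intro e he u hu w
    have hw : w ∈ Submodule.span Ω (S : Set (J Ω)) := by rw [hS]; trivial
    induction hw using Submodule.span_induction with
    | mem w hw => exact h2 e he u hu w hw
    | zero =>
      have e1 := c'.T_smul3 0 (φ e) (φ u) 0
      have e2 := c.T_smul3 0 e u 0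
      rw [zero_smul, zero_mul] at e1 e2
      rw [map_zero, e1, e2, mul_zero]
    | add w w' _ _ hw hw' =>
      rw [map_add, T_add3, T_add3, hw, hw']; ring
    | smul r w _ hw => rw [map_smul, T_smul3, T_smul3, hw]; ring
  have h4 : ∀ e ∈ S, ∀ u w, c'.T (φ e) (φ u) (φ w) = l * c.T e u w := by
    intro e he u w
    have hu : u ∈ Submodule.span Ω (S : Set (J Ω)) := by rw [hS]; trivial
    rw [T_symm, c.T_symm]
    induction hu using Submodule.span_induction with
    | mem u hu => rw [T_symm, c.T_symm]; exact h3 e he u hu w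
    | zero =>
      have e1 := c'.T_smul1 0 0 (φ e) (φ w)
      have e2 := c.T_smul1 0 0 e w
      rw [zero_smul, zero_mul] at e1 e2
      rw [map_zero, e1, e2, mul_zero]
    | add u u' _ _ hu hu' =>
      rw [map_add, T_add1, T_add1, hu, hu']; ring
    | smul r u _ hu => rw [map_smul, T_smul1, T_smul1, hu]; ring
  have h5 : ∀ e u w, c'.T (φ e) (φ u) (φ w) = l * c.T e u w := by
    intro e u w
    have he : e ∈ Submodule.span Ω (S : Set (J Ω)) := by rw [hS]; trivial
    induction he using Submodule.span_induction with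
    | mem e he => exact h4 e he u w
    | zero =>
      have e1 := c'.T_smul1 0 0 (φ u) (φ w)
      have e2 := c.T_smul1 0 0 u w
      rw [zero_smul, zero_mul] at e1 e2
      rw [map_zero, e1, e2, mul_zero]
    | add e e' _ _ he he' =>
      rw [map_add, T_add1, T_add1, he, he']; ring
    | smul r e _ he => rw [map_smul, T_smul1, T_smul1, he]; ring
  intro u
  have h6 : (6 : Ω) * c'.NJ (φ u) = 6 * (l * c.NJ u) := by
    rw [NJ_eq_T, h5, ← NJ_eq_T]; ring
  exact mul_left_cancel₀ (by norm_num) h6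

end Cube

end Vale.Agent.P287.H3
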