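import Vale.Agent.P287.H3.Emb
import Vale.Agent.P287.H3.Tri
import Vale.Agent.P287.H3.KeyThm

/-!
Extension of similarities of norm forms from `K` to `Ω`.
-/

namespace Vale.Agent.P287.H3

variable {K M N Ω : Type*} [Field K] [Field M] [Field N] [Field Ω] [Algebra K M] [Algebra K N]
  [Algebra K Ω]

namespace Emb

variable (e : Emb K M Ω)

/-- the embedding in `Ω³` -/
def vec : M →ₗ[K] (Fin 3 → Ω) := LinearMap.pi fun i => (e.σ i).toLinearMap

@[simp] lemma vec_apply (x : M) (i : Fin 3) : e.vec x i = e.σ i x := rfl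

lemma vec_mul (x y : M) : e.vec (x * y) = e.vec x * e.vec y := by
  funext i; simp

lemma vec_algebraMap (k : K) : e.vec (algebraMap K M k) = fun _ => algebraMap K Ω k := by
  funext i; simp

lemma vec_mem (x : M) : e.vec x ∈ e.C.alg ⊥ := by
  obtain ⟨a, b, c, rfl⟩ := e.gen x
  refine ⟨algebraMap K Ω a, IntermediateField.algebraMap_mem _ _, algebraMap K Ω b,
    IntermediateField.algebraMap_mem _ _, algebraMap K Ω c,
    IntermediateField.algebraMap_mem _ _, fun i => ?_⟩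
  rw [e.ξ]
  simp

lemma vec_adj (x : M) : e.vec (adj K x) = sharp (e.vec x) := by
  funext i
  by_cases hx : x = 0
  · subst hx
    have h0 : e.vec (0 : M) = 0 := map_zero _
    rw [h0]
    simp only [adj, inv_zero, mul_zero, map_zero, Pi.zero_apply]
    fin_cases i <;> simp [sharp]
  · have h1 : e.σ i x ≠ 0 := by
      intro h
      exact hx ((map_eq_zero (e.σ i)).1 h)
    have h2 := mul_sharp (e.vec x) i
    have h3 := e.nm' x
    rw [vec_apply, adj, map_mul, AlgHom.commutes, map_inv₀, h3]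
    have h4 : nm (fun i => e.σ i x) = nm (e.vec x) := rfl
    rw [h4, ← h2, vec_apply]
    field_simp

lemma tr_vec (x : M) : tr (e.vec x) = algebraMap K Ω (Algebra.trace K M x) := (e.tr' x).symm

lemma nm_vec (x : M) : nm (e.vec x) = algebraMap K Ω (Algebra.norm K x) := (e.nm' x).symm

/-- the cube with coordinates in `Ω` -/
def cube (c : CubeData K M) : Cube Ω :=
  ⟨algebraMap K Ω c.a, e.vec c.α, e.vec c.β, algebraMap K Ω c.b⟩

lemma cube_mem (c : CubeData K M) : (e.cube c).Mem e.C ⊥ :=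
  ⟨IntermediateField.algebraMap_mem _ _, IntermediateField.algebraMap_mem _ _, e.vec_mem _,
    e.vec_mem _⟩

lemma G_vec (c : CubeData K M) (x : M) :
    (e.cube c).G (e.vec x) = algebraMap K Ω (c.surf x) := by
  simp only [Cube.G, cube, CubeData.surf, map_add, map_mul, ← e.tr_vec, ← e.nm_vec, vec_mul, vec_adj]

lemma disc_cube (c : CubeData K M) : (e.cube c).disc = algebraMap K Ω c.disc := by
  rw [Cube.disc_eq']
  simp only [cube, CubeData.disc, map_add, map_sub, map_mul, map_pow, map_ofNat, ← e.tr_vec,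
    ← e.nm_vec, vec_mul, sq]

lemma quad_cube (c : CubeData K M) (y z : M) :
    (e.cube c).Q (e.vec y) (e.vec z) = e.vec (c.quad y z) := by
  have h1 : e.vec (c.quad y z) = (sharp (e.vec c.α) - (fun _ => algebraMap K Ω c.a) * e.vec c.β) *
      (e.vec y * e.vec y) + ((fun _ => tr (e.vec c.α * e.vec c.β) -
        algebraMap K Ω c.a * algebraMap K Ω c.b) - 2 * (e.vec c.α * e.vec c.β)) *
        (e.vec y * e.vec z) + (sharp (e.vec c.β) - (fun _ => algebraMap K Ω c.b) * e.vec c.α) *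
      (e.vec z * e.vec z) := by
    have h2 : e.vec (2 : M) = 2 := by
      funext i
      exact map_ofNat (e.σ i) 2
    have h3 : e.vec (algebraMap K M (Algebra.trace K M (c.α * c.β) - c.a * c.b)) =
        (fun _ => tr (e.vec c.α * e.vec c.β) - algebraMap K Ω c.a * algebraMap K Ω c.b) := by
      funext i
      rw [vec_algebraMap, ← vec_mul, e.tr_vec, map_sub, map_mul (algebraMap K Ω)]
    simp only [CubeData.quad, map_add, map_sub, vec_mul, vec_adj, sq, h2]
    rw [map_sub, map_sub] at h3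
    rw [h3, vec_algebraMap, vec_algebraMap]
  rw [h1]
  funext i
  simp only [Cube.Q, Cube.P, Cube.Qm, Cube.R, cube, Pi.add_apply, Pi.sub_apply, Pi.mul_apply,
    Pi.ofNat_apply]
  ring

/-- the embedding in the nine dimensional space -/
def vec3 : (M × M × M) →ₗ[K] J Ω := e.vec.prodMap (e.vec.prodMap e.vec)

lemma vec3_apply (u : M × M × M) : e.vec3 u = (e.vec u.1, e.vec u.2.1, e.vec u.2.2) := rfl

lemma NJ_vec3 (c : CubeData K M) (u : M × M × M) :
    (e.cube c).NJ (e.vec3 u) = algebraMap K Ω (c.normForm u) := by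
  obtain ⟨m, y, z⟩ := u
  have hC : (e.cube c).C (e.vec y) (e.vec z) = algebraMap K Ω (c.cubic y z) := by
    have h1 : algebraMap K Ω (c.cubic y z) = algebraMap K Ω c.a * nm (e.vec y) +
        tr (e.vec c.α * (e.vec z * sharp (e.vec y))) +
        tr (e.vec c.β * (e.vec y * sharp (e.vec z))) + algebraMap K Ω c.b * nm (e.vec z) := by
      simp only [CubeData.cubic, map_add, map_mul, ← e.tr_vec, ← e.nm_vec, vec_mul, vec_adj]
    rw [h1]
    simp [Cube.C, Cube.C3, cube, tr, nm, sharp]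
    ring
  simp only [Cube.NJ, Cube.N, vec3_apply, CubeData.normForm, map_add, map_mul, disc_cube,
    quad_cube, ← vec_mul, nm_vec, tr_vec, hC]

lemma JMem_vec3 (u : M × M × M) : JMem e.C ⊥ (e.vec3 u) :=
  ⟨e.vec_mem _, e.vec_mem _, e.vec_mem _⟩

lemma exists_vec {u : Fin 3 → Ω} (hu : u ∈ e.C.alg ⊥) : ∃ x, e.vec x = u := by
  obtain ⟨a, ha, b, hb, c, hc, h⟩ := hu
  rw [IntermediateField.mem_bot] at ha hb hc
  obtain ⟨a, rfl⟩ := ha
  obtain ⟨b, rfl⟩ := hb
  obtain ⟨c, rfl⟩ := hc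
  refine ⟨algebraMap K M a + algebraMap K M b * e.θ + algebraMap K M c * e.θ ^ 2, ?_⟩
  funext i
  rw [h, e.ξ]
  simp

lemma exists_vec3 {u : J Ω} (hu : JMem e.C ⊥ u) : ∃ x, e.vec3 x = u := by
  obtain ⟨m, y, z⟩ := u
  obtain ⟨h1, h2, h3⟩ := hu
  obtain ⟨m', hm⟩ := e.exists_vec h1
  obtain ⟨y', hy⟩ := e.exists_vec h2
  obtain ⟨z', hz⟩ := e.exists_vec h3
  refine ⟨(m', y', z'), ?_⟩
  rw [vec3_apply]
  simp only at hm hy hz ⊢
  rw [hm, hy, hz]

/-- powers of the primitive element -/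
def pw (j : Fin 3) : M := e.θ ^ (j : ℕ)

lemma vec_pw (j i : Fin 3) : e.vec (e.pw j) i = e.C.ξ i ^ (j : ℕ) := by
  rw [vec_apply, pw, map_pow, e.ξ]

lemma indep_pw : LinearIndependent K e.pw := by
  rw [Fintype.linearIndependent_iff]
  intro g hg
  have h : ∀ i, algebraMap K Ω (g 0) + algebraMap K Ω (g 1) * e.C.ξ i +
      algebraMap K Ω (g 2) * e.C.ξ i ^ 2 = 0 := by
    intro i
    have h1 := congrArg (e.σ i) hg
    rw [map_sum, map_zero, Fin.sum_univ_three] at h1
    rw [← h1, e.ξ]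
    simp [pw, Algebra.smul_def]
  obtain ⟨h0, h1, h2⟩ := van e.C.inj h
  intro i
  fin_cases i
  · exact (map_eq_zero _).1 h0
  · exact (map_eq_zero _).1 h1
  · exact (map_eq_zero _).1 h2

noncomputable def bM : Module.Basis (Fin 3) K M := Module.Basis.mk e.indep_pw (by
  intro x _
  obtain ⟨a, b, c, rfl⟩ := e.gen x
  have h : algebraMap K M a + algebraMap K M b * e.θ + algebraMap K M c * e.θ ^ 2 =
      a • e.pw 0 + b • e.pw 1 + c • e.pw 2 := by
    simp [pw, Algebra.smul_def]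
  rw [h]
  exact Submodule.add_mem _ (Submodule.add_mem _
    (Submodule.smul_mem _ _ (Submodule.subset_span ⟨0, rfl⟩))
    (Submodule.smul_mem _ _ (Submodule.subset_span ⟨1, rfl⟩)))
    (Submodule.smul_mem _ _ (Submodule.subset_span ⟨2, rfl⟩)))

lemma bM_apply (j : Fin 3) : e.bM j = e.pw j := by simp [bM]

lemma indep_vec : LinearIndependent Ω (fun j => e.vec (e.pw j)) := by
  rw [Fintype.linearIndependent_iff]
  intro g hg
  have h : ∀ i, g 0 + g 1 * e.C.ξ i + g 2 * e.C.ξ i ^ 2 = 0 := by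
    intro i
    have h1 := congrFun hg i
    rw [Finset.sum_apply, Fin.sum_univ_three, Pi.zero_apply] at h1
    rw [← h1]
    simp only [Pi.smul_apply, vec_pw, smul_eq_mul]
    simp
  obtain ⟨h0, h1, h2⟩ := van e.C.inj h
  intro i
  fin_cases i
  · exact h0
  · exact h1
  · exact h2

noncomputable def BM : Module.Basis (Fin 3) Ω (Fin 3 → Ω) := Module.Basis.mk e.indep_vec (by
  intro u _
  obtain ⟨a, b, c, h, -⟩ := e.C.exists_coord u
  have h : u = a • e.vec (e.pw 0) + b • e.vec (e.pw 1) + c • e.vec (e.pw 2) := by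
    funext i
    rw [h]
    simp only [Pi.add_apply, Pi.smul_apply, vec_pw, smul_eq_mul]
    simp
  rw [h]
  exact Submodule.add_mem _ (Submodule.add_mem _
    (Submodule.smul_mem _ _ (Submodule.subset_span ⟨0, rfl⟩))
    (Submodule.smul_mem _ _ (Submodule.subset_span ⟨1, rfl⟩)))
    (Submodule.smul_mem _ _ (Submodule.subset_span ⟨2, rfl⟩)))

lemma BM_apply (j : Fin 3) : e.BM j = e.vec (e.bM j) := by simp [BM, bM_apply]

noncomputable def bJ : Module.Basis (Fin 3 ⊕ (Fin 3 ⊕ Fin 3)) K (M × M × M) :=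
  e.bM.prod (e.bM.prod e.bM)

noncomputable def BJ : Module.Basis (Fin 3 ⊕ (Fin 3 ⊕ Fin 3)) Ω (J Ω) :=
  e.BM.prod (e.BM.prod e.BM)

lemma BJ_apply (k : Fin 3 ⊕ (Fin 3 ⊕ Fin 3)) : e.BJ k = e.vec3 (e.bJ k) := by
  rcases k with k | k | k
  · simp [BJ, bJ, vec3_apply, BM_apply]
    rfl
  · simp [BJ, bJ, vec3_apply, BM_apply]
  · simp [BJ, bJ, vec3_apply, BM_apply]

/-- extension of scalars of a linear map -/
noncomputable def lift (e' : Emb K N Ω) (f : (M × M × M) →ₗ[K] (N × N × N)) : J Ω →ₗ[Ω] J Ω :=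
  e.BJ.constr Ω (fun k => e'.vec3 (f (e.bJ k)))

lemma lift_vec3 (e' : Emb K N Ω) (f : (M × M × M) →ₗ[K] (N × N × N)) (u : M × M × M) :
    e.lift e' f (e.vec3 u) = e'.vec3 (f u) := by
  have h : ((e.lift e' f).restrictScalars K).comp e.vec3 = e'.vec3.comp f := by
    apply e.bJ.ext
    intro k
    rw [LinearMap.comp_apply, LinearMap.comp_apply, LinearMap.restrictScalars_apply, ← BJ_apply,
      lift, Module.Basis.constr_basis]
  exact LinearMap.congr_fun h u

/-- extension of scalars of a linear equivalence -/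
noncomputable def liftE (e' : Emb K N Ω) (f : (M × M × M) ≃ₗ[K] (N × N × N)) : J Ω ≃ₗ[Ω] J Ω :=
  LinearEquiv.ofLinearMap (e.lift e' f.toLinearMap) (e'.lift e f.symm.toLinearMap)
    (by
      apply e'.BJ.ext
      intro k
      rw [LinearMap.comp_apply, BJ_apply, lift_vec3, lift_vec3]
      simp)
    (by
      apply e.BJ.ext
      intro k
      rw [LinearMap.comp_apply, BJ_apply, lift_vec3, lift_vec3]
      simp)

lemma JMem_add {C : Cub K Ω} {F : IntermediateField K Ω} {u v : J Ω} (hu : JMem C F u)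
    (hv : JMem C F v) : JMem C F (u + v) :=
  ⟨(C.alg F).add_mem hu.1 hv.1, (C.alg F).add_mem hu.2.1 hv.2.1, (C.alg F).add_mem hu.2.2 hv.2.2⟩

lemma JMem_smul {C : Cub K Ω} {F : IntermediateField K Ω} {r : Ω} (hr : r ∈ F) {u : J Ω}
    (hu : JMem C F u) : JMem C F (r • u) :=
  ⟨Cub.smul_mem' hr hu.1, Cub.smul_mem' hr hu.2.1, Cub.smul_mem' hr hu.2.2⟩

lemma JMem_zero {C : Cub K Ω} {F : IntermediateField K Ω} : JMem C F 0 :=
  ⟨(C.alg F).zero_mem, (C.alg F).zero_mem, (C.alg F).zero_mem⟩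

lemma JMem_lift (e' : Emb K N Ω) (f : (M × M × M) →ₗ[K] (N × N × N)) (F : IntermediateField K Ω)
    {u : J Ω} (hu : JMem e.C F u) : JMem e'.C F (e.lift e' f u) := by
  have hb : ∀ w : M × M × M, JMem e'.C F (e.lift e' f (e.vec3 w)) := by
    intro w
    rw [lift_vec3]
    obtain ⟨h1, h2, h3⟩ := e'.JMem_vec3 (f w)
    exact ⟨Cub.mono bot_le h1, Cub.mono bot_le h2, Cub.mono bot_le h3⟩
  have hvec : ∀ w ∈ e.C.alg F, ∃ a ∈ F, ∃ b ∈ F, ∃ c ∈ F,
      w = a • e.vec (e.pw 0) + b • e.vec (e.pw 1) + c • e.vec (e.pw 2) := by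
    rintro w ⟨a, ha, b, hb, c, hc, h⟩
    refine ⟨a, ha, b, hb, c, hc, ?_⟩
    funext i
    rw [h]
    simp only [Pi.add_apply, Pi.smul_apply, vec_pw, smul_eq_mul]
    simp
  obtain ⟨m, y, z⟩ := u
  obtain ⟨hm, hy, hz⟩ := hu
  obtain ⟨a1, ha1, b1, hb1, c1, hc1, h1⟩ := hvec m hm
  obtain ⟨a2, ha2, b2, hb2, c2, hc2, h2⟩ := hvec y hy
  obtain ⟨a3, ha3, b3, hb3, c3, hc3, h3⟩ := hvec z hz
  have hu : ((m, y, z) : J Ω) =
      (a1 • e.vec3 (e.pw 0, 0, 0) + b1 • e.vec3 (e.pw 1, 0, 0) + c1 • e.vec3 (e.pw 2, 0, 0)) +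
      ((a2 • e.vec3 (0, e.pw 0, 0) + b2 • e.vec3 (0, e.pw 1, 0) + c2 • e.vec3 (0, e.pw 2, 0)) +
      (a3 • e.vec3 (0, 0, e.pw 0) + b3 • e.vec3 (0, 0, e.pw 1) + c3 • e.vec3 (0, 0, e.pw 2))) := by
    rw [h1, h2, h3]
    simp [vec3_apply]
  rw [hu]
  simp only [map_add, map_smul]
  exact JMem_add (JMem_add (JMem_add (JMem_smul ha1 (hb _)) (JMem_smul hb1 (hb _)))
    (JMem_smul hc1 (hb _))) (JMem_add
    (JMem_add (JMem_add (JMem_smul ha2 (hb _)) (JMem_smul hb2 (hb _))) (JMem_smul hc2 (hb _)))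
    (JMem_add (JMem_add (JMem_smul ha3 (hb _)) (JMem_smul hb3 (hb _))) (JMem_smul hc3 (hb _))))

end Emb

/-- The link attached to a similarity of norm forms. -/
noncomputable def mkLink [CharZero Ω] (e : Emb K M Ω) (e' : Emb K N Ω) (c : CubeData K M)
    (c' : CubeData K N) (f : (M × M × M) ≃ₗ[K] (N × N × N)) (l : K)
    (hf : ∀ u, c'.normForm (f u) = l * c.normForm u)
    (an : ∀ u, c'.normForm u = 0 → u = 0) : Link K Ω where
  M := e.C
  N := e'.C
  c := e.cube c
  c' := e'.cube c'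
  hc := e.cube_mem c
  hc' := e'.cube_mem c'
  φ := e.liftE e' f
  hφ := by
    intro F u
    constructor
    · intro h
      exact e.JMem_lift e' f.toLinearMap F h
    · intro h
      have h1 := e'.JMem_lift e f.symm.toLinearMap F h
      have h2 : e'.lift e f.symm.toLinearMap (e.liftE e' f u) = u := (e.liftE e' f).symm_apply_apply u
      rwa [h2] at h1
  l := algebraMap K Ω l
  sim := by
    refine Cube.similar_ext (c := e.cube c) (c' := e'.cube c') (e.lift e' f.toLinearMap)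
      (LinearMap.range e.vec3).toAddSubgroup ?_ ?_
    · rw [eq_top_iff, ← e.BJ.span_eq]
      apply Submodule.span_mono
      rintro _ ⟨k, rfl⟩
      exact ⟨e.bJ k, (e.BJ_apply k).symm⟩
    · rintro _ ⟨u, rfl⟩
      rw [Emb.lift_vec3, Emb.NJ_vec3, Emb.NJ_vec3]
      simp [hf]
  aniso := by
    intro u hu h
    obtain ⟨w, rfl⟩ := e'.exists_vec3 hu
    rw [Emb.NJ_vec3] at h
    rw [an w ((map_eq_zero _).1 h), map_zero]

end Vale.Agent.P287.H3
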