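import Vale.Agent.P287.H3.DiscNe
import Vale.Agent.P287.H3.Birat

/-!
Final statements for smooth cubic fourfolds with irreducible plane cubic.
-/

namespace Vale.Agent.P287.H3

open MvPolynomial H925

/-- `E` is isomorphic over `ℂ` to the function field `Frac (ℂ[x₁, …, x₅] / (F (1, x₁, …, x₅)))` of
the hypersurface `F = 0` in five dimensional projective space. -/
def HasFunctionField (F : MvPolynomial (Fin 6) ℂ) (E : Type) [CommRing E] [Algebra ℂ E] : Prop :=
  Nonempty (FractionRing (MvPolynomial (Fin 5) ℂ ⧸ Ideal.span {dehom F}) ≃ₐ[ℂ] E)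

/-- The hypersurfaces `F = 0` and `G = 0` in five dimensional projective space are birational:
their function fields are isomorphic over `ℂ`. -/
def IsBirational (F G : MvPolynomial (Fin 6) ℂ) : Prop :=
  ∃ (E : Type) (_ : CommRing E) (_ : Algebra ℂ E), HasFunctionField F E ∧ HasFunctionField G E

/-- The cubic fourfold is smooth and its plane cubic curve is irreducible. -/
def Data18.IsGeneral (D : Data18) : Prop := IsSmooth D.form ∧ Irreducible D.plane

/-- The generic fibre of the cubic fourfold is described by a cube. -/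
def Data18.HasCube (D : Data18) : Prop :=
  ∃ (M : Type) (_ : Field M) (_ : Algebra KK M) (ι : (Fin 3 → KK) ≃ₗ[KK] M) (c : CubeData KK M),
    D.IsCube ι c

/-- The generic fibre of the net is described by a cube. -/
def NetG2.HasCube (B : NetG2) : Prop :=
  ∃ (N : Type) (_ : Field N) (_ : Algebra KK N) (ι : (Fin 3 → KK) ≃ₗ[KK] N) (c : CubeData KK N),
    B.IsCube ι c

/-- The cubic form in nine variables of the cube has a non trivial zero. -/
def CubeData.IsIsotropic {M : Type} [Field M] [Algebra KK M] (c : CubeData KK M) : Prop :=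
  ∃ u, u ≠ 0 ∧ c.normForm u = 0

/-- The cubic form in nine variables of the cube is similar over `K` to the one of the cube of a
general net of type `G₂`. -/
def CubeData.IsOfNet {M : Type} [Field M] [Algebra KK M] (c : CubeData KK M) : Prop :=
  ∃ (B : NetG2) (N : Type) (_ : Field N) (_ : Algebra KK N) (ι' : (Fin 3 → KK) ≃ₗ[KK] N)
    (c' : CubeData KK N), B.IsGeneral ∧ B.IsCube ι' c' ∧ Similar c c'

theorem rational_smooth {D : Data18} (hs : IsSmooth D.form) (hP : Irreducible D.plane)
    {M : Type} [Field M] [Algebra KK M]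
    {ι : (Fin 3 → KK) ≃ₗ[KK] M} {c : CubeData KK M} (hX : D.IsCube ι c)
    (h : (∃ u, u ≠ 0 ∧ c.normForm u = 0) ∨
      ∃ (B : NetG2) (N : Type) (_ : Field N) (_ : Algebra KK N) (ι' : (Fin 3 → KK) ≃ₗ[KK] N)
        (c' : CubeData KK N), B.IsGeneral ∧ B.IsCube ι' c' ∧ Similar c c') :
    IsRational D.form := by
  have hw := exists_detX hP
  by_cases hiso : ∃ u, u ≠ 0 ∧ c.normForm u = 0
  · obtain ⟨u, hu, h0⟩ := hiso
    exact iso_main hs hw ι hX (Data18.disc_ne_zero hs hP hX) hu h0
  · rcases h with h | ⟨B, N, i1, i2, ι', c', hB, hc', φ, r, hr, hφ⟩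
    · exact absurd h hiso
    · refine main hs hw ι hX hB.three (fun d P hP h => dominant hB.1 d P hP h) ι' hc' φ r hφ ?_
      intro u hu
      by_contra h0
      exact hiso ⟨u, h0, hu⟩

theorem birational_smooth {D D' : Data18} (hs : IsSmooth D.form) (hs' : IsSmooth D'.form)
    (hP : Irreducible D.plane) (hP' : Irreducible D'.plane)
    {M N : Type} [Field M] [Field N] [Algebra KK M] [Algebra KK N]
    {c : CubeData KK M} {ι : (Fin 3 → KK) ≃ₗ[KK] M} (hX : D.IsCube ι c)
    {c' : CubeData KK N} {ι' : (Fin 3 → KK) ≃ₗ[KK] N} (hX' : D'.IsCube ι' c')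
    (h : Similar c c') : IsBirational D.form D'.form := by
  obtain ⟨φ, r, hr, hφ⟩ := h
  by_cases hiso : ∃ u, u ≠ 0 ∧ c.normForm u = 0
  · obtain ⟨u, hu, h0⟩ := id hiso
    obtain ⟨e1⟩ := rational_smooth hs hP hX (Or.inl hiso)
    obtain ⟨e2⟩ := rational_smooth hs' hP' hX' (Or.inl ⟨φ.symm u, by
      intro h
      apply hu
      rw [← φ.apply_symm_apply u, h, map_zero], by
      have h1 := hφ (φ.symm u)
      rw [LinearEquiv.apply_symm_apply, h0] at h1
      exact (mul_eq_zero.1 h1.symm).resolve_left hr⟩)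
    exact ⟨_, inferInstance, inferInstance, ⟨AlgEquiv.refl⟩, ⟨e2.trans e1.symm⟩⟩
  · obtain ⟨e⟩ := birational_aniso hs hs' (exists_detX hP) (exists_detX hP') hX hX' φ hφ (by
      intro u hu
      by_contra h0
      exact hiso ⟨u, h0, hu⟩)
    exact ⟨_, inferInstance, inferInstance, ⟨AlgEquiv.refl⟩, ⟨e.symm⟩⟩

end Vale.Agent.P287.H3
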