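import Vale.Agent.P287.H3.Statement

/-!
Lemmas on the cubic forms and the nets.
-/

namespace Vale.Agent.P287.H3

open MvPolynomial

namespace Data18

variable (D : Data18) {R : Type*} [CommRing R] [Algebra ℂ R]

variable {S : Type*} [CommRing S] [Algebra ℂ S] (f : R →ₐ[ℂ] S)

lemma map_left (i : Fin 3) (x : Fin 3 → R) (k : Fin 3) :
    f (D.left i x k) = D.left i (fun j => f (x j)) k := by
  simp [left]

lemma map_right (i : Fin 3) (x : Fin 3 → R) (k : Fin 3) :
    f (D.right i x k) = D.right i (fun j => f (x j)) k := by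
  simp [right]

lemma map_l (i : Fin 3) (x y : Fin 3 → R) :
    f (D.l i x y) = D.l i (fun j => f (x j)) (fun j => f (y j)) := by
  simp [l]

lemma map_detX (x : Fin 3 → R) : f (D.detX x) = D.detX (fun j => f (x j)) := by
  simp [detX, det3, dot, cross, map_left]

lemma map_detY (x : Fin 3 → R) : f (D.detY x) = D.detY (fun j => f (x j)) := by
  simp [detY, det3, dot, cross, map_right]

lemma map_value (x y : Fin 3 → R) :
    f (D.value x y) = D.value (fun j => f (x j)) (fun j => f (y j)) := by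
  simp [value, map_l, map_detX, map_detY, dot, map_left]

lemma map_star (t x : Fin 3 → R) (k : Fin 3) :
    f (D.star t x k) = D.star (fun j => f (t j)) (fun j => f (x j)) k := by
  fin_cases k <;> simp [star, cross, map_left]

lemma aeval_form (z : Fin 6 → R) :
    aeval z D.form = D.value ![z 0, z 1, z 2] ![z 3, z 4, z 5] := by
  rw [form, map_value]
  congr 1 <;>
  · funext j
    fin_cases j <;> simp

lemma isHomogeneous_form : D.form.IsHomogeneous 3 := by
  have hC : ∀ c : ℂ, (algebraMap ℂ (MvPolynomial (Fin 6) ℂ) c).IsHomogeneous 0 := fun c =>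
    isHomogeneous_C _ c
  have hx : ∀ j : Fin 3, ((![X 0, X 1, X 2] : Fin 3 → MvPolynomial (Fin 6) ℂ) j).IsHomogeneous 1 := by
    intro j
    fin_cases j <;> exact isHomogeneous_X _ _
  have hy : ∀ j : Fin 3, ((![X 3, X 4, X 5] : Fin 3 → MvPolynomial (Fin 6) ℂ) j).IsHomogeneous 1 := by
    intro j
    fin_cases j <;> exact isHomogeneous_X _ _
  set x : Fin 3 → MvPolynomial (Fin 6) ℂ := ![X 0, X 1, X 2] with hxd
  set y : Fin 3 → MvPolynomial (Fin 6) ℂ := ![X 3, X 4, X 5] with hyd
  have hl : ∀ i k, (D.left i x k).IsHomogeneous 1 := by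
    intro i k
    refine IsHomogeneous.sum _ _ _ fun j _ => ?_
    have := (hC (D.A i j k)).mul (hx j)
    simpa using this
  have hr : ∀ i k, (D.right i y k).IsHomogeneous 1 := by
    intro i k
    refine IsHomogeneous.sum _ _ _ fun j _ => ?_
    have := (hC (D.A i k j)).mul (hy j)
    simpa using this
  have hdot : ∀ u v : Fin 3 → MvPolynomial (Fin 6) ℂ, ∀ m n, (∀ k, (u k).IsHomogeneous m) →
      (∀ k, (v k).IsHomogeneous n) → (dot u v).IsHomogeneous (m + n) := by
    intro u v m n hu hv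
    exact (((hu 0).mul (hv 0)).add ((hu 1).mul (hv 1))).add ((hu 2).mul (hv 2))
  have hcross : ∀ u v : Fin 3 → MvPolynomial (Fin 6) ℂ, ∀ m n, (∀ k, (u k).IsHomogeneous m) →
      (∀ k, (v k).IsHomogeneous n) → ∀ k, (cross u v k).IsHomogeneous (m + n) := by
    intro u v m n hu hv k
    fin_cases k
    · exact ((hu 1).mul (hv 2)).sub ((hu 2).mul (hv 1))
    · exact ((hu 2).mul (hv 0)).sub ((hu 0).mul (hv 2))
    · exact ((hu 0).mul (hv 1)).sub ((hu 1).mul (hv 0))
  have h1 : ∀ i, (D.l i x y * dot (D.left i x) y).IsHomogeneous 3 := by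
    intro i
    have e1 : (D.l i x y).IsHomogeneous 1 := by
      refine IsHomogeneous.sum _ _ _ fun j _ => ?_
      have h1 := (hC (D.α i j)).mul (hx j)
      have h2 := (hC (D.β i j)).mul (hy j)
      simpa using h1.add h2
    exact e1.mul (hdot _ _ 1 1 (hl i) hy)
  have h2 : (algebraMap ℂ (MvPolynomial (Fin 6) ℂ) D.a * D.detX x).IsHomogeneous 3 := by
    have := (hC D.a).mul (hdot _ _ 1 2 (hl 0) (hcross _ _ 1 1 (hl 1) (hl 2)))
    rw [zero_add] at this
    exact this
  have h3 : (algebraMap ℂ (MvPolynomial (Fin 6) ℂ) D.b * D.detY y).IsHomogeneous 3 := by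
    have := (hC D.b).mul (hdot _ _ 1 2 (hr 0) (hcross _ _ 1 1 (hr 1) (hr 2)))
    rw [zero_add] at this
    exact this
  exact ((IsHomogeneous.sum _ _ _ fun i _ => h1 i).add h2).add h3

/-- the quadratic forms at `(x, star t x)` -/
lemma q_star (t x : Fin 3 → R) (i : Fin 3) :
    dot (D.left i x) (D.star t x) = t i * D.detX x := by
  fin_cases i <;> simp [dot, star, cross, detX, det3] <;> ring

end Data18

namespace NetG2

variable (B : NetG2) {R : Type*} [CommRing R] [Algebra ℂ R]

/-- the point `t` of the plane attached to `n` -/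
noncomputable def proj (n : Fin 4 → R) : Fin 3 → R :=
  cross (fun j => B.Phi1 j n) (fun j => B.Phi2 j n)

variable {S : Type*} [CommRing S] [Algebra ℂ S] (f : R →ₐ[ℂ] S)

lemma map_Phi1 (j : Fin 3) (n : Fin 4 → R) : f (B.Phi1 j n) = B.Phi1 j (fun i => f (n i)) := by
  simp [Phi1]

lemma map_Phi2 (j : Fin 3) (n : Fin 4 → R) : f (B.Phi2 j n) = B.Phi2 j (fun i => f (n i)) := by
  have h2 : f 2 = 2 := map_ofNat f 2
  have h3 : f 3 = 3 := map_ofNat f 3
  simp [Phi2, Fin.sum_univ_four, Fin.sum_univ_three, hess, cov, h2, h3]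

lemma map_proj (n : Fin 4 → R) (k : Fin 3) : f (B.proj n k) = B.proj (fun i => f (n i)) k := by
  fin_cases k <;> simp [proj, cross, map_Phi1, map_Phi2]

lemma sum_proj1 (n : Fin 4 → R) : ∑ j, B.proj n j * B.Phi1 j n = 0 := by
  simp [Fin.sum_univ_three, proj, cross]; ring

lemma sum_proj2 (n : Fin 4 → R) : ∑ j, B.proj n j * B.Phi2 j n = 0 := by
  simp [Fin.sum_univ_three, proj, cross]; ring

end NetG2

end Vale.Agent.P287.H3
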