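import Vale.Agent.P287.H3.DiscZero
import Vale.Agent.P287.H3.DetX

/-!
Differentials of the cubic form through dual numbers; smoothness over the function field of the
plane.
-/

namespace Vale.Agent.P287.H3

open MvPolynomial TrivSqZeroExt

/-- first order expansion -/
lemma aeval_dual {k σ R : Type*} [Fintype σ] [CommRing k] [CommRing R] [Algebra k R]
    (P V : σ → R) (F : MvPolynomial σ k) :
    aeval (fun j => (inl (P j) + inr (V j) : TrivSqZeroExt R R)) F =
      inl (aeval P F) + inr (∑ j, V j * aeval P (pderiv j F)) := by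
  classical
  induction F using MvPolynomial.induction_on with
  | C r =>
    simp only [algHom_C, pderiv_C, map_zero, mul_zero, Finset.sum_const_zero, inr_zero, add_zero]
    rw [TrivSqZeroExt.algebraMap_eq_inl']
  | add p q hp hq =>
    rw [map_add, map_add, hp, hq]
    ext
    · simp
    · simp [mul_add, Finset.sum_add_distrib]
  | mul_X p i hp =>
    rw [map_mul, hp, aeval_X]
    have h1 : ∑ j, V j * aeval P (pderiv j (p * X i)) =
        P i * (∑ j, V j * aeval P (pderiv j p)) + aeval P p * V i := by
      have h2 : ∀ j, V j * aeval P (pderiv j (p * X i)) =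
          P i * (V j * aeval P (pderiv j p)) + aeval P p * (V j * (Pi.single i 1 : σ → R) j) := by
        intro j
        rw [pderiv_mul, pderiv_X, map_add, map_mul, map_mul, aeval_X]
        by_cases hij : i = j
        · subst hij
          simp
          ring
        · have h5 : (Pi.single i 1 : σ → MvPolynomial σ k) j = 0 := by
            rw [Pi.single_apply, if_neg (Ne.symm hij)]
          have h6 : (Pi.single i 1 : σ → R) j = 0 := by
            rw [Pi.single_apply, if_neg (Ne.symm hij)]
          rw [h6]
          simp [hij]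
          ring
      rw [Finset.sum_congr rfl fun j _ => h2 j, Finset.sum_add_distrib, ← Finset.mul_sum,
        ← Finset.mul_sum]
      congr 2
      rw [Finset.sum_eq_single i]
      · simp
      · intro b _ hb
        rw [Pi.single_apply, if_neg hb, mul_zero]
      · intro h
        exact absurd (Finset.mem_univ i) h
    rw [h1, map_mul, aeval_X]
    ext
    · simp
    · simp
      ring

namespace Data18

variable (D : Data18) {R : Type*} [CommRing R] [Algebra ℂ R]

/-- the differential of the cubic form -/
noncomputable def dval (x y v w : Fin 3 → R) : R :=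
  ∑ j, (![v 0, v 1, v 2, w 0, w 1, w 2] : Fin 6 → R) j *
    aeval ![x 0, x 1, x 2, y 0, y 1, y 2] (pderiv j D.form)

lemma aeval_six (x y : Fin 3 → R) :
    aeval ![x 0, x 1, x 2, y 0, y 1, y 2] D.form = D.value x y := by
  rw [D.aeval_form]
  congr 1
  · funext j
    fin_cases j <;> rfl
  · funext j
    fin_cases j <;> rfl

lemma value_dual (x y v w : Fin 3 → R) :
    D.value (fun j => (inl (x j) + inr (v j) : TrivSqZeroExt R R))
      (fun j => inl (y j) + inr (w j)) = inl (D.value x y) + inr (D.dval x y v w) := by
  rw [← D.aeval_six, ← D.aeval_six, dval, ← aeval_dual]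
  congr 2
  funext j
  fin_cases j <;> rfl

lemma dval_add (x y v w v' w' : Fin 3 → R) :
    D.dval x y (v + v') (w + w') = D.dval x y v w + D.dval x y v' w' := by
  simp only [dval, Fin.sum_univ_six, Pi.add_apply]
  simp
  ring

lemma dval_smul (x y v w : Fin 3 → R) (r : R) :
    D.dval x y (r • v) (r • w) = r * D.dval x y v w := by
  simp only [dval, Fin.sum_univ_six, Pi.smul_apply, smul_eq_mul]
  simp
  ring

variable {S : Type*} [CommRing S] [Algebra ℂ S] (f : R →ₐ[ℂ] S)

lemma map_dval (x y v w : Fin 3 → R) : f (D.dval x y v w) =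
    D.dval (fun j => f (x j)) (fun j => f (y j)) (fun j => f (v j)) (fun j => f (w j)) := by
  have h : ∀ G : MvPolynomial (Fin 6) ℂ, f (aeval ![x 0, x 1, x 2, y 0, y 1, y 2] G) =
      aeval ![f (x 0), f (x 1), f (x 2), f (y 0), f (y 1), f (y 2)] G := by
    intro G
    rw [MvPolynomial.comp_aeval_apply]
    congr 2
    funext j
    fin_cases j <;> rfl
  simp only [dval, Fin.sum_univ_six, map_add, map_mul, h]
  simp

end Data18

/-- a smooth complex cubic form is smooth over the function field of the plane -/
theorem smooth_K {F : MvPolynomial (Fin 6) ℂ} (hF : F.IsHomogeneous 3) (hs : H925.IsSmooth F)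
    {P : Fin 6 → KK} (h : ∀ i, aeval P (pderiv i F) = 0) : P = 0 := by
  obtain ⟨q, hq⟩ := IsLocalization.exist_integer_multiples_of_finset
    (nonZeroDivisors (MvPolynomial (Fin 2) ℂ)) (Finset.univ.image P)
  have hq' : ∀ j, ∃ p : MvPolynomial (Fin 2) ℂ,
      algebraMap (MvPolynomial (Fin 2) ℂ) KK p = algebraMap _ KK (q : MvPolynomial (Fin 2) ℂ) * P j := by
    intro j
    obtain ⟨p, hp⟩ := hq (P j) (Finset.mem_image_of_mem P (Finset.mem_univ j))
    refine ⟨p, ?_⟩
    rw [hp, Algebra.smul_def]
  choose p hp using hq'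
  have hq0 : algebraMap (MvPolynomial (Fin 2) ℂ) KK (q : MvPolynomial (Fin 2) ℂ) ≠ 0 := by
    rw [Ne, map_eq_zero_iff _ (IsFractionRing.injective (MvPolynomial (Fin 2) ℂ) KK)]
    exact nonZeroDivisors.ne_zero q.2
  have h1 : ∀ i, aeval p (pderiv i F) = 0 := by
    intro i
    apply IsFractionRing.injective (MvPolynomial (Fin 2) ℂ) KK
    rw [map_zero]
    have h2 := MvPolynomial.comp_aeval_apply (f := p)
      (IsScalarTower.toAlgHom ℂ (MvPolynomial (Fin 2) ℂ) KK) (pderiv i F)
    have h3 : (fun j => (IsScalarTower.toAlgHom ℂ (MvPolynomial (Fin 2) ℂ) KK) (p j)) =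
        fun j => algebraMap _ KK (q : MvPolynomial (Fin 2) ℂ) * P j := by
      funext j
      exact hp j
    rw [h3] at h2
    have h4 := H925.aeval_scale (S := KK) (hF.pderiv (i := i))
      (algebraMap _ KK (q : MvPolynomial (Fin 2) ℂ)) P
    rw [h4, h i, mul_zero] at h2
    exact h2
  have h2 : ∀ j, p j = 0 := by
    intro j
    apply MvPolynomial.funext
    intro s
    rw [map_zero]
    have h3 : (fun j => eval s (p j)) = 0 := by
      apply hs
      intro i
      have h4 := congrArg (eval s) (h1 i)
      rw [map_zero, H925.eval_eq_aeval] at h4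
      have h5 := MvPolynomial.comp_aeval_apply (f := p) (aeval s : MvPolynomial (Fin 2) ℂ →ₐ[ℂ] ℂ)
        (pderiv i F)
      rw [h4] at h5
      rw [H925.eval_eq_aeval, h5]
      rfl
    exact congrFun h3 j
  funext j
  have h3 := hp j
  rw [h2 j, map_zero] at h3
  exact (mul_eq_zero.1 h3.symm).resolve_left hq0

end Vale.Agent.P287.H3
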