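import Vale.Agent.P287.H3.Key

/-!
The two functionals are independent at the image point.
-/

namespace Vale.Agent.P287.H3

variable {K Ω : Type*} [Field K] [Field Ω] [Algebra K Ω] [CharZero Ω]

lemma cs_expand (c : Cube Ω) (s : Ω) (y1 z1 y2 z2 : Fin 3 → Ω) :
    c.Cs (s • y1 + y2) (s • z1 + z2) = s ^ 3 * c.Cs y1 z1 +
      s ^ 2 * ((c.Cs (y1 + y2) (z1 + z2) + c.Cs (y2 - y1) (z2 - z1)) / 2 - c.Cs y2 z2) +
      s * ((c.Cs (y1 + y2) (z1 + z2) - c.Cs (y2 - y1) (z2 - z1)) / 2 - c.Cs y1 z1) +
      c.Cs y2 z2 := by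
  simp only [Cube.Cs, Cube.C3, Cube.Sy, Cube.Sz, Pi.add_apply, Pi.sub_apply, Pi.smul_apply,
    smul_eq_mul]
  ring

/-- If the covariant vanishes at `s ω₁ + ω₂`, with rational `ω₁, ω₂`, then `s` is algebraic. -/
lemma s_alg {N : Cub K Ω} {c : Cube Ω} (hc : c.Mem N ⊥)
    {y1 z1 y2 z2 : Fin 3 → Ω} (hy1 : y1 ∈ N.alg ⊥) (hz1 : z1 ∈ N.alg ⊥) (hy2 : y2 ∈ N.alg ⊥)
    (hz2 : z2 ∈ N.alg ⊥) (h1 : c.Cs y1 z1 ≠ 0) {s : Ω}
    (h : c.Cs (s • y1 + y2) (s • z1 + z2) = 0) : s ∈ algebraicClosure K Ω := by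
  have h2 : (2 : Ω) ∈ (⊥ : IntermediateField K Ω) := Cube.two_mem _
  have m1 := hc.Cs hy1 hz1
  have m2 := hc.Cs hy2 hz2
  have m3 := hc.Cs ((N.alg ⊥).add_mem hy1 hy2) ((N.alg ⊥).add_mem hz1 hz2)
  have m4 := hc.Cs ((N.alg ⊥).sub_mem hy2 hy1) ((N.alg ⊥).sub_mem hz2 hz1)
  have m5 : (c.Cs (y1 + y2) (z1 + z2) + c.Cs (y2 - y1) (z2 - z1)) / 2 - c.Cs y2 z2 ∈
      (⊥ : IntermediateField K Ω) := sub_mem (div_mem (add_mem m3 m4) h2) m2
  have m6 : (c.Cs (y1 + y2) (z1 + z2) - c.Cs (y2 - y1) (z2 - z1)) / 2 - c.Cs y1 z1 ∈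
      (⊥ : IntermediateField K Ω) := sub_mem (div_mem (sub_mem m3 m4) h2) m1
  rw [cs_expand] at h
  rw [IntermediateField.mem_bot] at m1 m2 m5 m6
  obtain ⟨p0, hp0⟩ := m1
  obtain ⟨p3, hp3⟩ := m2
  obtain ⟨p1, hp1⟩ := m5
  obtain ⟨p2, hp2⟩ := m6
  rw [← hp0, ← hp3] at h
  rw [← hp0] at h1
  rw [mem_algebraicClosure_iff]
  refine ⟨Polynomial.C p0 * Polynomial.X ^ 3 + Polynomial.C p1 * Polynomial.X ^ 2 +
    Polynomial.C p2 * Polynomial.X + Polynomial.C p3, ?_, ?_⟩
  · intro h0
    have := congrArg (fun p => Polynomial.coeff p 3) h0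
    simp [Polynomial.coeff_X, Polynomial.coeff_C] at this
    rw [this, map_zero] at h1
    exact h1 rfl
  · simp only [map_add, map_mul, map_pow, Polynomial.aeval_X, Polynomial.aeval_C]
    rw [hp1, hp2, ← hp0, ← hp3]
    linear_combination h

/-- Independence of the two functionals at the image point, except when the point is defined over
a field of transcendence degree at most one. -/
theorem cross_ne_zero {N : Cub K Ω} {c : Cube Ω} (hc : c.Mem N ⊥) {E : IntermediateField K Ω}
    (hN : ∀ i, N.ξ i ∉ E)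
    (aniso : ∀ u, JMem N ⊥ u → c.NJ u = 0 → u = 0)
    {l1 m1 l2 m2 : Fin 3 → Ω} (hl1 : l1 ∈ N.alg ⊥) (hm1 : m1 ∈ N.alg ⊥) (hl2 : l2 ∈ N.alg ⊥)
    (hm2 : m2 ∈ N.alg ⊥)
    (ind : ∀ r1 ∈ (⊥ : IntermediateField K Ω), ∀ r2 ∈ (⊥ : IntermediateField K Ω),
      r1 • l1 + r2 • l2 = 0 → r1 • m1 + r2 • m2 = 0 → r1 = 0 ∧ r2 = 0)
    {y z : Fin 3 → Ω} (hy : y ∈ N.alg E) (hz : z ∈ N.alg E) (h0 : ¬ (y = 0 ∧ z = 0))
    (hcs : c.Cs y z = 0) (hf1 : tr (l1 * y + m1 * z) = 0)
    (hno : ∀ (F : IntermediateField K Ω) (κ s : Ω), F = clo K s → κ ≠ 0 →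
      κ⁻¹ • y ∈ N.alg F → κ⁻¹ • z ∈ N.alg F → False) :
    cr (l1 * y + m1 * z) (l2 * y + m2 * z) ≠ 0 := by
  intro hcr
  have hbot : (⊥ : IntermediateField K Ω) ≤ E := bot_le
  have hNb : ∀ i, N.ξ i ∉ (⊥ : IntermediateField K Ω) := fun i h => hN i (hbot h)
  have h0i : ∀ i, ¬ (y i = 0 ∧ z i = 0) := by
    intro i h
    exact h0 ⟨Cub.eq_zero hN hy h.1, Cub.eq_zero hN hz h.2⟩
  -- the vector ω₁ is nonzero
  have hω1 : ¬ (m1 = 0 ∧ l1 = 0) := by
    rintro ⟨h1, h2⟩
    have := ind 1 (one_mem _) 0 (zero_mem _) (by simp [h2]) (by simp [h1])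
    exact one_ne_zero this.1
  have hP0 : c.Cs m1 (-l1) ≠ 0 := by
    intro h
    have := aniso_cs hc hNb aniso hm1 (neg_mem hl1) h
    exact hω1 ⟨this.1, neg_eq_zero.1 this.2⟩
  by_cases hΔ : l1 * m2 - l2 * m1 = 0
  · -- the degenerate case
    by_cases ha : l1 * y + m1 * z = 0
    · -- the point is proportional to ω₁
      have ha' : ∀ i, l1 i * y i + m1 i * z i = 0 := fun i => congrFun ha i
      have hpar : ∃ ρ : Fin 3 → Ω, (∀ i, ρ i ≠ 0) ∧ y = ρ * m1 ∧ z = ρ * (-l1) := by
        by_cases hm : m1 = 0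
        · have hl : l1 ≠ 0 := fun h => hω1 ⟨hm, h⟩
          have hli := Cub.ne_zero_apply hNb hl1 hl
          have hy0 : ∀ i, y i = 0 := by
            intro i
            have := ha' i
            rw [hm, Pi.zero_apply, zero_mul, add_zero] at this
            exact (mul_eq_zero.1 this).resolve_left (hli i)
          refine ⟨fun i => -(z i) / l1 i, ?_, ?_, ?_⟩
          · intro i
            have : z i ≠ 0 := fun h => h0i i ⟨hy0 i, h⟩
            exact div_ne_zero (neg_ne_zero.2 this) (hli i)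
          · funext i
            rw [hm, hy0]; simp
          · funext i
            have := hli i
            simp only [Pi.mul_apply, Pi.neg_apply]
            field_simp
        · have hmi := Cub.ne_zero_apply hNb hm1 hm
          refine ⟨fun i => y i / m1 i, ?_, ?_, ?_⟩
          · intro i
            have : y i ≠ 0 := by
              intro h
              have h1 := ha' i
              rw [h, mul_zero, zero_add] at h1
              exact h0i i ⟨h, (mul_eq_zero.1 h1).resolve_left (hmi i)⟩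
            exact div_ne_zero this (hmi i)
          · funext i
            have := hmi i
            simp only [Pi.mul_apply]
            field_simp
          · funext i
            have := hmi i
            simp only [Pi.mul_apply, Pi.neg_apply]
            field_simp
            linear_combination (ha' i)
      obtain ⟨ρ, hρ, h1, h2⟩ := hpar
      rw [h1, h2, Cube.Cs_smul] at hcs
      exact hP0 ((mul_eq_zero.1 hcs).resolve_left (nm_ne_zero hρ))
    · -- θ
      have hamem : l1 * y + m1 * z ∈ N.alg E := (N.alg E).add_mem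
        ((N.alg E).mul_mem (Cub.mono hbot hl1) hy) ((N.alg E).mul_mem (Cub.mono hbot hm1) hz)
      have hai := Cub.ne_zero_apply hN hamem ha
      have hΔi : ∀ i, l1 i * m2 i - l2 i * m1 i = 0 := fun i => congrFun hΔ i
      obtain ⟨θ, hθ, hθ1, hθ2⟩ : ∃ θ ∈ N.alg ⊥, l2 = θ * l1 ∧ m2 = θ * m1 := by
        by_cases hm : m1 = 0
        · have hl : l1 ≠ 0 := fun h => hω1 ⟨hm, h⟩
          have hli := Cub.ne_zero_apply hNb hl1 hl
          refine ⟨l2 / l1, Cub.div_mem' hl2 hl1 hli, ?_, ?_⟩
          · funext i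
            have := hli i
            simp only [Pi.mul_apply, Pi.div_apply]
            field_simp
          · funext i
            have h1 := hΔi i
            have := hli i
            rw [hm, Pi.zero_apply, mul_zero, sub_zero] at h1
            rw [hm, (mul_eq_zero.1 h1).resolve_left this]
            simp
        · have hmi := Cub.ne_zero_apply hNb hm1 hm
          refine ⟨m2 / m1, Cub.div_mem' hm2 hm1 hmi, ?_, ?_⟩
          · funext i
            have := hmi i
            simp only [Pi.mul_apply, Pi.div_apply]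
            field_simp
            linear_combination -(hΔi i)
          · funext i
            have := hmi i
            simp only [Pi.mul_apply, Pi.div_apply]
            field_simp
      have hb : l2 * y + m2 * z = θ * (l1 * y + m1 * z) := by
        rw [hθ1, hθ2]; ring
      rw [hb] at hcr
      set a := l1 * y + m1 * z with hadef
      have a0 := hai 0
      have a1 := hai 1
      have a2 := hai 2
      have c0 := congrFun hcr 0
      have c1 := congrFun hcr 1
      simp [cr] at c0 c1
      have t12 : θ 1 = θ 2 := by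
        have : a 1 * a 2 * (θ 2 - θ 1) = 0 := by linear_combination c0
        exact (sub_eq_zero.1 ((mul_eq_zero.1 this).resolve_left (mul_ne_zero a1 a2))).symm
      have t02 : θ 0 = θ 2 := by
        have : a 0 * a 2 * (θ 0 - θ 2) = 0 := by linear_combination c1
        exact sub_eq_zero.1 ((mul_eq_zero.1 this).resolve_left (mul_ne_zero a0 a2))
      have ht : θ = fun _ => tr θ / 3 := by
        funext i
        fin_cases i <;> simp [tr, t02, t12] <;> ring
      have h3 : (3 : Ω) ∈ (⊥ : IntermediateField K Ω) := by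
        exact_mod_cast (⊥ : IntermediateField K Ω).natCast_mem 3
      have hmem : tr θ / 3 ∈ (⊥ : IntermediateField K Ω) := div_mem (Cub.tr_mem hθ) h3
      have := ind (tr θ / 3) hmem (-1) (neg_mem (one_mem _)) (by
        funext i
        rw [hθ1, Pi.add_apply, Pi.smul_apply, Pi.smul_apply, Pi.mul_apply, smul_eq_mul, smul_eq_mul]
        rw [congrFun ht i]; simp) (by
        funext i
        rw [hθ2, Pi.add_apply, Pi.smul_apply, Pi.smul_apply, Pi.mul_apply, smul_eq_mul, smul_eq_mul]
        rw [congrFun ht i]; simp)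
      exact one_ne_zero (neg_eq_zero.1 this.2)
  · -- the main case
    have hΔmem : l1 * m2 - l2 * m1 ∈ N.alg ⊥ := (N.alg ⊥).sub_mem
      ((N.alg ⊥).mul_mem hl1 hm2) ((N.alg ⊥).mul_mem hl2 hm1)
    have hΔi := Cub.ne_zero_apply hNb hΔmem hΔ
    set Δ := l1 * m2 - l2 * m1 with hΔdef
    have hΔe : ∀ i, Δ i = l1 i * m2 i - l2 i * m1 i := fun i => rfl
    set a := l1 * y + m1 * z with hadef
    set b := l2 * y + m2 * z with hbdef
    have hae : ∀ i, a i = l1 i * y i + m1 i * z i := fun i => rfl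
    have hbe : ∀ i, b i = l2 i * y i + m2 i * z i := fun i => rfl
    have hy' : ∀ i, Δ i * y i = m2 i * a i - m1 i * b i := by
      intro i; rw [hΔe, hae, hbe]; ring
    have hz' : ∀ i, Δ i * z i = l1 i * b i - l2 i * a i := by
      intro i; rw [hΔe, hae, hbe]; ring
    have hab : ∀ i, ¬ (a i = 0 ∧ b i = 0) := by
      rintro i ⟨h1, h2⟩
      apply h0i i
      have e1 := hy' i
      have e2 := hz' i
      rw [h1, h2] at e1 e2
      simp only [mul_zero, sub_zero] at e1 e2
      exact ⟨(mul_eq_zero.1 e1).resolve_left (hΔi i), (mul_eq_zero.1 e2).resolve_left (hΔi i)⟩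
    -- the common ratio
    have hpar : ∀ i, b 0 * a i = a 0 * b i := by
      intro i
      have c1 := congrFun hcr 1
      have c2 := congrFun hcr 2
      simp [cr] at c1 c2
      fin_cases i
      · simp; ring
      · simp; linear_combination -c2
      · simp; linear_combination c1
    have hb0 : b 0 ≠ 0 → True := fun _ => trivial
    -- a = t * (-1), b = t * s or so
    have ha0 : a 0 ≠ 0 := by
      intro ha0
      have hb0 : b 0 ≠ 0 := fun h => hab 0 ⟨ha0, h⟩
      have hai : ∀ i, a i = 0 := by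
        intro i
        have := hpar i
        rw [ha0, zero_mul] at this
        exact (mul_eq_zero.1 this).resolve_left hb0
      have hbi : ∀ i, b i ≠ 0 := fun i h => hab i ⟨hai i, h⟩
      have e1 : y = (fun i => -(b i / Δ i)) * m1 := by
        funext i
        have h1 := hy' i
        have h2 := hΔi i
        rw [hai] at h1
        simp only [Pi.mul_apply]
        field_simp
        linear_combination h1
      have e2 : z = (fun i => -(b i / Δ i)) * (-l1) := by
        funext i
        have h1 := hz' i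
        have h2 := hΔi i
        rw [hai] at h1
        simp only [Pi.mul_apply, Pi.neg_apply]
        field_simp
        linear_combination h1
      rw [e1, e2, Cube.Cs_smul] at hcs
      refine hP0 ((mul_eq_zero.1 hcs).resolve_left (nm_ne_zero fun i => ?_))
      exact neg_ne_zero.2 (div_ne_zero (hbi i) (hΔi i))
    set s := -(b 0 / a 0) with hs
    have hbi : ∀ i, b i = -(s * a i) := by
      intro i
      have := hpar i
      rw [hs]
      field_simp
      linear_combination -this
    have hai : ∀ i, a i ≠ 0 := by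
      intro i h
      apply hab i
      rw [hbi, h]
      simp
    set ρ : Fin 3 → Ω := fun i => a i / Δ i with hρ
    have hρi : ∀ i, ρ i ≠ 0 := fun i => div_ne_zero (hai i) (hΔi i)
    have e1 : y = ρ * (s • m1 + m2) := by
      funext i
      have h1 := hy' i
      have h2 := hΔi i
      rw [hbi] at h1
      simp only [Pi.mul_apply, Pi.add_apply, Pi.smul_apply, smul_eq_mul, hρ]
      field_simp
      linear_combination h1
    have e2 : z = ρ * (s • (-l1) + (-l2)) := by
      funext i
      have h1 := hz' i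
      have h2 := hΔi i
      rw [hbi] at h1
      simp only [Pi.mul_apply, Pi.add_apply, Pi.smul_apply, Pi.neg_apply, smul_eq_mul, hρ]
      field_simp
      linear_combination h1
    have hcs' := hcs
    rw [e1, e2, Cube.Cs_smul] at hcs'
    have hcs2 := (mul_eq_zero.1 hcs').resolve_left (nm_ne_zero hρi)
    have hsA : s ∈ algebraicClosure K Ω :=
      s_alg hc hm1 (neg_mem hl1) hm2 (neg_mem hl2) hP0 hcs2
    -- the field of definition
    have hsum : ρ 0 * Δ 0 + ρ 1 * Δ 1 + ρ 2 * Δ 2 = 0 := by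
      have h1 : ∀ i, ρ i * Δ i = a i := by
        intro i
        have h2 := hΔi i
        rw [hρ]; field_simp
      rw [h1, h1, h1]
      exact hf1
    set F := clo K (ρ 1 / ρ 0) with hF
    have hAF : algebraicClosure K Ω ≤ F := alg_le_clo _
    have hξF : ∀ i, N.ξ i ∈ F := fun i => hAF (N.xi_alg i)
    have hbF : (⊥ : IntermediateField K Ω) ≤ F := bot_le
    have r0 := hρi 0
    have hτ : ρ 1 / ρ 0 ∈ F := self_mem_clo _
    have hΔF : ∀ i, Δ i ∈ F := fun i => Cub.coords_of_mem hξF (Cub.mono hbF hΔmem) i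
    have hτ2 : ρ 2 / ρ 0 ∈ F := by
      have h2 := hΔi 2
      have : ρ 2 / ρ 0 = -(Δ 0 + Δ 1 * (ρ 1 / ρ 0)) / Δ 2 := by
        field_simp
        linear_combination hsum
      rw [this]
      exact F.div_mem (F.neg_mem (F.add_mem (hΔF 0) (F.mul_mem (hΔF 1) hτ))) (hΔF 2)
    have hρF : ∀ i, (ρ 0)⁻¹ * ρ i ∈ F := by
      rw [forall3]
      refine ⟨?_, ?_, ?_⟩
      · rw [inv_mul_cancel₀ r0]; exact F.one_mem
      · rw [mul_comm, ← div_eq_mul_inv]; exact hτ
      · rw [mul_comm, ← div_eq_mul_inv]; exact hτ2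
    refine hno F (ρ 0) (ρ 1 / ρ 0) hF r0 ?_ ?_
    · apply Cub.mem_of_coords hξF
      intro i
      rw [e1, Pi.smul_apply, Pi.mul_apply, smul_eq_mul, ← mul_assoc]
      refine F.mul_mem (hρF i) ?_
      rw [Pi.add_apply, Pi.smul_apply, smul_eq_mul]
      exact F.add_mem (F.mul_mem (hAF hsA) (Cub.coords_of_mem hξF (Cub.mono hbF hm1) i))
        (Cub.coords_of_mem hξF (Cub.mono hbF hm2) i)
    · apply Cub.mem_of_coords hξF
      intro i
      rw [e2, Pi.smul_apply, Pi.mul_apply, smul_eq_mul, ← mul_assoc]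
      refine F.mul_mem (hρF i) ?_
      rw [Pi.add_apply, Pi.smul_apply, smul_eq_mul, Pi.neg_apply, Pi.neg_apply]
      exact F.add_mem (F.mul_mem (hAF hsA)
        (F.neg_mem (Cub.coords_of_mem hξF (Cub.mono hbF hl1) i)))
        (F.neg_mem (Cub.coords_of_mem hξF (Cub.mono hbF hl2) i))

end Vale.Agent.P287.H3
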