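import Vale.Agent.P287.H3.EmbJ

/-!
Linear coordinates on a cubic field extension, extended to `Ω`.
-/

namespace Vale.Agent.P287.H3

open MvPolynomial

variable {K M Ω : Type*} [Field K] [Field M] [Field Ω] [Algebra K M] [Algebra K Ω]

namespace Emb

variable (e : Emb K M Ω) (ι : (Fin 3 → K) ≃ₗ[K] M)

/-- the images of the coordinate vectors -/
def iv (j : Fin 3) : Fin 3 → Ω := e.vec (ι (Pi.single j 1))

/-- the extension of `ι` to `Ω` -/
def io : (Fin 3 → Ω) →ₗ[Ω] (Fin 3 → Ω) where
  toFun x := x 0 • e.iv ι 0 + x 1 • e.iv ι 1 + x 2 • e.iv ι 2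
  map_add' x y := by simp only [Pi.add_apply, add_smul]; abel
  map_smul' r x := by simp only [Pi.smul_apply, smul_assoc, smul_add, RingHom.id_apply]

lemma io_apply (x : Fin 3 → Ω) (i : Fin 3) :
    e.io ι x i = x 0 * e.iv ι 0 i + x 1 * e.iv ι 1 i + x 2 * e.iv ι 2 i := by
  simp [io]

lemma io_algebraMap (v : Fin 3 → K) : e.io ι (fun j => algebraMap K Ω (v j)) = e.vec (ι v) := by
  have h : v = v 0 • Pi.single 0 1 + v 1 • Pi.single 1 1 + v 2 • Pi.single 2 1 := by
    funext j
    fin_cases j <;> simp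
  conv_rhs => rw [h]
  simp only [map_add, map_smul]
  funext i
  simp [io_apply, iv, Algebra.smul_def]

lemma io_mem {F : IntermediateField K Ω} {x : Fin 3 → Ω} (hx : ∀ j, x j ∈ F) :
    e.io ι x ∈ e.C.alg F := by
  have h : ∀ j, e.iv ι j ∈ e.C.alg F := fun j => Cub.mono bot_le (e.vec_mem _)
  exact (e.C.alg F).add_mem ((e.C.alg F).add_mem (Cub.smul_mem' (hx 0) (h 0))
    (Cub.smul_mem' (hx 1) (h 1))) (Cub.smul_mem' (hx 2) (h 2))

lemma exists_io {F : IntermediateField K Ω} {u : Fin 3 → Ω} (hu : u ∈ e.C.alg F) :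
    ∃ x : Fin 3 → Ω, (∀ j, x j ∈ F) ∧ e.io ι x = u := by
  obtain ⟨a, ha, b, hb, c, hc, h⟩ := hu
  let w : Fin 3 → Fin 3 → K := fun j => ι.symm (e.pw j)
  refine ⟨fun k => a * algebraMap K Ω (w 0 k) + b * algebraMap K Ω (w 1 k) +
    c * algebraMap K Ω (w 2 k), ?_, ?_⟩
  · intro k
    exact F.add_mem (F.add_mem (F.mul_mem ha (F.algebraMap_mem _))
      (F.mul_mem hb (F.algebraMap_mem _))) (F.mul_mem hc (F.algebraMap_mem _))
  · have h1 : (fun k => a * algebraMap K Ω (w 0 k) + b * algebraMap K Ω (w 1 k) +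
      c * algebraMap K Ω (w 2 k)) = a • (fun k => algebraMap K Ω (w 0 k)) +
        b • (fun k => algebraMap K Ω (w 1 k)) + c • (fun k => algebraMap K Ω (w 2 k)) := by
      funext k; simp
    rw [h1, map_add, map_add, map_smul, map_smul, map_smul, io_algebraMap, io_algebraMap,
      io_algebraMap]
    simp only [w, LinearEquiv.apply_symm_apply]
    funext i
    rw [h]
    simp only [Pi.add_apply, Pi.smul_apply, vec_pw, smul_eq_mul]
    simp

lemma io_surjective : Function.Surjective (e.io ι) := by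
  intro u
  obtain ⟨a, b, c, h, -⟩ := e.C.exists_coord u
  obtain ⟨x, -, hx⟩ := e.exists_io ι (F := ⊤) (u := u) ⟨a, trivial, b, trivial, c, trivial, h⟩
  exact ⟨x, hx⟩

lemma io_injective : Function.Injective (e.io ι) :=
  LinearMap.injective_iff_surjective.2 (e.io_surjective ι)

lemma mem_of_io_mem {F : IntermediateField K Ω} {x : Fin 3 → Ω} (h : e.io ι x ∈ e.C.alg F)
    (j : Fin 3) : x j ∈ F := by
  obtain ⟨y, hy, hyx⟩ := e.exists_io ι h
  rw [← e.io_injective ι hyx]
  exact hy j

/-- the equation of the surface, as a polynomial in the coordinates -/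
noncomputable def Gpoly (c : CubeData K M) : MvPolynomial (Fin 3) Ω :=
  multi (MvPolynomial.C (e.cube c).a) (MvPolynomial.C (e.cube c).b)
    (fun i => MvPolynomial.C ((e.cube c).α i)) (fun i => MvPolynomial.C ((e.cube c).β i))
    (fun i => MvPolynomial.C (e.iv ι 0 i) * X 0 + MvPolynomial.C (e.iv ι 1 i) * X 1 +
      MvPolynomial.C (e.iv ι 2 i) * X 2)

lemma eval_Gpoly (c : CubeData K M) (x : Fin 3 → Ω) :
    eval x (e.Gpoly ι c) = (e.cube c).G (e.io ι x) := by
  rw [Gpoly, map_multi, Cube.G_eq_multi]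
  simp only [MvPolynomial.eval_C]
  congr 1
  funext i
  rw [io_apply]
  simp
  ring

end Emb

/-- polynomial identities hold if they hold on `K`-points -/
lemma ext_poly [Infinite K] {n : ℕ} {p q : MvPolynomial (Fin n) Ω}
    (h : ∀ v : Fin n → K, eval (fun j => algebraMap K Ω (v j)) p =
      eval (fun j => algebraMap K Ω (v j)) q) : p = q := by
  apply MvPolynomial.funext_set (fun _ => Set.range (algebraMap K Ω))
  · intro _
    exact Set.infinite_range_of_injective (algebraMap K Ω).injective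
  · intro x hx
    have hx' : ∀ j, ∃ k, algebraMap K Ω k = x j := fun j => hx j (Set.mem_univ j)
    choose v hv using hx'
    have := h v
    simp only [hv] at this
    exact this

end Vale.Agent.P287.H3
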