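import Vale.Agent.P287.H3.Cube

/-!
The point of the cube surface attached to a zero of the norm form.
-/

namespace Vale.Agent.P287.H3

namespace Cube

variable {Ω : Type*} [Field Ω] (c : Cube Ω) (y z : Fin 3 → Ω)

lemma SSw0 : c.C3 (c.Cz y z 0) (-c.Cy y z 0) (c.Sy y z 1) (c.Sz y z 1) (c.Sy y z 2) (c.Sz y z 2) = 0 := by
  simp [C3, Cy, Cz, Sy, Sz, P, Qm, R, sharp, tr]; ring

lemma SSw1 : c.C3 (c.Sy y z 0) (c.Sz y z 0) (c.Cz y z 1) (-c.Cy y z 1) (c.Sy y z 2) (c.Sz y z 2) = 0 := by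
  simp [C3, Cy, Cz, Sy, Sz, P, Qm, R, sharp, tr]; ring

lemma SSw2 : c.C3 (c.Sy y z 0) (c.Sz y z 0) (c.Sy y z 1) (c.Sz y z 1) (c.Cz y z 2) (-c.Cy y z 2) = 0 := by
  simp [C3, Cy, Cz, Sy, Sz, P, Qm, R, sharp, tr]; ring

lemma Sww0 : c.C3 (c.Sy y z 0) (c.Sz y z 0) (c.Cz y z 1) (-c.Cy y z 1) (c.Cz y z 2) (-c.Cy y z 2) =
    c.Q y z 0 * c.Cs y z := by
  simp [C3, Cy, Cz, Cs, Q, Sy, Sz, P, Qm, R, sharp, tr]; ring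

lemma Sww1 : c.C3 (c.Cz y z 0) (-c.Cy y z 0) (c.Sy y z 1) (c.Sz y z 1) (c.Cz y z 2) (-c.Cy y z 2) =
    c.Q y z 1 * c.Cs y z := by
  simp [C3, Cy, Cz, Cs, Q, Sy, Sz, P, Qm, R, sharp, tr]; ring

lemma Sww2 : c.C3 (c.Cz y z 0) (-c.Cy y z 0) (c.Cz y z 1) (-c.Cy y z 1) (c.Sy y z 2) (c.Sz y z 2) =
    c.Q y z 2 * c.Cs y z := by
  simp [C3, Cy, Cz, Cs, Q, Sy, Sz, P, Qm, R, sharp, tr]; ring

lemma www : c.C3 (c.Cz y z 0) (-c.Cy y z 0) (c.Cz y z 1) (-c.Cy y z 1) (c.Cz y z 2) (-c.Cy y z 2) =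
    c.C y z * c.Cs y z := by
  simp [C3, C, Cy, Cz, Cs, Sy, Sz, P, Qm, R, sharp, tr]; ring

theorem C_grad (m : Fin 3 → Ω) :
    c.C (m * c.Sy y z + c.Cz y z) (m * c.Sz y z - c.Cy y z) = c.N m y z * c.Cs y z := by
  have e : c.C (m * c.Sy y z + c.Cz y z) (m * c.Sz y z - c.Cy y z) =
      nm m * c.C3 (c.Sy y z 0) (c.Sz y z 0) (c.Sy y z 1) (c.Sz y z 1) (c.Sy y z 2) (c.Sz y z 2) +
      m 1 * m 2 * c.C3 (c.Cz y z 0) (-c.Cy y z 0) (c.Sy y z 1) (c.Sz y z 1) (c.Sy y z 2)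
        (c.Sz y z 2) +
      m 0 * m 2 * c.C3 (c.Sy y z 0) (c.Sz y z 0) (c.Cz y z 1) (-c.Cy y z 1) (c.Sy y z 2)
        (c.Sz y z 2) +
      m 0 * m 1 * c.C3 (c.Sy y z 0) (c.Sz y z 0) (c.Sy y z 1) (c.Sz y z 1) (c.Cz y z 2)
        (-c.Cy y z 2) +
      m 0 * c.C3 (c.Sy y z 0) (c.Sz y z 0) (c.Cz y z 1) (-c.Cy y z 1) (c.Cz y z 2)
        (-c.Cy y z 2) +
      m 1 * c.C3 (c.Cz y z 0) (-c.Cy y z 0) (c.Sy y z 1) (c.Sz y z 1) (c.Cz y z 2)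
        (-c.Cy y z 2) +
      m 2 * c.C3 (c.Cz y z 0) (-c.Cy y z 0) (c.Cz y z 1) (-c.Cy y z 1) (c.Sy y z 2)
        (c.Sz y z 2) +
      c.C3 (c.Cz y z 0) (-c.Cy y z 0) (c.Cz y z 1) (-c.Cy y z 1) (c.Cz y z 2) (-c.Cy y z 2) := by
    simp only [C, C3, nm, Pi.add_apply, Pi.mul_apply, Pi.sub_apply]
    ring
  have h1 : c.C3 (c.Sy y z 0) (c.Sz y z 0) (c.Sy y z 1) (c.Sz y z 1) (c.Sy y z 2) (c.Sz y z 2) =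
      c.disc * c.Cs y z := c.C_S y z
  rw [e, h1, SSw0, SSw1, SSw2, Sww0, Sww1, Sww2, www]
  simp only [N, tr, Pi.mul_apply]
  ring

end Cube

end Vale.Agent.P287.H3
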