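import Vale.Agent.P287.H3.EmbJ
import Vale.Agent.P287.H3.Io

/-!
Transfer of generic points between cube surfaces with similar norm forms.
-/

namespace Vale.Agent.P287.H3

variable {K M N Ω : Type*} [Field K] [Field M] [Field N] [Field Ω] [Algebra K M] [Algebra K N]
  [Algebra K Ω]

lemma aniso_a {N : Cub K Ω} {c : Cube Ω}
    (aniso : ∀ u, JMem N ⊥ u → c.NJ u = 0 → u = 0) : c.a ≠ 0 := by
  intro hd
  have h1 : JMem N ⊥ ((0 : Fin 3 → Ω), (1 : Fin 3 → Ω), (0 : Fin 3 → Ω)) :=
    ⟨(N.alg ⊥).zero_mem, (N.alg ⊥).one_mem, (N.alg ⊥).zero_mem⟩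
  have h2 := aniso _ h1 (by simp [Cube.NJ, Cube.N, hd, Cube.Q, Cube.C, Cube.C3, tr, nm])
  have h3 := congrFun (congrArg (fun u => u.2.1) h2) 0
  simp at h3

open AlgebraicIndependent in
lemma not_le_CL {E : IntermediateField K Ω} {y : Fin 2 → Ω} (hy : AlgebraicIndependent K y)
    (hyE : ∀ i, y i ∈ E) (s : Ω) : ¬ E ≤ CL K {s} := by
  intro h
  have h1 : Set.range y ⊆ (matroid K Ω).closure {s} := by
    rintro _ ⟨i, rfl⟩
    rw [← coe_CL]
    exact h (hyE i)
  have h2 : (matroid K Ω).Indep (Set.range y) := hy.to_subtype_range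
  have h3 := h2.encard_le_eRk_of_subset h1
  rw [Matroid.eRk_closure_eq] at h3
  have h4 := h3.trans ((matroid K Ω).eRk_le_encard {s})
  rw [Set.encard_singleton, ← Set.image_univ, hy.injective.encard_image] at h4
  simp at h4

section

variable [CharZero Ω] (e : Emb K M Ω) (e' : Emb K N Ω) {c : CubeData K M} {c' : CubeData K N}

theorem transfer {f : (M × M × M) ≃ₗ[K] (N × N × N)} {l : K}
    (hf : ∀ u, c'.normForm (f u) = l * c.normForm u) (an : ∀ u, c'.normForm u = 0 → u = 0)
    {E : IntermediateField K Ω} {y : Fin 2 → Ω} (hy : AlgebraicIndependent K y)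
    (hyE : ∀ i, y i ∈ E) {x : Fin 3 → Ω} (hx : x ∈ e.C.alg E) (hG : (e.cube c).G x = 0)
    (gen : ∀ F, x ∈ e.C.alg F → E ≤ F) :
    ∃ x' ∈ e'.C.alg E, (e'.cube c').G x' = 0 ∧ ∀ F, x' ∈ e'.C.alg F → E ≤ F := by
  let L := mkLink e e' c c' f l hf an
  have hd : (e.cube c).disc ≠ 0 := aniso_disc L.aniso'
  have hb : (e.cube c).b ≠ 0 := aniso_b L.aniso'
  exact L.key E (fun i => not_mem_field (e.cube_mem c) hb hd hy hyE hx hG gen e.irr i)
    (fun i => not_mem_field (e.cube_mem c) hb hd hy hyE hx hG gen e'.irr i)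
    (not_le_clo hy hyE) hx hG gen

end

section

variable [CharZero Ω] (e : Emb K M Ω) (ι : (Fin 3 → K) ≃ₗ[K] M) {c : CubeData K M}

variable {E : IntermediateField K Ω} {y : Fin 2 → Ω}

omit [CharZero Ω] in
include e in
lemma Emb.finiteDimensional : FiniteDimensional K M := by
  apply Module.Finite.of_surjective (Fintype.linearCombination K ![1, e.θ, e.θ ^ 2])
  intro x
  obtain ⟨a, b, c, rfl⟩ := e.gen x
  refine ⟨![a, b, c], ?_⟩
  simp [Fintype.linearCombination_apply, Fin.sum_univ_three, Algebra.smul_def]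

/-- a generic point has no coordinates in the closure of one element -/
lemma not_coords (hy : AlgebraicIndependent K y) (hyE : ∀ i, y i ∈ E) {u : Fin 3 → Ω}
    (gen : ∀ F, u ∈ e.C.alg F → E ≤ F) {s : Ω} (h : ∀ i, u i ∈ CL K {s}) : False := by
  apply not_le_CL hy hyE s
  apply gen
  apply Cub.mem_of_coords _ h
  intro i
  rw [e.ξ]
  apply algebraicClosure_le_CL
  rw [mem_algebraicClosure_iff]
  have : FiniteDimensional K M := e.finiteDimensional
  exact (Algebra.IsAlgebraic.isAlgebraic e.θ).algHom (e.σ i)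

lemma vec_CL (m : M) (i : Fin 3) (s : Set Ω) : e.σ i m ∈ CL K s := by
  apply algebraicClosure_le_CL
  rw [mem_algebraicClosure_iff]
  have : FiniteDimensional K M := e.finiteDimensional
  exact (Algebra.IsAlgebraic.isAlgebraic m).algHom (e.σ i)

/-- the surface of a cube with nonzero discriminant is not a cone -/
lemma cone_false (hy : AlgebraicIndependent K y) (hyE : ∀ i, y i ∈ E)
    (hd : (e.cube c).disc ≠ 0) {u : Fin 3 → Ω} (gen : ∀ F, u ∈ e.C.alg F → E ≤ F)
    (h0 : (e.cube c).a = 0) (h1 : tr ((e.cube c).α * u) = 0)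
    (h2 : tr ((e.cube c).β * sharp u) = 0) (h3 : (e.cube c).b * nm u = 0) : False := by
  have hα0 : c.α ≠ 0 := by
    intro h
    have h4 : (e.cube c).α = 0 := by
      change e.vec c.α = 0
      rw [h, map_zero]
    apply hd
    rw [Cube.disc_eq', h0, h4]
    simp [tr, nm]
  have hα : ∀ i, (e.cube c).α i ≠ 0 := fun i => (map_ne_zero (e.σ i)).2 hα0
  have hαm : ∀ i s, (e.cube c).α i ∈ CL K s := fun i s => vec_CL e _ _ _
  have hβm : ∀ i s, (e.cube c).β i ∈ CL K s := fun i s => vec_CL e _ _ _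
  have h1' : (e.cube c).α 0 * u 0 + (e.cube c).α 1 * u 1 + (e.cube c).α 2 * u 2 = 0 := h1
  by_cases hn : nm u = 0
  · have h4 : u 0 = 0 ∨ u 1 = 0 ∨ u 2 = 0 := by
      rw [nm] at hn
      rcases mul_eq_zero.1 hn with h | h
      · rcases mul_eq_zero.1 h with h | h
        · exact Or.inl h
        · exact Or.inr (Or.inl h)
      · exact Or.inr (Or.inr h)
    rcases h4 with h4 | h4 | h4
    · apply not_coords e hy hyE gen (s := u 2)
      have hm : u 2 ∈ CL K {u 2} := subset_CL _ rfl
      intro i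
      fin_cases i
      · change u 0 ∈ _
        rw [h4]
        exact (CL K _).zero_mem
      · change u 1 ∈ _
        have h5 : u 1 = -((e.cube c).α 2 * u 2) / (e.cube c).α 1 := by
          rw [eq_div_iff (hα 1)]
          rw [h4] at h1'
          linear_combination h1'
        rw [h5]
        exact (CL K _).div_mem ((CL K _).neg_mem ((CL K _).mul_mem (hαm _ _) hm)) (hαm _ _)
      · exact hm
    · apply not_coords e hy hyE gen (s := u 2)
      have hm : u 2 ∈ CL K {u 2} := subset_CL _ rfl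
      intro i
      fin_cases i
      · change u 0 ∈ _
        have h5 : u 0 = -((e.cube c).α 2 * u 2) / (e.cube c).α 0 := by
          rw [eq_div_iff (hα 0)]
          rw [h4] at h1'
          linear_combination h1'
        rw [h5]
        exact (CL K _).div_mem ((CL K _).neg_mem ((CL K _).mul_mem (hαm _ _) hm)) (hαm _ _)
      · change u 1 ∈ _
        rw [h4]
        exact (CL K _).zero_mem
      · exact hm
    · apply not_coords e hy hyE gen (s := u 1)
      have hm : u 1 ∈ CL K {u 1} := subset_CL _ rfl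
      intro i
      fin_cases i
      · change u 0 ∈ _
        have h5 : u 0 = -((e.cube c).α 1 * u 1) / (e.cube c).α 0 := by
          rw [eq_div_iff (hα 0)]
          rw [h4] at h1'
          linear_combination h1'
        rw [h5]
        exact (CL K _).div_mem ((CL K _).neg_mem ((CL K _).mul_mem (hαm _ _) hm)) (hαm _ _)
      · exact hm
      · change u 2 ∈ _
        rw [h4]
        exact (CL K _).zero_mem
  · have hb : (e.cube c).b = 0 := (mul_eq_zero.1 h3).resolve_right hn
    have hβ0 : c.β ≠ 0 := by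
      intro h
      have h4 : (e.cube c).β = 0 := by
        change e.vec c.β = 0
        rw [h, map_zero]
      apply hd
      rw [Cube.disc_eq', h0, h4, hb]
      simp [tr, nm]
    have hβ : ∀ i, (e.cube c).β i ≠ 0 := fun i => (map_ne_zero (e.σ i)).2 hβ0
    have hu0 : u 0 ≠ 0 := fun h => hn (by rw [nm, h, zero_mul, zero_mul])
    have h2' : (e.cube c).β 0 * (u 1 * u 2) + (e.cube c).β 1 * (u 0 * u 2) +
        (e.cube c).β 2 * (u 0 * u 1) = 0 := h2
    set r := u 1 / u 0 with hr
    have hr1 : u 1 = r * u 0 := by rw [hr]; field_simp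
    have hr2 : u 2 = -(((e.cube c).α 0 + (e.cube c).α 1 * r) / (e.cube c).α 2) * u 0 := by
      have h5 : u 2 = -(((e.cube c).α 0 + (e.cube c).α 1 * r) * u 0) / (e.cube c).α 2 := by
        rw [eq_div_iff (hα 2)]
        rw [hr1] at h1'
        linear_combination h1'
      rw [h5]
      ring
    have hq : (e.cube c).β 0 * (e.cube c).α 1 * r ^ 2 +
        ((e.cube c).α 0 * (e.cube c).β 0 + (e.cube c).α 1 * (e.cube c).β 1 -
          (e.cube c).α 2 * (e.cube c).β 2) * r + (e.cube c).β 1 * (e.cube c).α 0 = 0 := by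
      have h6 : (-((e.cube c).α 2)) * u 0 ^ 2 * ((e.cube c).β 0 * (r * (u 2 / u 0)) +
          (e.cube c).β 1 * (u 2 / u 0) + (e.cube c).β 2 * r) = 0 := by
        have h7 : (e.cube c).β 0 * (r * (u 2 / u 0)) + (e.cube c).β 1 * (u 2 / u 0) +
            (e.cube c).β 2 * r = ((e.cube c).β 0 * (u 1 * u 2) + (e.cube c).β 1 * (u 0 * u 2) +
              (e.cube c).β 2 * (u 0 * u 1)) / u 0 ^ 2 := by
          rw [hr]
          field_simp
        rw [h7, h2', zero_div, mul_zero]
      have h8 : u 2 / u 0 = -(((e.cube c).α 0 + (e.cube c).α 1 * r) / (e.cube c).α 2) := by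
        rw [div_eq_iff hu0]
        exact hr2
      rw [h8] at h6
      have h9 := hα 2
      have h10 : u 0 ^ 2 * ((e.cube c).β 0 * (e.cube c).α 1 * r ^ 2 +
        ((e.cube c).α 0 * (e.cube c).β 0 + (e.cube c).α 1 * (e.cube c).β 1 -
          (e.cube c).α 2 * (e.cube c).β 2) * r + (e.cube c).β 1 * (e.cube c).α 0) = 0 := by
        rw [← h6]
        field_simp
        ring
      exact (mul_eq_zero.1 h10).resolve_left (pow_ne_zero 2 hu0)
    have hrm : r ∈ CL K {u 0} := by
      apply mem_CL_of_isAlgebraic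
      have m2 : (e.cube c).β 0 * (e.cube c).α 1 ∈ CL K {u 0} :=
        (CL K _).mul_mem (hβm _ _) (hαm _ _)
      have m1 : (e.cube c).α 0 * (e.cube c).β 0 + (e.cube c).α 1 * (e.cube c).β 1 -
          (e.cube c).α 2 * (e.cube c).β 2 ∈ CL K {u 0} :=
        (CL K _).sub_mem ((CL K _).add_mem ((CL K _).mul_mem (hαm _ _) (hβm _ _))
          ((CL K _).mul_mem (hαm _ _) (hβm _ _))) ((CL K _).mul_mem (hαm _ _) (hβm _ _))
      have m0 : (e.cube c).β 1 * (e.cube c).α 0 ∈ CL K {u 0} :=
        (CL K _).mul_mem (hβm _ _) (hαm _ _)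
      refine ⟨Polynomial.C ⟨_, m2⟩ * Polynomial.X ^ 2 + Polynomial.C ⟨_, m1⟩ * Polynomial.X +
        Polynomial.C ⟨_, m0⟩, ?_, ?_⟩
      · intro h
        have h5 := congrArg (fun p => Polynomial.coeff p 2) h
        simp only [Polynomial.coeff_add, Polynomial.coeff_C_mul, Polynomial.coeff_X_pow,
          Polynomial.coeff_X, Polynomial.coeff_C, Polynomial.coeff_zero] at h5
        norm_num at h5
        have h6 := congrArg Subtype.val h5
        exact mul_ne_zero (hβ 0) (hα 1) h6
      · simp only [map_add, map_mul, map_pow, Polynomial.aeval_C, Polynomial.aeval_X]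
        exact hq
    have hm : u 0 ∈ CL K {u 0} := subset_CL _ rfl
    apply not_coords e hy hyE gen (s := u 0)
    intro i
    fin_cases i
    · exact hm
    · change u 1 ∈ _
      rw [hr1]
      exact (CL K _).mul_mem hrm hm
    · change u 2 ∈ _
      rw [hr2]
      exact (CL K _).mul_mem ((CL K _).neg_mem ((CL K _).div_mem ((CL K _).add_mem (hαm _ _)
        ((CL K _).mul_mem (hαm _ _) hrm)) (hαm _ _))) hm

lemma scalar_mem (hy : AlgebraicIndependent K y) (hyE : ∀ i, y i ∈ E)
    (hd : (e.cube c).disc ≠ 0) {S : Set Ω} {x z : Fin 3 → Ω} {lam : Ω}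
    (hz : ∀ j, z j ∈ CL K S) (hxz : x = lam • z) (hG : (e.cube c).G (e.io ι x) = 0)
    (gen : ∀ F, e.io ι x ∈ e.C.alg F → E ≤ F) : lam ∈ CL K S := by
  rw [hxz, map_smul] at hG gen
  set w := e.io ι z with hw
  have hwm : w ∈ e.C.alg (CL K S) := e.io_mem ι hz
  have hc : (e.cube c).Mem e.C (CL K S) := (e.cube_mem c).mono bot_le
  have hexp : (e.cube c).G (lam • w) = (e.cube c).a + tr ((e.cube c).α * w) * lam +
      tr ((e.cube c).β * sharp w) * lam ^ 2 + (e.cube c).b * nm w * lam ^ 3 := by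
    simp [Cube.G, tr, nm, sharp]; ring
  rw [hexp] at hG
  have h0 : (e.cube c).a ∈ CL K S := hc.a
  have h1 : tr ((e.cube c).α * w) ∈ CL K S := Cub.tr_mem ((e.C.alg _).mul_mem hc.α hwm)
  have h2 : tr ((e.cube c).β * sharp w) ∈ CL K S :=
    Cub.tr_mem ((e.C.alg _).mul_mem hc.β (Cub.sharp_mem hwm))
  have h3 : (e.cube c).b * nm w ∈ CL K S := (CL K S).mul_mem hc.b (Cub.nm_mem hwm)
  apply mem_CL_of_isAlgebraic
  refine ⟨Polynomial.C ⟨_, h3⟩ * Polynomial.X ^ 3 + Polynomial.C ⟨_, h2⟩ * Polynomial.X ^ 2 +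
    Polynomial.C ⟨_, h1⟩ * Polynomial.X + Polynomial.C ⟨_, h0⟩, ?_, ?_⟩
  · intro h
    have k0 := congrArg (fun p => ((Polynomial.coeff p 0 : CL K S) : Ω)) h
    have k1 := congrArg (fun p => ((Polynomial.coeff p 1 : CL K S) : Ω)) h
    have k2 := congrArg (fun p => ((Polynomial.coeff p 2 : CL K S) : Ω)) h
    have k3 := congrArg (fun p => ((Polynomial.coeff p 3 : CL K S) : Ω)) h
    simp only [Polynomial.coeff_add, Polynomial.coeff_C_mul, Polynomial.coeff_X_pow,
      Polynomial.coeff_X, Polynomial.coeff_C, Polynomial.coeff_zero] at k0 k1 k2 k3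
    norm_num at k0 k1 k2 k3
    apply cone_false e hy hyE hd gen k0
    · have e1 : tr ((e.cube c).α * (lam • w)) = lam * tr ((e.cube c).α * w) := by
        simp [tr]; ring
      rw [e1, k1, mul_zero]
    · have e1 : tr ((e.cube c).β * sharp (lam • w)) = lam ^ 2 * tr ((e.cube c).β * sharp w) := by
        simp [tr, sharp]; ring
      rw [e1, k2, mul_zero]
    · have e1 : (e.cube c).b * nm (lam • w) = lam ^ 3 * ((e.cube c).b * nm w) := by
        simp [nm]; ring
      have k3' : (e.cube c).b * nm w = 0 := by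
        rcases k3 with k3 | k3
        · rw [k3, zero_mul]
        · rw [k3, mul_zero]
      rw [e1, k3', mul_zero]
  · simp only [map_add, map_mul, map_pow, Polynomial.aeval_C, Polynomial.aeval_X]
    change (e.cube c).b * nm w * lam ^ 3 + tr ((e.cube c).β * sharp w) * lam ^ 2 +
      tr ((e.cube c).α * w) * lam + (e.cube c).a = 0
    rw [← hG]
    ring

lemma le_CL (hy : AlgebraicIndependent K y) (hyE : ∀ i, y i ∈ E)
    (hd : (e.cube c).disc ≠ 0) {S : Set Ω} {x z : Fin 3 → Ω} {lam : Ω}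
    (hz : ∀ j, z j ∈ CL K S) (hxz : x = lam • z) (hG : (e.cube c).G (e.io ι x) = 0)
    (gen : ∀ F, e.io ι x ∈ e.C.alg F → E ≤ F) : E ≤ CL K S := by
  have h := scalar_mem e ι hy hyE hd hz hxz hG gen
  apply gen
  apply e.io_mem
  intro j
  rw [hxz, Pi.smul_apply, smul_eq_mul]
  exact (CL K S).mul_mem h (hz j)

lemma first_ne_zero (hy : AlgebraicIndependent K y) (hyE : ∀ i, y i ∈ E)
    (hd : (e.cube c).disc ≠ 0) {x : Fin 3 → Ω} (hG : (e.cube c).G (e.io ι x) = 0)
    (gen : ∀ F, e.io ι x ∈ e.C.alg F → E ≤ F) : x 0 ≠ 0 := by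
  intro h0
  by_cases h1 : x 1 = 0
  · apply not_le_CL hy hyE 0
    apply le_CL e ι hy hyE hd (z := ![0, 0, 1]) (lam := x 2) _ _ hG gen
    · intro j
      fin_cases j
      · exact (CL K _).zero_mem
      · exact (CL K _).zero_mem
      · exact (CL K _).one_mem
    · funext j
      fin_cases j <;> simp [h0, h1]
  · apply not_le_CL hy hyE (x 2 / x 1)
    apply le_CL e ι hy hyE hd (z := ![0, 1, x 2 / x 1]) (lam := x 1) _ _ hG gen
    · intro j
      fin_cases j
      · exact (CL K _).zero_mem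
      · exact (CL K _).one_mem
      · exact subset_CL _ rfl
    · funext j
      fin_cases j
      · simp [h0]
      · simp
      · simp; field_simp

lemma indep_uv (hy : AlgebraicIndependent K y) (hyE : ∀ i, y i ∈ E)
    (hd : (e.cube c).disc ≠ 0) {x : Fin 3 → Ω} (hG : (e.cube c).G (e.io ι x) = 0)
    (gen : ∀ F, e.io ι x ∈ e.C.alg F → E ≤ F) :
    AlgebraicIndependent K ![x 1 / x 0, x 2 / x 0] := by
  have h0 := first_ne_zero e ι hy hyE hd hG gen
  apply indep_pair hy hyE
  apply le_CL e ι hy hyE hd (z := ![1, x 1 / x 0, x 2 / x 0]) (lam := x 0) _ _ hG gen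
  · intro j
    fin_cases j
    · exact (CL K _).one_mem
    · exact subset_CL _ (by simp)
    · exact subset_CL _ (by simp)
  · funext j
    fin_cases j
    · simp
    · simp; field_simp
    · simp; field_simp

end

end Vale.Agent.P287.H3
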