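import Vale.Agent.P287.H3.Iso1
import Vale.Agent.P287.H3.Transfer

/-!
Isotropic norm forms: points over `K` and parametrisation.
-/

namespace Vale.Agent.P287.H3

variable {K M Ω : Type*} [Field K] [Field M] [Field Ω] [Algebra K M] [Algebra K Ω]

namespace Emb

variable (e : Emb K M Ω) [CharZero Ω]

omit [CharZero Ω] in
lemma vec_injective : Function.Injective e.vec := by
  intro x y h
  have h1 := congrFun h 0
  exact (e.σ 0).toRingHom.injective h1

omit [CharZero Ω] in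
lemma nm_vec_ne {x : M} (hx : x ≠ 0) : nm (e.vec x) ≠ 0 := by
  apply nm_ne_zero
  intro i h
  exact hx ((map_eq_zero (e.σ i)).1 h)

/-- A zero of the norm form gives a point of the projective model of the surface. -/
lemma exists_pq {c : CubeData K M} (hd : c.disc ≠ 0) {u : M × M × M} (hu : u ≠ 0)
    (h : c.normForm u = 0) : ∃ p q : M, (p ≠ 0 ∨ q ≠ 0) ∧ (e.cube c).C (e.vec p) (e.vec q) = 0 := by
  obtain ⟨m, y, z⟩ := u
  set C := e.cube c with hC
  have hcm : C.Mem e.C ⊥ := e.cube_mem c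
  have hd' : C.disc ≠ 0 := by
    rw [hC, e.disc_cube]
    intro h0
    exact hd ((map_eq_zero _).1 h0)
  have hN : C.N (e.vec m) (e.vec y) (e.vec z) = 0 := by
    have h1 := e.NJ_vec3 c (m, y, z)
    rw [h, map_zero] at h1
    exact h1
  have hym := e.vec_mem y
  have hzm := e.vec_mem z
  have hmm := e.vec_mem m
  -- the candidate
  have hp : e.vec m * C.Sy (e.vec y) (e.vec z) + C.Cz (e.vec y) (e.vec z) ∈ e.C.alg ⊥ :=
    (e.C.alg ⊥).add_mem ((e.C.alg ⊥).mul_mem hmm (hcm.Sy hym hzm)) (hcm.Cz hym hzm)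
  have hq : e.vec m * C.Sz (e.vec y) (e.vec z) - C.Cy (e.vec y) (e.vec z) ∈ e.C.alg ⊥ :=
    (e.C.alg ⊥).sub_mem ((e.C.alg ⊥).mul_mem hmm (hcm.Sz hym hzm)) (hcm.Cy hym hzm)
  obtain ⟨p, hp'⟩ := e.exists_vec hp
  obtain ⟨q, hq'⟩ := e.exists_vec hq
  have hCpq := C.C_grad (e.vec y) (e.vec z) (e.vec m)
  rw [hN, zero_mul, ← hp', ← hq'] at hCpq
  by_cases hpq : p ≠ 0 ∨ q ≠ 0
  · exact ⟨p, q, hpq, hCpq⟩
  push Not at hpq
  obtain ⟨rfl, rfl⟩ := hpq
  rw [map_zero] at hp' hq'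
  have hCs : C.Cs (e.vec y) (e.vec z) = 0 := by
    have h1 := C.euler_S (e.vec y) (e.vec z) 0
    have h2 := congrFun hp' 0
    have h3 := congrFun hq' 0
    simp only [Pi.zero_apply, Pi.add_apply, Pi.mul_apply, Pi.sub_apply] at h2 h3
    rw [← h1]
    linear_combination (-C.Sz (e.vec y) (e.vec z) 0) * h2 + C.Sy (e.vec y) (e.vec z) 0 * h3
  obtain ⟨p, hp2⟩ := e.exists_vec (hcm.Sy hym hzm)
  obtain ⟨q, hq2⟩ := e.exists_vec (hcm.Sz hym hzm)
  refine ⟨p, q, ?_, ?_⟩
  · by_contra hpq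
    push Not at hpq
    obtain ⟨rfl, rfl⟩ := hpq
    rw [map_zero] at hp2 hq2
    have h1 := C.Sy_S (e.vec y) (e.vec z)
    have h2 := C.Sz_S (e.vec y) (e.vec z)
    rw [← hp2, ← hq2] at h1 h2
    have h3 : C.Sy 0 0 = 0 := by
      funext i; simp [Cube.Sy]
    have h4 : C.Sz 0 0 = 0 := by
      funext i; simp [Cube.Sz]
    rw [h3] at h1
    rw [h4] at h2
    have hy0 : e.vec y = 0 := (smul_eq_zero.1 h1.symm).resolve_left hd'
    have hz0 : e.vec z = 0 := (smul_eq_zero.1 h2.symm).resolve_left hd'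
    have hy1 : y = 0 := e.vec_injective (by rw [hy0, map_zero])
    have hz1 : z = 0 := e.vec_injective (by rw [hz0, map_zero])
    rw [hy0, hz0] at hN
    have h5 : C.N (e.vec m) 0 0 = C.disc * nm (e.vec m) := by
      simp [Cube.N, Cube.Q, Cube.C, Cube.C3, tr]
    rw [h5] at hN
    have h6 : nm (e.vec m) = 0 := (mul_eq_zero.1 hN).resolve_left hd'
    have hm1 : m = 0 := by
      by_contra hm
      exact e.nm_vec_ne hm h6
    apply hu
    rw [hm1, hy1, hz1]
    rfl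
  · rw [hp2, hq2, C.C_S, hCs, mul_zero]

/-- An isotropic norm form gives a point over `K`, possibly at infinity. -/
lemma exists_point {c : CubeData K M} (hd : c.disc ≠ 0) {u : M × M × M} (hu : u ≠ 0)
    (h : c.normForm u = 0) : c.b = 0 ∨ ∃ x : M, (e.cube c).G (e.vec x) = 0 := by
  obtain ⟨p, q, hpq, hC⟩ := e.exists_pq hd hu h
  by_cases hp : p = 0
  · left
    subst hp
    have hq : q ≠ 0 := by
      rcases hpq with h1 | h1
      · exact absurd rfl h1
      · exact h1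
    rw [map_zero] at hC
    have h1 : (e.cube c).C 0 (e.vec q) = (e.cube c).b * nm (e.vec q) := by
      simp [Cube.C, Cube.C3, nm]
    rw [h1] at hC
    have h2 := (mul_eq_zero.1 hC).resolve_right (e.nm_vec_ne hq)
    exact (map_eq_zero (algebraMap K Ω)).1 h2
  · right
    refine ⟨q / p, ?_⟩
    have hpi : ∀ i, e.vec p i ≠ 0 := by
      intro i hi
      exact hp ((map_eq_zero (e.σ i)).1 hi)
    have h1 : e.vec (q / p) = e.vec q / e.vec p := by
      funext i
      simp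
    rw [h1]
    have h2 := (e.cube c).G_div (z := e.vec q) hpi
    rw [hC] at h2
    exact (mul_eq_zero.1 h2).resolve_left (nm_ne_zero hpi)

end Emb

/-- the translated cube -/
def polar (u v : Fin 3 → Ω) : Fin 3 → Ω := sharp (u + v) - sharp u - sharp v

lemma polar_mem {C : Cub K Ω} [CharZero Ω] {F : IntermediateField K Ω} {u v : Fin 3 → Ω}
    (hu : u ∈ C.alg F) (hv : v ∈ C.alg F) : polar u v ∈ C.alg F :=
  (C.alg F).sub_mem ((C.alg F).sub_mem (Cub.sharp_mem ((C.alg F).add_mem hu hv))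
    (Cub.sharp_mem hu)) (Cub.sharp_mem hv)

lemma sharp0 (u : Fin 3 → Ω) : sharp u 0 = u 1 * u 2 := rfl

lemma sharp1 (u : Fin 3 → Ω) : sharp u 1 = u 0 * u 2 := rfl

lemma sharp2 (u : Fin 3 → Ω) : sharp u 2 = u 0 * u 1 := rfl

lemma G_inv (c : Cube Ω) (x v : Fin 3 → Ω) (hv : ∀ i, v i ≠ 0) :
    nm v * c.G (x + v⁻¹) = nm v * c.G x +
      (tr ((c.α + polar c.β x + c.b • sharp x) * sharp v) + tr ((c.β + c.b • x) * v) + c.b) := by
  have h0 := hv 0
  have h1 := hv 1
  have h2 := hv 2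
  simp only [Cube.G, tr, nm, polar, Pi.add_apply, Pi.mul_apply, Pi.inv_apply, Pi.smul_apply,
    Pi.sub_apply, smul_eq_mul, sharp0, sharp1, sharp2]
  field_simp
  ring

lemma disc_translate (c : Cube Ω) (x : Fin 3 → Ω) :
    Cube.disc ⟨c.G x, c.α + polar c.β x + c.b • sharp x, c.β + c.b • x, c.b⟩ = c.disc := by
  simp only [Cube.disc, Cube.Qm, Cube.P, Cube.R, Cube.G, tr, nm, polar, Pi.add_apply, Pi.mul_apply,
    Pi.smul_apply, Pi.sub_apply, smul_eq_mul, sharp0, sharp1, sharp2]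
  ring

end Vale.Agent.P287.H3
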