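import Vale.Agent.P287.H3.Iso2

/-!
Isotropic norm forms: the parametrisation.
-/

namespace Vale.Agent.P287.H3

variable {K M Ω : Type*} [Field K] [Field M] [Field Ω] [Algebra K M] [Algebra K Ω] [CharZero Ω]

omit [CharZero Ω] in
/-- the trace form is nondegenerate -/
lemma eq_zero_of_tr (C : Cub K Ω) {g : Fin 3 → Ω} (h0 : tr g = 0) (h1 : tr (g * C.ξ) = 0)
    (h2 : tr (g * C.ξ ^ 2) = 0) : g = 0 := by
  have h : ∀ u : Fin 3 → Ω, tr (g * u) = 0 := by
    intro u
    obtain ⟨a, b, c, hu, -⟩ := C.exists_coord u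
    have h3 : tr (g * u) = a * tr g + b * tr (g * C.ξ) + c * tr (g * C.ξ ^ 2) := by
      simp only [tr, Pi.mul_apply, Pi.pow_apply, hu]
      ring
    rw [h3, h0, h1, h2]
    ring
  funext i
  have h4 := h (Pi.single i 1)
  fin_cases i <;> simpa [tr] using h4

lemma quad_point {C : Cub K Ω} {E : IntermediateField K Ω} {g d : Fin 3 → Ω} {ε : Ω}
    (hg : g ∈ C.alg ⊥) (hd : d ∈ C.alg ⊥) (hε : ε ∈ (⊥ : IntermediateField K Ω)) (hg0 : g ≠ 0)
    (htg : tr g = 0) {p q : Ω} (hpE : p ∈ E) (hqE : q ∈ E) (hpq : AlgebraicIndependent K ![p, q]) :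
    ∃ s ∈ E, tr (g * sharp (C.ev ![s, p, q])) + tr (d * C.ev ![s, p, q]) + ε = 0 := by
  set μ := C.ev ![0, p, q] with hμ
  have hbot : (⊥ : IntermediateField K Ω) ≤ E := bot_le
  have hμE : μ ∈ C.alg E := by
    apply Cub.ev_mem
    intro i
    fin_cases i
    · exact E.zero_mem
    · exact hpE
    · exact hqE
  have hgE := Cub.mono hbot hg
  have hdE := Cub.mono hbot hd
  -- the denominator
  have hden : tr d - tr (g * μ) ≠ 0 := by
    intro h
    have m0 : tr d ∈ (⊥ : IntermediateField K Ω) := Cub.tr_mem hd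
    have m1 : tr (g * C.ξ) ∈ (⊥ : IntermediateField K Ω) :=
      Cub.tr_mem ((C.alg ⊥).mul_mem hg Cub.xi_mem)
    have m2 : tr (g * C.ξ ^ 2) ∈ (⊥ : IntermediateField K Ω) :=
      Cub.tr_mem ((C.alg ⊥).mul_mem hg ((C.alg ⊥).pow_mem Cub.xi_mem 2))
    rw [IntermediateField.mem_bot] at m0 m1 m2
    obtain ⟨k0, hk0⟩ := m0
    obtain ⟨k1, hk1⟩ := m1
    obtain ⟨k2, hk2⟩ := m2
    have h1 : MvPolynomial.aeval ![p, q] (MvPolynomial.C k0 - MvPolynomial.X 0 * MvPolynomial.C k1 -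
        MvPolynomial.X 1 * MvPolynomial.C k2 : MvPolynomial (Fin 2) K) = 0 := by
      simp only [map_sub, map_mul, MvPolynomial.aeval_C, MvPolynomial.aeval_X, hk0, hk1, hk2]
      rw [← h]
      simp only [tr, Pi.mul_apply, Pi.pow_apply, hμ, Cub.ev_apply]
      simp
      ring
    rw [algebraicIndependent_iff] at hpq
    have h2 := hpq _ h1
    have h3 : ∀ v : Fin 2 → K, k0 - v 0 * k1 - v 1 * k2 = 0 := by
      intro v
      have := congrArg (MvPolynomial.eval v) h2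
      simpa using this
    have e0 := h3 ![0, 0]
    have e1 := h3 ![1, 0]
    have e2 := h3 ![0, 1]
    simp only [Matrix.cons_val_zero, Matrix.cons_val_one, zero_mul, one_mul, sub_zero] at e0 e1 e2
    rw [e0] at e1 e2
    have f1 : k1 = 0 := by linear_combination -e1
    have f2 : k2 = 0 := by linear_combination -e2
    rw [f1, map_zero] at hk1
    rw [f2, map_zero] at hk2
    exact hg0 (eq_zero_of_tr C htg hk1.symm hk2.symm)
  set s := -(tr (g * sharp μ) + tr (d * μ) + ε) / (tr d - tr (g * μ)) with hs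
  refine ⟨s, ?_, ?_⟩
  · apply E.div_mem
    · apply E.neg_mem
      exact E.add_mem (E.add_mem (Cub.tr_mem ((C.alg E).mul_mem hgE (Cub.sharp_mem hμE)))
        (Cub.tr_mem ((C.alg E).mul_mem hdE hμE))) (hbot hε)
    · exact E.sub_mem (Cub.tr_mem hdE) (Cub.tr_mem ((C.alg E).mul_mem hgE hμE))
  · have hη : C.ev ![s, p, q] = (fun _ => s) + μ := by
      funext i
      simp [hμ, Cub.ev_apply]
      ring
    have h1 : tr (g * sharp ((fun _ => s) + μ)) + tr (d * ((fun _ => s) + μ)) + ε =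
        s ^ 2 * tr g + s * (tr g * tr μ - tr (g * μ)) + tr (g * sharp μ) + s * tr d + tr (d * μ) +
          ε := by
      simp only [tr, Pi.mul_apply, Pi.add_apply, sharp0, sharp1, sharp2]
      ring
    rw [hη, h1, htg]
    have h2 : s * (tr d - tr (g * μ)) = -(tr (g * sharp μ) + tr (d * μ) + ε) := by
      rw [hs]
      field_simp
    linear_combination h2

omit [CharZero Ω] in
lemma exists_tr_zero (e : Emb K M Ω) (γ : M) : ∃ w : M, w ≠ 0 ∧ tr (e.vec γ * e.vec w) = 0 := by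
  have h3 : Module.finrank K M = 3 := by
    rw [Module.finrank_eq_card_basis e.bM]; simp
  have hfd : FiniteDimensional K M := FiniteDimensional.of_finrank_pos (by omega)
  let f : M →ₗ[K] K := (Algebra.trace K M).comp (LinearMap.mulLeft K γ)
  have h1 : LinearMap.ker f ≠ ⊥ := by
    apply LinearMap.ker_ne_bot_of_finrank_lt
    rw [h3]; simp
  obtain ⟨w, hw, hw0⟩ := Submodule.exists_mem_ne_zero_of_ne_bot h1
  refine ⟨w, hw0, ?_⟩
  rw [← e.vec_mul, e.tr_vec]
  have h2 : Algebra.trace K M (γ * w) = 0 := hw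
  rw [h2, map_zero]

omit [CharZero Ω] in
lemma sharp_inv {w : Fin 3 → Ω} (hw : ∀ i, w i ≠ 0) : sharp w⁻¹ = (nm w)⁻¹ • w := by
  have h0 := hw 0
  have h1 := hw 1
  have h2 := hw 2
  funext i
  fin_cases i <;> simp [sharp, nm] <;> field_simp

/-- the generic point of a surface with a rational point -/
theorem iso_point (e : Emb K M Ω) {c : CubeData K M} (hd : c.disc ≠ 0) {u : M × M × M}
    (hu : u ≠ 0) (h : c.normForm u = 0) {E : IntermediateField K Ω} {p q : Ω} (hpE : p ∈ E)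
    (hqE : q ∈ E) (hpq : AlgebraicIndependent K ![p, q])
    (hE : E ≤ IntermediateField.adjoin K (Set.range ![p, q])) :
    ∃ x ∈ e.C.alg E, (e.cube c).G x = 0 ∧ ∀ F, x ∈ e.C.alg F → E ≤ F := by
  have hbot : (⊥ : IntermediateField K Ω) ≤ E := bot_le
  have hcm := e.cube_mem c
  have hd' : (e.cube c).disc ≠ 0 := by
    rw [e.disc_cube]
    intro h0
    exact hd ((map_eq_zero _).1 h0)
  have hp0 : p ≠ 0 := by
    have := hpq.ne_zero 0
    simpa using this
  have hξ : ∀ i, e.C.ξ i ∉ E := fun i hi => e.irr i (mem_bot_of_adjoin hpq (hE hi) (e.C.xi_alg i))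
  have hηm : ∀ s ∈ E, e.C.ev ![s, p, q] ∈ e.C.alg E := by
    intro s hs
    apply Cub.ev_mem
    intro i
    fin_cases i
    · exact hs
    · exact hpE
    · exact hqE
  have hη0 : ∀ s ∈ E, ∀ i, e.C.ev ![s, p, q] i ≠ 0 := by
    intro s hs
    apply Cub.ne_zero_apply hξ (hηm s hs)
    apply Cub.ev_ne_zero
    intro h1
    exact hp0 (congrFun h1 1)
  have hgenη : ∀ s, ∀ F : IntermediateField K Ω, e.C.ev ![s, p, q] ∈ e.C.alg F → E ≤ F := by
    intro s F hF
    obtain ⟨-, h1, h2⟩ := Cub.coord_mem hF (a := s) (b := p) (c := q) (fun i => by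
      simp [Cub.ev_apply])
    refine hE.trans ?_
    rw [IntermediateField.adjoin_le_iff]
    rintro _ ⟨i, rfl⟩
    fin_cases i
    · exact h1
    · exact h2
  -- the auxiliary unit
  have haux : ∀ γ : Fin 3 → Ω, γ ∈ e.C.alg ⊥ → γ ≠ 0 → ∃ v1 ∈ e.C.alg ⊥, (∀ i, v1 i ≠ 0) ∧
      γ * sharp v1 ≠ 0 ∧ tr (γ * sharp v1) = 0 := by
    intro γ hγ hγ0
    obtain ⟨γ', rfl⟩ := e.exists_vec hγ
    obtain ⟨w, hw0, hw⟩ := exists_tr_zero e γ'
    have hwi : ∀ i, e.vec w i ≠ 0 := fun i hi => hw0 ((map_eq_zero (e.σ i)).1 hi)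
    have hγi : ∀ i, e.vec γ' i ≠ 0 := by
      intro i hi
      apply hγ0
      rw [(map_eq_zero (e.σ i)).1 hi, map_zero]
    have hs : sharp (e.vec w)⁻¹ = (nm (e.vec w))⁻¹ • e.vec w := sharp_inv hwi
    refine ⟨(e.vec w)⁻¹, Cub.inv_mem' (e.vec_mem w) hwi, fun i => inv_ne_zero (hwi i), ?_, ?_⟩
    · rw [hs]
      intro h1
      have h2 := congrFun h1 0
      rw [Pi.mul_apply, Pi.smul_apply, smul_eq_mul, Pi.zero_apply] at h2
      exact mul_ne_zero (hγi 0) (mul_ne_zero (inv_ne_zero (nm_ne_zero hwi)) (hwi 0)) h2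
    · rw [hs, mul_smul_comm, tr_smul, hw, mul_zero]
  rcases e.exists_point hd hu h with hb | ⟨x0, hx0⟩
  · -- point at infinity
    have hb' : (e.cube c).b = 0 := by
      change algebraMap K Ω c.b = 0
      rw [hb, map_zero]
    have hβ : (e.cube c).β ≠ 0 := by
      intro h0
      apply hd'
      have h1 := fun i => congrFun h0 i
      simp [Cube.disc, Cube.Qm, Cube.P, Cube.R, hb', h1, tr, sharp]
    obtain ⟨v1, hv1, hv10, hg0, htg⟩ := haux _ hcm.β hβ
    obtain ⟨s, hsE, hs⟩ := quad_point (E := E) (d := (e.cube c).α * v1) (ε := (e.cube c).a)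
      ((e.C.alg ⊥).mul_mem hcm.β (Cub.sharp_mem hv1)) ((e.C.alg ⊥).mul_mem hcm.α hv1) hcm.a hg0 htg
      hpE hqE hpq
    set η := e.C.ev ![s, p, q] with hη
    refine ⟨v1 * η, (e.C.alg E).mul_mem (Cub.mono hbot hv1) (hηm s hsE), ?_, ?_⟩
    · rw [← hs]
      simp only [Cube.G, hb', tr, Pi.mul_apply, sharp0, sharp1, sharp2]
      ring
    · intro F hF
      apply hgenη s F
      have h1 : e.C.ev ![s, p, q] = v1 * η / v1 := by
        funext i
        rw [Pi.div_apply, Pi.mul_apply, mul_div_cancel_left₀ _ (hv10 i)]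
      rw [h1]
      exact Cub.div_mem' hF (Cub.mono bot_le hv1) hv10
  · set X0 := e.vec x0 with hX0
    have hX0m : X0 ∈ e.C.alg ⊥ := e.vec_mem x0
    set α' := (e.cube c).α + polar (e.cube c).β X0 + (e.cube c).b • sharp X0 with hα'
    set β' := (e.cube c).β + (e.cube c).b • X0 with hβ'
    have hα'm : α' ∈ e.C.alg ⊥ := (e.C.alg ⊥).add_mem ((e.C.alg ⊥).add_mem hcm.α
      (polar_mem hcm.β hX0m)) (Cub.smul_mem' hcm.b (Cub.sharp_mem hX0m))
    have hβ'm : β' ∈ e.C.alg ⊥ := (e.C.alg ⊥).add_mem hcm.β (Cub.smul_mem' hcm.b hX0m)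
    have hα'0 : α' ≠ 0 := by
      intro h0
      apply hd'
      rw [← disc_translate (e.cube c) X0, hx0, ← hα', h0]
      simp [Cube.disc, Cube.Qm, Cube.P, Cube.R, tr, sharp]
    obtain ⟨v1, hv1, hv10, hg0, htg⟩ := haux _ hα'm hα'0
    obtain ⟨s, hsE, hs⟩ := quad_point (E := E) (d := β' * v1) (ε := (e.cube c).b)
      ((e.C.alg ⊥).mul_mem hα'm (Cub.sharp_mem hv1)) ((e.C.alg ⊥).mul_mem hβ'm hv1) hcm.b hg0 htg
      hpE hqE hpq
    set η := e.C.ev ![s, p, q] with hη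
    have hv0 : ∀ i, (v1 * η) i ≠ 0 := fun i => mul_ne_zero (hv10 i) (hη0 s hsE i)
    have hvm : v1 * η ∈ e.C.alg E := (e.C.alg E).mul_mem (Cub.mono hbot hv1) (hηm s hsE)
    refine ⟨X0 + (v1 * η)⁻¹, (e.C.alg E).add_mem (Cub.mono hbot hX0m) (Cub.inv_mem' hvm hv0),
      ?_, ?_⟩
    · have h1 := G_inv (e.cube c) X0 (v1 * η) hv0
      rw [hx0, mul_zero, zero_add] at h1
      have h2 : tr (α' * sharp (v1 * η)) + tr (β' * (v1 * η)) + (e.cube c).b = 0 := by
        rw [← hs]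
        simp only [tr, Pi.mul_apply, sharp0, sharp1, sharp2]
        ring
      rw [← hα', ← hβ', h2] at h1
      exact (mul_eq_zero.1 h1).resolve_left (nm_ne_zero hv0)
    · intro F hF
      apply hgenη s F
      have h1 : (v1 * η)⁻¹ ∈ e.C.alg F := by
        have h2 : (v1 * η)⁻¹ = (X0 + (v1 * η)⁻¹) - X0 := by ring
        rw [h2]
        exact (e.C.alg F).sub_mem hF (Cub.mono bot_le hX0m)
      have h3 : v1 * η ∈ e.C.alg F := by
        have h4 : v1 * η = ((v1 * η)⁻¹)⁻¹ := by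
          funext i; simp
        rw [h4]
        exact Cub.inv_mem' h1 (fun i => inv_ne_zero (hv0 i))
      have h5 : e.C.ev ![s, p, q] = v1 * η / v1 := by
        funext i
        rw [Pi.div_apply, Pi.mul_apply, mul_div_cancel_left₀ _ (hv10 i)]
      rw [h5]
      exact Cub.div_mem' h3 (Cub.mono bot_le hv1) hv10

end Vale.Agent.P287.H3
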