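import Vale.Agent.P287.H3.LinAlg

/-!
The key theorem: cube surfaces with similar anisotropic norm forms are birational.
-/

namespace Vale.Agent.P287.H3

variable {K Ω : Type*} [Field K] [Field Ω] [Algebra K Ω]

/-- `e` lies in the `F`-form of the nine dimensional space. -/
def JMem (M : Cub K Ω) (F : IntermediateField K Ω) (e : J Ω) : Prop :=
  e.1 ∈ M.alg F ∧ e.2.1 ∈ M.alg F ∧ e.2.2 ∈ M.alg F

/-- The algebraic closure of `K(s)` contains this field. -/
def clo (K : Type*) {Ω : Type*} [Field K] [Field Ω] [Algebra K Ω] (s : Ω) :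
    IntermediateField K Ω :=
  algebraicClosure K Ω ⊔ IntermediateField.adjoin K {s}

lemma alg_le_clo (s : Ω) : algebraicClosure K Ω ≤ clo K s := le_sup_left

lemma self_mem_clo (s : Ω) : s ∈ clo K s :=
  (le_sup_right : IntermediateField.adjoin K {s} ≤ clo K s)
    (IntermediateField.mem_adjoin_simple_self K s)

lemma Cub.xi_alg (M : Cub K Ω) (i : Fin 3) : M.ξ i ∈ algebraicClosure K Ω := by
  rw [mem_algebraicClosure_iff]
  have h := M.cube i
  refine ⟨Polynomial.X ^ 3 - Polynomial.C M.p * Polynomial.X ^ 2 + Polynomial.C M.q * Polynomial.X -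
    Polynomial.C M.r, ?_, ?_⟩
  · intro h0
    have := congrArg (fun p => Polynomial.coeff p 3) h0
    simp [Polynomial.coeff_X, Polynomial.coeff_C] at this
  · simp only [map_sub, map_add, map_mul, map_pow, Polynomial.aeval_X, Polynomial.aeval_C]
    rw [h]; ring

section Aniso

variable [CharZero Ω]

/-- anisotropic cubes have no rational zeros of the covariant -/
lemma aniso_cs {N : Cub K Ω} {c : Cube Ω} (hc : c.Mem N ⊥) (hN : ∀ i, N.ξ i ∉ (⊥ : IntermediateField K Ω))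
    (aniso : ∀ u, JMem N ⊥ u → c.NJ u = 0 → u = 0) {y z : Fin 3 → Ω} (hy : y ∈ N.alg ⊥)
    (hz : z ∈ N.alg ⊥) (h : c.Cs y z = 0) : y = 0 ∧ z = 0 := by
  have hsy := c.syzygy y z
  rw [h] at hsy
  by_cases hQ : c.Q y z = 0
  · have hd : c.disc ≠ 0 := by
      intro hd
      have h1 : JMem N ⊥ ((1 : Fin 3 → Ω), (0 : Fin 3 → Ω), (0 : Fin 3 → Ω)) :=
        ⟨(N.alg ⊥).one_mem, (N.alg ⊥).zero_mem, (N.alg ⊥).zero_mem⟩
      have h2 := aniso _ h1 (by simp [Cube.NJ, Cube.N, hd, Cube.Q, Cube.C, Cube.C3, tr])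
      have h3 := congrFun (congrArg Prod.fst h2) 0
      simp at h3
    have hC : c.C y z = 0 := by
      rw [hQ] at hsy
      have : c.disc * c.C y z ^ 2 = 0 := by
        simp [nm] at hsy
        rcases hsy with h1 | h1
        · rw [h1, zero_mul]
        · rw [h1]; ring
      exact pow_eq_zero_iff (two_ne_zero) |>.1 ((mul_eq_zero.1 this).resolve_left hd)
    have h2 := aniso (0, y, z) ⟨(N.alg ⊥).zero_mem, hy, hz⟩ (by
      simp [Cube.NJ, Cube.N, hQ, hC, tr, nm])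
    simp only [Prod.mk_eq_zero] at h2
    exact ⟨h2.2.1, h2.2.2⟩
  · have hQi := Cub.ne_zero_apply hN (hc.Q hy hz) hQ
    set m : Fin 3 → Ω := (-(c.C y z) / 2) • (c.Q y z)⁻¹ with hm
    have h2 : (2 : Ω) ∈ (⊥ : IntermediateField K Ω) := Cube.two_mem _
    have hmm : m ∈ N.alg ⊥ := Cub.smul_mem' (div_mem (neg_mem (hc.C hy hz)) h2)
      (Cub.inv_mem' (hc.Q hy hz) hQi)
    have q0 := hQi 0
    have q1 := hQi 1
    have q2 := hQi 2
    have h3 := aniso (m, y, z) ⟨hmm, hy, hz⟩ (by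
      simp only [Cube.NJ, Cube.N]
      have e1 : nm m = -(c.C y z) ^ 3 / (8 * nm (c.Q y z)) := by
        simp [hm, nm]
        field_simp
        ring
      have e2 : tr (m * c.Q y z) = -(3 * c.C y z) / 2 := by
        simp [hm, tr]
        field_simp
        ring
      have e3 : nm (c.Q y z) ≠ 0 := nm_ne_zero hQi
      rw [e1, e2]
      field_simp
      linear_combination (2 * c.C y z) * hsy)
    simp only [Prod.mk_eq_zero] at h3
    exact ⟨h3.2.1, h3.2.2⟩

lemma aniso_disc {N : Cub K Ω} {c : Cube Ω}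
    (aniso : ∀ u, JMem N ⊥ u → c.NJ u = 0 → u = 0) : c.disc ≠ 0 := by
  intro hd
  have h1 : JMem N ⊥ ((1 : Fin 3 → Ω), (0 : Fin 3 → Ω), (0 : Fin 3 → Ω)) :=
    ⟨(N.alg ⊥).one_mem, (N.alg ⊥).zero_mem, (N.alg ⊥).zero_mem⟩
  have h2 := aniso _ h1 (by simp [Cube.NJ, Cube.N, hd, Cube.Q, Cube.C, Cube.C3, tr])
  have h3 := congrFun (congrArg Prod.fst h2) 0
  simp at h3

lemma aniso_b {N : Cub K Ω} {c : Cube Ω}
    (aniso : ∀ u, JMem N ⊥ u → c.NJ u = 0 → u = 0) : c.b ≠ 0 := by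
  intro hd
  have h1 : JMem N ⊥ ((0 : Fin 3 → Ω), (0 : Fin 3 → Ω), (1 : Fin 3 → Ω)) :=
    ⟨(N.alg ⊥).zero_mem, (N.alg ⊥).zero_mem, (N.alg ⊥).one_mem⟩
  have h2 := aniso _ h1 (by simp [Cube.NJ, Cube.N, hd, Cube.Q, Cube.C, Cube.C3, tr, nm])
  have h3 := congrFun (congrArg (fun u => u.2.2) h2) 0
  simp at h3

end Aniso

end Vale.Agent.P287.H3
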