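import Vale.Agent.P287.H3.Trd

/-!
No cubic subfield, first part.
-/

namespace Vale.Agent.P287.H3

open Polynomial in
/-- roots of cubic polynomials -/
lemma cubic_root {F Ω : Type*} [Field F] [Field Ω] [Algebra F Ω] {p3 p2 p1 p0 : F} (h3 : p3 ≠ 0)
    {x : Ω} (h : algebraMap F Ω p3 * x ^ 3 + algebraMap F Ω p2 * x ^ 2 + algebraMap F Ω p1 * x +
      algebraMap F Ω p0 = 0) : IsIntegral F x ∧ (minpoly F x).natDegree ≤ 3 := by
  set P : F[X] := C p3 * X ^ 3 + C p2 * X ^ 2 + C p1 * X + C p0 with hP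
  have hd : P.natDegree = 3 := natDegree_cubic h3
  have hP0 : P ≠ 0 := by
    intro h0
    rw [h0] at hd
    simp at hd
  have he : aeval x P = 0 := by
    rw [hP]
    simpa using h
  refine ⟨IsAlgebraic.isIntegral ⟨P, hP0, he⟩, ?_⟩
  have := natDegree_le_natDegree (minpoly.degree_le_of_ne_zero F x hP0 he)
  omega

variable {K Ω : Type*} [Field K] [Field Ω] [Algebra K Ω]

open MvPolynomial in
/-- An algebraic element of a purely transcendental extension is a constant. -/
lemma mem_bot_of_adjoin {n : ℕ} {x : Fin n → Ω} (hx : AlgebraicIndependent K x) {z : Ω}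
    (hz : z ∈ IntermediateField.adjoin K (Set.range x)) (hza : z ∈ algebraicClosure K Ω) :
    z ∈ (⊥ : IntermediateField K Ω) := by
  rw [IntermediateField.mem_adjoin_range_iff] at hz
  obtain ⟨r, s, hrs⟩ := hz
  by_cases hs : aeval x s = 0
  · rw [hs, div_zero] at hrs
    rw [hrs]
    exact zero_mem _
  have hA := hx.algebraicClosure
  rw [algebraicIndependent_iff] at hA
  set zz : algebraicClosure K Ω := ⟨z, hza⟩ with hzz
  have hmap : ∀ p : MvPolynomial (Fin n) K,
      aeval x (map (algebraMap K (algebraicClosure K Ω)) p) = aeval x p := by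
    intro p
    rw [MvPolynomial.aeval_map_algebraMap]
  have h1 : aeval x (map (algebraMap K (algebraicClosure K Ω)) r -
      C zz * map (algebraMap K (algebraicClosure K Ω)) s) = 0 := by
    rw [map_sub, map_mul, hmap, hmap, aeval_C]
    have : algebraMap (algebraicClosure K Ω) Ω zz = z := rfl
    rw [this, hrs]
    field_simp
    simp
  have h2 := hA _ h1
  have hs0 : s ≠ 0 := by
    rintro rfl
    exact hs (map_zero _)
  obtain ⟨m, hm⟩ := MvPolynomial.exists_coeff_ne_zero hs0
  have h3 := congrArg (coeff m) h2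
  rw [coeff_sub, coeff_C_mul, coeff_map, coeff_map, coeff_zero] at h3
  have h4 := congrArg (algebraMap (algebraicClosure K Ω) Ω) h3
  rw [map_sub, map_mul, map_zero, ← IsScalarTower.algebraMap_apply,
    ← IsScalarTower.algebraMap_apply] at h4
  have h5 : algebraMap (algebraicClosure K Ω) Ω zz = z := rfl
  rw [h5] at h4
  have h6 : algebraMap K Ω (coeff m s) ≠ 0 := by
    intro h0
    exact hm ((map_eq_zero (algebraMap K Ω)).1 h0)
  rw [IntermediateField.mem_bot]
  refine ⟨coeff m r / coeff m s, ?_⟩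
  rw [map_div₀]
  field_simp
  linear_combination h4

section

variable [CharZero Ω]

lemma G_expand (c : Cube Ω) (t : Ω) (u : Fin 3 → Ω) : c.G ((fun _ => t) + u) =
    c.b * t ^ 3 + (c.b * tr u + tr c.β) * t ^ 2 +
      (c.b * e2 u + tr c.α + tr c.β * tr u - tr (c.β * u)) * t + c.G u := by
  simp [Cube.G, tr, e2, nm, sharp]
  ring

/-- the minimal polynomial of `ξ i` over a field without roots has degree three -/
lemma Cub.three_le (C : Cub K Ω) (F : IntermediateField K Ω) (hF : ∀ i, C.ξ i ∉ F) (i : Fin 3)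
    (hi : IsIntegral F (C.ξ i)) : 3 ≤ (minpoly F (C.ξ i)).natDegree := by
  by_contra h
  push Not at h
  set P := minpoly F (C.ξ i) with hP
  have h1 : P = Polynomial.C (P.coeff 2) * Polynomial.X ^ 2 + Polynomial.C (P.coeff 1) * Polynomial.X +
      Polynomial.C (P.coeff 0) := by
    exact Polynomial.eq_quadratic_of_degree_le_two
      (Polynomial.degree_le_of_natDegree_le (show P.natDegree ≤ 2 by omega))
  have h2 : Polynomial.aeval (C.ξ i) P = 0 := minpoly.aeval F (C.ξ i)
  rw [h1] at h2
  simp only [map_add, map_mul, map_pow, Polynomial.aeval_X, Polynomial.aeval_C] at h2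
  set a : Ω := algebraMap F Ω (P.coeff 0) with ha
  set b : Ω := algebraMap F Ω (P.coeff 1) with hb
  set c : Ω := algebraMap F Ω (P.coeff 2) with hc
  set u : Fin 3 → Ω := fun j => a + b * C.ξ j + c * C.ξ j ^ 2 with hu
  have hum : u ∈ C.alg F :=
    ⟨a, (P.coeff 0).2, b, (P.coeff 1).2, c, (P.coeff 2).2, fun j => rfl⟩
  have hu0 : u = 0 := Cub.eq_zero hF hum (i := i) (by
    simp only [hu]
    linear_combination h2)
  obtain ⟨h3, h4, h5⟩ := van C.inj (a := a) (b := b) (c := c) (fun j => congrFun hu0 j)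
  rw [ha, map_eq_zero] at h3
  rw [hb, map_eq_zero] at h4
  rw [hc, map_eq_zero] at h5
  rw [h3, h4, h5] at h1
  have h6 := minpoly.ne_zero hi
  rw [← hP, h1] at h6
  simp at h6

/-- the field `A(x₁, x₂)` -/
def AX (K : Type*) {Ω : Type*} [Field K] [Field Ω] [Algebra K Ω] (x : Fin 2 → Ω) :
    IntermediateField (algebraicClosure K Ω) Ω :=
  IntermediateField.adjoin (algebraicClosure K Ω) (Set.range x)

/-- If the function field of the surface contains a root of an irreducible cubic polynomial over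
`K`, then the surface has a rational section over the algebraic closure. -/
theorem mem_AX {M : Cub K Ω} {c : Cube Ω} (hc : c.Mem M ⊥) (hb : c.b ≠ 0)
    {E : IntermediateField K Ω} {y : Fin 2 → Ω} (hy : AlgebraicIndependent K y)
    (hyE : ∀ i, y i ∈ E) {x : Fin 3 → Ω} (hG : c.G x = 0)
    (gen : ∀ F, x ∈ M.alg F → E ≤ F) {x0 x1 x2 : Ω} (hx : ∀ i, x i = x0 + x1 * M.ξ i + x2 * M.ξ i ^ 2)
    {C : Cub K Ω} (hC : ∀ i, C.ξ i ∉ (⊥ : IntermediateField K Ω)) {i : Fin 3} (hi : C.ξ i ∈ E) :
    AlgebraicIndependent K ![x1, x2] ∧ x0 ∈ AX K ![x1, x2] := by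
  set u : Fin 3 → Ω := fun i => x1 * M.ξ i + x2 * M.ξ i ^ 2 with hu
  have hxu : x = (fun _ => x0) + u := by
    funext i
    rw [hx, Pi.add_apply]
    simp only [hu]
    ring
  have hroot := hG
  rw [hxu, G_expand] at hroot
  -- coefficients in a field containing x1, x2
  have hcoef : ∀ L : IntermediateField K Ω, x1 ∈ L → x2 ∈ L →
      c.b ∈ L ∧ c.b * tr u + tr c.β ∈ L ∧
      c.b * e2 u + tr c.α + tr c.β * tr u - tr (c.β * u) ∈ L ∧ c.G u ∈ L := by
    intro L h1 h2
    have hcL : c.Mem M L := hc.mono bot_le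
    have hum : u ∈ M.alg L := ⟨0, L.zero_mem, x1, h1, x2, h2, fun i => by simp [hu]⟩
    refine ⟨hcL.b, ?_, ?_, ?_⟩
    · exact L.add_mem (L.mul_mem hcL.b (Cub.tr_mem hum)) (Cub.tr_mem hcL.β)
    · exact L.sub_mem (L.add_mem (L.add_mem (L.mul_mem hcL.b (Cub.e2_mem hum))
        (Cub.tr_mem hcL.α)) (L.mul_mem (Cub.tr_mem hcL.β) (Cub.tr_mem hum)))
        (Cub.tr_mem ((M.alg L).mul_mem hcL.β hum))
    · rw [← Cube.C_one]
      exact hcL.C (M.alg L).one_mem hum
  have hintL : ∀ L : IntermediateField K Ω, x1 ∈ L → x2 ∈ L →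
      IsIntegral L x0 ∧ (minpoly L x0).natDegree ≤ 3 := by
    intro L h1 h2
    obtain ⟨m3, m2, m1, m0⟩ := hcoef L h1 h2
    refine cubic_root (p3 := (⟨_, m3⟩ : L)) (p2 := (⟨_, m2⟩ : L)) (p1 := (⟨_, m1⟩ : L))
      (p0 := (⟨_, m0⟩ : L)) ?_ hroot
    intro h0
    exact hb (congrArg Subtype.val h0)
  have hmemF : ∀ F : IntermediateField K Ω, x0 ∈ F → x1 ∈ F → x2 ∈ F → E ≤ F := by
    intro F h0 h1 h2
    exact gen F ⟨x0, h0, x1, h1, x2, h2, hx⟩
  have ind : AlgebraicIndependent K ![x1, x2] := by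
    apply indep_pair hy hyE
    have h1 : x1 ∈ CL K {x1, x2} := subset_CL _ (by simp)
    have h2 : x2 ∈ CL K {x1, x2} := subset_CL _ (by simp)
    exact hmemF _ (mem_CL_of_isAlgebraic (hintL _ h1 h2).1.isAlgebraic) h1 h2
  refine ⟨ind, ?_⟩
  set L : IntermediateField K Ω := IntermediateField.adjoin K (Set.range ![x1, x2]) with hL
  have h1 : x1 ∈ L := IntermediateField.subset_adjoin _ _ ⟨0, rfl⟩
  have h2 : x2 ∈ L := IntermediateField.subset_adjoin _ _ ⟨1, rfl⟩
  obtain ⟨hint, hdeg⟩ := hintL L h1 h2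
  have hCL : ∀ j, C.ξ j ∉ L := fun j hj => hC j (mem_bot_of_adjoin ind hj (C.xi_alg j))
  set ζ := C.ξ i with hζ
  have hζint : IsIntegral L ζ := by
    have := C.xi_alg i
    rw [mem_algebraicClosure_iff] at this
    exact (this.extendScalars (FaithfulSMul.algebraMap_injective K L)).isIntegral
  have h3 := C.three_le L hCL i hζint
  have hζ0 : ζ ∈ IntermediateField.adjoin L {x0} := by
    have : E ≤ (IntermediateField.adjoin L {x0}).restrictScalars K := by
      apply hmemF
      · exact IntermediateField.mem_adjoin_simple_self L x0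
      · exact (IntermediateField.adjoin L {x0}).algebraMap_mem ⟨x1, h1⟩
      · exact (IntermediateField.adjoin L {x0}).algebraMap_mem ⟨x2, h2⟩
    exact this hi
  have hle : IntermediateField.adjoin L {ζ} ≤ IntermediateField.adjoin L {x0} := by
    rw [IntermediateField.adjoin_simple_le_iff]
    exact hζ0
  have hfin : FiniteDimensional L (IntermediateField.adjoin L {x0}) :=
    IntermediateField.adjoin.finiteDimensional hint
  have heq : IntermediateField.adjoin L {ζ} = IntermediateField.adjoin L {x0} := by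
    apply IntermediateField.eq_of_le_of_finrank_le hle
    rw [IntermediateField.adjoin.finrank hint, IntermediateField.adjoin.finrank hζint]
    exact hdeg.trans h3
  have hx0 : x0 ∈ IntermediateField.adjoin L {ζ} := by
    rw [heq]
    exact IntermediateField.mem_adjoin_simple_self L x0
  have hsub : (IntermediateField.adjoin L {ζ}).restrictScalars K ≤
      (AX K ![x1, x2]).restrictScalars K := by
    intro w hw
    have hw' : w ∈ IntermediateField.adjoin L {ζ} := hw
    refine IntermediateField.adjoin_induction L (p := fun w _ => w ∈ AX K ![x1, x2])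
      ?_ ?_ ?_ ?_ ?_ hw'
    · intro w hw
      rw [Set.mem_singleton_iff] at hw
      rw [hw]
      exact (AX K ![x1, x2]).algebraMap_mem ⟨ζ, C.xi_alg i⟩
    · rintro ⟨w, hw⟩
      have hLX : L ≤ (AX K ![x1, x2]).restrictScalars K := by
        rw [hL, IntermediateField.adjoin_le_iff]
        exact IntermediateField.subset_adjoin _ _
      exact hLX hw
    · intro a b _ _ ha hb
      exact (AX K ![x1, x2]).add_mem ha hb
    · intro a _ ha
      exact (AX K ![x1, x2]).inv_mem ha
    · intro a b _ _ ha hb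
      exact (AX K ![x1, x2]).mul_mem ha hb
  exact hsub hx0

end

end Vale.Agent.P287.H3
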