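import Vale.Agent.P287.H3.LemA1

/-!
No cubic subfield, second part: the polynomial argument.
-/

namespace Vale.Agent.P287.H3

/-- the multi-affine polynomial of a cube, over a commutative ring -/
def multi {R : Type*} [CommRing R] (a b : R) (α β x : Fin 3 → R) : R :=
  a + (α 0 * x 0 + α 1 * x 1 + α 2 * x 2) +
    (β 0 * (x 1 * x 2) + β 1 * (x 0 * x 2) + β 2 * (x 0 * x 1)) + b * (x 0 * x 1 * x 2)

lemma Cube.G_eq_multi {Ω : Type*} [Field Ω] (c : Cube Ω) (x : Fin 3 → Ω) :
    c.G x = multi c.a c.b c.α c.β x := by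
  simp [Cube.G, multi, tr, nm, sharp]

lemma map_multi {R S : Type*} [CommRing R] [CommRing S] (f : R →+* S) (a b : R)
    (α β x : Fin 3 → R) : f (multi a b α β x) =
      multi (f a) (f b) (fun i => f (α i)) (fun i => f (β i)) (fun i => f (x i)) := by
  simp [multi]

variable {A : Type*} [Field A]

/-- The cube as a cube over `A`. -/
lemma disc_eq_zero {c : Cube A} {i : Fin 3} {r : A}
    (h : ∀ Y : Fin 3 → A, Y i = r → multi c.a c.b c.α c.β Y = 0) : c.disc = 0 := by
  rw [← c.disc_eq i]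
  fin_cases i
  · have h00 := h ![r, 0, 0] rfl
    have h10 := h ![r, 1, 0] rfl
    have h01 := h ![r, 0, 1] rfl
    have h11 := h ![r, 1, 1] rfl
    simp [multi] at h00 h10 h01 h11
    have ea : c.a = -(c.α 0 * r) := by linear_combination h00
    have e1 : c.α 1 = -(c.β 2 * r) := by linear_combination h10 - h00
    have e2 : c.α 2 = -(c.β 1 * r) := by linear_combination h01 - h00
    have e3 : c.β 0 = -(c.b * r) := by linear_combination h11 - h10 - h01 + h00
    simp [Cube.Qm, Cube.P, Cube.R, sharp, tr, ea, e1, e2, e3]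
    ring
  · have h00 := h ![0, r, 0] rfl
    have h10 := h ![1, r, 0] rfl
    have h01 := h ![0, r, 1] rfl
    have h11 := h ![1, r, 1] rfl
    simp [multi] at h00 h10 h01 h11
    have ea : c.a = -(c.α 1 * r) := by linear_combination h00
    have e1 : c.α 0 = -(c.β 2 * r) := by linear_combination h10 - h00
    have e2 : c.α 2 = -(c.β 0 * r) := by linear_combination h01 - h00
    have e3 : c.β 1 = -(c.b * r) := by linear_combination h11 - h10 - h01 + h00
    simp [Cube.Qm, Cube.P, Cube.R, sharp, tr, ea, e1, e2, e3]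
    ring
  · have h00 := h ![0, 0, r] rfl
    have h10 := h ![1, 0, r] rfl
    have h01 := h ![0, 1, r] rfl
    have h11 := h ![1, 1, r] rfl
    simp [multi] at h00 h10 h01 h11
    have ea : c.a = -(c.α 2 * r) := by linear_combination h00
    have e1 : c.α 0 = -(c.β 1 * r) := by linear_combination h10 - h00
    have e2 : c.α 1 = -(c.β 0 * r) := by linear_combination h01 - h00
    have e3 : c.β 2 = -(c.b * r) := by linear_combination h11 - h10 - h01 + h00
    simp [Cube.Qm, Cube.P, Cube.R, sharp, tr, ea, e1, e2, e3]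
    ring

open MvPolynomial

/-- linear polynomials -/
noncomputable def lin (p q : A) : MvPolynomial (Fin 2) A := C p * X 0 + C q * X 1

lemma totalDegree_lin (p q : A) : (lin p q).totalDegree ≤ 1 := by
  refine (totalDegree_add _ _).trans (max_le ?_ ?_) <;>
  · refine (totalDegree_mul _ _).trans ?_
    simp

lemma lin_eq_zero {p q : A} (h : lin p q = 0) : p = 0 ∧ q = 0 := by
  have h1 := congrArg (eval ![1, 0]) h
  have h2 := congrArg (eval ![0, 1]) h
  simp [lin] at h1 h2
  exact ⟨h1, h2⟩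

lemma affine_of_totalDegree {r : MvPolynomial (Fin 2) A} (h : r.totalDegree ≤ 1) :
    ∃ r0 r1 r2 : A, r = C r0 + lin r1 r2 := by
  have h1 := sum_homogeneousComponent r
  have h2 : ∑ i ∈ Finset.range (1 + 1), homogeneousComponent i r = r := by
    rw [← h1]
    conv_lhs => rw [h1]
    symm
    apply Finset.sum_subset (Finset.range_mono (by omega))
    intro i _ hi
    apply homogeneousComponent_eq_zero
    simpa using hi
  rw [Finset.sum_range_succ, Finset.sum_range_one, homogeneousComponent_zero] at h2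
  have h3 : homogeneousComponent 1 r ∈ homogeneousSubmodule (Fin 2) A 1 :=
    homogeneousComponent_isHomogeneous 1 r
  rw [homogeneousSubmodule_one_eq_span_X, Submodule.mem_span_range_iff_exists_fun] at h3
  obtain ⟨d, hd⟩ := h3
  refine ⟨coeff 0 r, d 0, d 1, ?_⟩
  rw [← h2, ← hd, Fin.sum_univ_two]
  simp [lin, MvPolynomial.smul_eq_C_mul]

/-- A cube whose surface contains a plane `x = r(s, t)` has vanishing hyperdeterminant. -/
theorem disc_of_section [CharZero A] {c : Cube A} (hb : c.b ≠ 0) {ξ : Fin 3 → A}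
    (hξ : Function.Injective ξ) {r : MvPolynomial (Fin 2) A}
    (h : multi (C c.a) (C c.b) (fun i => C (c.α i)) (fun i => C (c.β i))
      (fun i => r + lin (ξ i) (ξ i ^ 2)) = 0) : c.disc = 0 := by
  -- the degree of r
  have hdeg : r.totalDegree ≤ 1 := by
    by_contra hcon
    push Not at hcon
    set d := r.totalDegree with hd
    set Y : Fin 3 → MvPolynomial (Fin 2) A := fun i => r + lin (ξ i) (ξ i ^ 2) with hY
    have hYd : ∀ i, (Y i).totalDegree = d := by
      intro i
      rw [hY, totalDegree_add_eq_left_of_totalDegree_lt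
        ((totalDegree_lin _ _).trans_lt hcon)]
    have hY0 : ∀ i, Y i ≠ 0 := by
      intro i h0
      have := hYd i
      rw [h0, totalDegree_zero] at this
      omega
    have h1 : C c.b * (Y 0 * Y 1 * Y 2) = -(C c.a + (C (c.α 0) * Y 0 + C (c.α 1) * Y 1 +
        C (c.α 2) * Y 2) + (C (c.β 0) * (Y 1 * Y 2) + C (c.β 1) * (Y 0 * Y 2) +
        C (c.β 2) * (Y 0 * Y 1))) := by
      simp only [multi] at h
      linear_combination h
    have h2 : (C c.b * (Y 0 * Y 1 * Y 2)).totalDegree = d + d + d := by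
      have hC : (C c.b : MvPolynomial (Fin 2) A) ≠ 0 := by
        rw [Ne, C_eq_zero]; exact hb
      rw [totalDegree_mul_of_isDomain hC (mul_ne_zero (mul_ne_zero (hY0 0) (hY0 1)) (hY0 2)),
        totalDegree_mul_of_isDomain (mul_ne_zero (hY0 0) (hY0 1)) (hY0 2),
        totalDegree_mul_of_isDomain (hY0 0) (hY0 1), hYd, hYd, hYd, totalDegree_C, zero_add]
    have hlin : ∀ (p : A) (i : Fin 3), (C p * Y i).totalDegree ≤ d + d := by
      intro p i
      refine (totalDegree_mul _ _).trans ?_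
      rw [totalDegree_C, hYd]
      omega
    have hquad : ∀ (p : A) (i j : Fin 3), (C p * (Y i * Y j)).totalDegree ≤ d + d := by
      intro p i j
      refine (totalDegree_mul _ _).trans ?_
      rw [totalDegree_C, zero_add]
      refine (totalDegree_mul _ _).trans ?_
      rw [hYd, hYd]
    have h3 : (C c.b * (Y 0 * Y 1 * Y 2)).totalDegree ≤ d + d := by
      rw [h1, totalDegree_neg]
      refine (totalDegree_add _ _).trans (max_le ((totalDegree_add _ _).trans (max_le ?_
        ((totalDegree_add _ _).trans (max_le ((totalDegree_add _ _).trans (max_le (hlin _ _)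
          (hlin _ _))) (hlin _ _)))))
        ((totalDegree_add _ _).trans (max_le ((totalDegree_add _ _).trans (max_le (hquad _ _ _)
          (hquad _ _ _))) (hquad _ _ _))))
      rw [totalDegree_C]
      omega
    omega
  obtain ⟨r0, r1, r2, rfl⟩ := affine_of_totalDegree hdeg
  -- evaluation
  have hev : ∀ s t : A, multi c.a c.b c.α c.β
      (fun i => r0 + ((r1 + ξ i) * s + (r2 + ξ i ^ 2) * t)) = 0 := by
    intro s t
    have h1 := congrArg (eval ![s, t]) h
    rw [map_multi] at h1
    simp only [eval_C, map_zero] at h1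
    rw [← h1]
    congr 1
    funext i
    simp [lin]
    ring
  -- one of the linear parts vanishes
  have hprod : lin (r1 + ξ 0) (r2 + ξ 0 ^ 2) * lin (r1 + ξ 1) (r2 + ξ 1 ^ 2) *
      lin (r1 + ξ 2) (r2 + ξ 2 ^ 2) = 0 := by
    apply MvPolynomial.funext
    intro v
    have e1 := hev (2 * v 0) (2 * v 1)
    have e2 := hev (v 0) (v 1)
    have e3 := hev 0 0
    have e4 := hev (-(v 0)) (-(v 1))
    have e5 : 6 * (c.b * (eval v (lin (r1 + ξ 0) (r2 + ξ 0 ^ 2) * lin (r1 + ξ 1) (r2 + ξ 1 ^ 2) *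
      lin (r1 + ξ 2) (r2 + ξ 2 ^ 2)))) = 0 := by
      simp only [lin, map_mul, map_add, eval_C, eval_X]
      simp only [multi] at e1 e2 e3 e4
      linear_combination e1 - 3 * e2 + 3 * e3 - e4
    rw [map_zero]
    have h6 : (6 : A) ≠ 0 := by norm_num
    exact (mul_eq_zero.1 ((mul_eq_zero.1 e5).resolve_left h6)).resolve_left hb
  obtain ⟨i, hi⟩ : ∃ i, lin (r1 + ξ i) (r2 + ξ i ^ 2) = 0 := by
    rcases mul_eq_zero.1 hprod with h1 | h1
    · rcases mul_eq_zero.1 h1 with h2 | h2
      · exact ⟨0, h2⟩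
      · exact ⟨1, h2⟩
    · exact ⟨2, h1⟩
  obtain ⟨e1, e2⟩ := lin_eq_zero hi
  -- all triples with the given coordinate
  apply disc_eq_zero (i := i) (r := r0)
  intro Y hY
  -- interpolation
  obtain ⟨s0, s, t, hst⟩ : ∃ s0 s t : A, ∀ j, Y j = s0 + s * ξ j + t * ξ j ^ 2 := by
    have h01 : ξ 0 - ξ 1 ≠ 0 := sub_ne_zero.2 fun h => by simpa using hξ h
    have h02 : ξ 0 - ξ 2 ≠ 0 := sub_ne_zero.2 fun h => by simpa using hξ h
    have h12 : ξ 1 - ξ 2 ≠ 0 := sub_ne_zero.2 fun h => by simpa using hξ h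
    set d1 := (Y 0 - Y 1) / (ξ 0 - ξ 1) with hd1
    set d2 := (Y 1 - Y 2) / (ξ 1 - ξ 2) with hd2
    set cc := (d1 - d2) / (ξ 0 - ξ 2) with hcc
    have e1 : d1 * (ξ 0 - ξ 1) = Y 0 - Y 1 := by rw [hd1]; field_simp
    have e2 : d2 * (ξ 1 - ξ 2) = Y 1 - Y 2 := by rw [hd2]; field_simp
    have e3 : cc * (ξ 0 - ξ 2) = d1 - d2 := by rw [hcc]; field_simp
    refine ⟨Y 0 - (d1 - cc * (ξ 0 + ξ 1)) * ξ 0 - cc * ξ 0 ^ 2, d1 - cc * (ξ 0 + ξ 1), cc, ?_⟩
    rw [forall3]
    refine ⟨by ring, ?_, ?_⟩
    · linear_combination e1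
    · linear_combination e1 + e2 - (ξ 1 - ξ 2) * e3
  rw [← hev s t]
  congr 1
  funext j
  have h1 := hst i
  rw [hY] at h1
  rw [hst j]
  linear_combination (-1 : A) * h1 + s * (-1 : A) * e1 + t * (-1 : A) * e2

end Vale.Agent.P287.H3
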