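import Vale.Agent.P287.H3.Sing

/-!
Some linear algebra.
-/

namespace Vale.Agent.P287.H3

variable {K Ω : Type*} [Field K] [Field Ω] [Algebra K Ω]

/-- Rational solutions of rational systems of linear equations. -/
lemma exists_ker (F : IntermediateField K Ω) {n m : ℕ} (hnm : m < n)
    (g : (Fin n → Ω) →ₗ[Ω] (Fin m → Ω)) (hg : ∀ v, (∀ i, v i ∈ F) → ∀ j, g v j ∈ F) :
    ∃ v : Fin n → Ω, (∀ i, v i ∈ F) ∧ v ≠ 0 ∧ g v = 0 := by
  let g' : (Fin n → F) →ₗ[F] (Fin m → F) :=
    { toFun := fun v j => ⟨g (fun i => (v i : Ω)) j, hg _ (fun i => (v i).2) j⟩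
      map_add' := by
        intro v w
        funext j
        apply Subtype.ext
        have : (fun i => ((v + w) i : Ω)) = (fun i => (v i : Ω)) + (fun i => (w i : Ω)) := by
          funext i; simp
        simp only [this, map_add]
        rfl
      map_smul' := by
        intro r v
        funext j
        apply Subtype.ext
        have : (fun i => ((r • v) i : Ω)) = (r : Ω) • (fun i => (v i : Ω)) := by
          funext i; simp
        simp only [this, map_smul]
        rfl }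
  have h1 : LinearMap.ker g' ≠ ⊥ := by
    apply LinearMap.ker_ne_bot_of_finrank_lt
    simpa using hnm
  obtain ⟨v, hv, hv0⟩ := Submodule.exists_mem_ne_zero_of_ne_bot h1
  refine ⟨fun i => (v i : Ω), fun i => (v i).2, ?_, ?_⟩
  · intro h
    apply hv0
    funext i
    apply Subtype.ext
    exact congrFun h i
  · funext j
    have h2 : g' v = 0 := hv
    have h3 := congrArg Subtype.val (congrFun h2 j)
    exact h3

/-- the cross product -/
def cr (a b : Fin 3 → Ω) : Fin 3 → Ω :=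
  ![a 1 * b 2 - a 2 * b 1, a 2 * b 0 - a 0 * b 2, a 0 * b 1 - a 1 * b 0]

lemma cr_mul (ρ a b : Fin 3 → Ω) : cr (ρ * a) (ρ * b) = sharp ρ * cr a b := by
  funext i
  fin_cases i <;> simp [cr, sharp] <;> ring

lemma orth_par {ρ a b : Fin 3 → Ω} (ha : tr (ρ * a) = 0) (hb : tr (ρ * b) = 0) (i j : Fin 3) :
    ρ i * cr a b j = ρ j * cr a b i := by
  simp only [tr, Pi.mul_apply] at ha hb
  fin_cases i <;> fin_cases j <;> simp [cr]
  · linear_combination (a 2) * hb - (b 2) * ha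
  · linear_combination (b 1) * ha - (a 1) * hb
  · linear_combination (b 2) * ha - (a 2) * hb
  · linear_combination (a 0) * hb - (b 0) * ha
  · linear_combination (a 1) * hb - (b 1) * ha
  · linear_combination (b 0) * ha - (a 0) * hb

lemma par_of_orth {ρ ρ' a b : Fin 3 → Ω} (hab : cr a b ≠ 0) (ha : tr (ρ * a) = 0)
    (hb : tr (ρ * b) = 0) (ha' : tr (ρ' * a) = 0) (hb' : tr (ρ' * b) = 0) (h0 : ρ' ≠ 0) :
    ∃ κ : Ω, ρ = κ • ρ' := by
  obtain ⟨j, hj⟩ : ∃ j, cr a b j ≠ 0 := by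
    by_contra h
    push Not at h
    exact hab (funext h)
  have h1 : ∀ i, ρ i = ρ j / cr a b j * cr a b i := by
    intro i
    have := orth_par ha hb i j
    field_simp
    linear_combination this
  have h2 : ∀ i, ρ' i = ρ' j / cr a b j * cr a b i := by
    intro i
    have := orth_par ha' hb' i j
    field_simp
    linear_combination this
  have h3 : ρ' j ≠ 0 := by
    intro h
    apply h0
    funext i
    rw [h2, h]
    simp
  refine ⟨ρ j / ρ' j, ?_⟩
  funext i
  rw [Pi.smul_apply, smul_eq_mul, h1 i, h2 i]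
  field_simp

/-- evaluation of coordinates -/
def Cub.ev (M : Cub K Ω) : (Fin 3 → Ω) →ₗ[Ω] (Fin 3 → Ω) where
  toFun r := fun i => r 0 + r 1 * M.ξ i + r 2 * M.ξ i ^ 2
  map_add' r s := by funext i; simp; ring
  map_smul' c r := by funext i; simp; ring

lemma Cub.ev_apply (M : Cub K Ω) (r : Fin 3 → Ω) (i : Fin 3) :
    M.ev r i = r 0 + r 1 * M.ξ i + r 2 * M.ξ i ^ 2 := rfl

lemma Cub.ev_mem {M : Cub K Ω} {F : IntermediateField K Ω} {r : Fin 3 → Ω} (hr : ∀ i, r i ∈ F) :
    M.ev r ∈ M.alg F := ⟨r 0, hr 0, r 1, hr 1, r 2, hr 2, fun _ => rfl⟩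

lemma Cub.ev_ne_zero {M : Cub K Ω} {r : Fin 3 → Ω} (hr : r ≠ 0) : M.ev r ≠ 0 := by
  intro h
  obtain ⟨h0, h1, h2⟩ := van M.inj (a := r 0) (b := r 1) (c := r 2) (fun i => congrFun h i)
  apply hr
  funext i
  fin_cases i <;> simp [h0, h1, h2]

/-- For `n` linear forms on `M_F` with values in `F`, `n < 3`, there is a common zero. -/
lemma Cub.exists_mem_ker (M : Cub K Ω) (F : IntermediateField K Ω) {n : ℕ} (hn : n < 3)
    (g : (Fin 3 → Ω) →ₗ[Ω] (Fin n → Ω)) (hg : ∀ v ∈ M.alg F, ∀ j, g v j ∈ F) :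
    ∃ v ∈ M.alg F, v ≠ 0 ∧ g v = 0 := by
  obtain ⟨r, h1, h2, h3⟩ := exists_ker F hn (g.comp M.ev) (fun v hv j => hg _ (Cub.ev_mem hv) j)
  exact ⟨M.ev r, Cub.ev_mem h1, Cub.ev_ne_zero h2, h3⟩

end Vale.Agent.P287.H3
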