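import Vale.Agent.P287.H3.Indep

/-!
The key theorem.
-/

namespace Vale.Agent.P287.H3

variable {K Ω : Type*} [Field K] [Field Ω] [Algebra K Ω] [CharZero Ω]

/-- Two cubes whose nine dimensional cubic forms are similar over `K` and anisotropic. -/
structure Link (K Ω : Type*) [Field K] [Field Ω] [Algebra K Ω] where
  M : Cub K Ω
  N : Cub K Ω
  c : Cube Ω
  c' : Cube Ω
  hc : c.Mem M ⊥
  hc' : c'.Mem N ⊥
  φ : J Ω ≃ₗ[Ω] J Ω
  hφ : ∀ (F : IntermediateField K Ω) (e : J Ω), JMem M F e ↔ JMem N F (φ e)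
  l : Ω
  sim : ∀ u, c'.NJ (φ u) = l * c.NJ u
  aniso : ∀ u, JMem N ⊥ u → c'.NJ u = 0 → u = 0

namespace Link

variable (L : Link K Ω)

/-- the functional attached to `(λ, μ)` -/
def fun2 (l m : Fin 3 → Ω) (u : J Ω) : Ω := tr (l * u.2.1 + m * u.2.2)

/-- Two independent rational functionals vanishing on both cubic algebras. -/
lemma exists_functionals : ∃ l1 ∈ L.N.alg ⊥, ∃ m1 ∈ L.N.alg ⊥, ∃ l2 ∈ L.N.alg ⊥,
    ∃ m2 ∈ L.N.alg ⊥, (∀ r1 ∈ (⊥ : IntermediateField K Ω), ∀ r2 ∈ (⊥ : IntermediateField K Ω),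
      r1 • l1 + r2 • l2 = 0 → r1 • m1 + r2 • m2 = 0 → r1 = 0 ∧ r2 = 0) ∧
    (∀ m : Fin 3 → Ω, fun2 l1 m1 (L.φ (m, 0, 0)) = 0) ∧
    (∀ m : Fin 3 → Ω, fun2 l2 m2 (L.φ (m, 0, 0)) = 0) := by
  -- coordinates of (λ, μ)
  let lv : (Fin 6 → Ω) → (Fin 3 → Ω) := fun k => L.N.ev ![k 0, k 1, k 2]
  let mv : (Fin 6 → Ω) → (Fin 3 → Ω) := fun k => L.N.ev ![k 3, k 4, k 5]
  have lv_add : ∀ k k', lv (k + k') = lv k + lv k' := by
    intro k k'
    simp only [lv, ← map_add]
    congr 1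
    funext i
    fin_cases i <;> simp
  have mv_add : ∀ k k', mv (k + k') = mv k + mv k' := by
    intro k k'
    simp only [mv, ← map_add]
    congr 1
    funext i
    fin_cases i <;> simp
  have lv_smul : ∀ (r : Ω) k, lv (r • k) = r • lv k := by
    intro r k
    simp only [lv, ← map_smul]
    congr 1
    funext i
    fin_cases i <;> simp
  have mv_smul : ∀ (r : Ω) k, mv (r • k) = r • mv k := by
    intro r k
    simp only [mv, ← map_smul]
    congr 1
    funext i
    fin_cases i <;> simp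
  -- the basis of M
  let θ : Fin 3 → (Fin 3 → Ω) := ![1, L.M.ξ, L.M.ξ ^ 2]
  have hθ : ∀ j, θ j ∈ L.M.alg ⊥ := by
    intro j
    fin_cases j
    · exact (L.M.alg ⊥).one_mem
    · exact Cub.xi_mem
    · exact (L.M.alg ⊥).pow_mem Cub.xi_mem 2
  have hJ : ∀ j, JMem L.N ⊥ (L.φ (θ j, 0, 0)) := fun j =>
    (L.hφ ⊥ _).1 ⟨hθ j, (L.M.alg ⊥).zero_mem, (L.M.alg ⊥).zero_mem⟩
  have hval : ∀ k, (∀ i, k i ∈ (⊥ : IntermediateField K Ω)) → ∀ j,
      fun2 (lv k) (mv k) (L.φ (θ j, 0, 0)) ∈ (⊥ : IntermediateField K Ω) := by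
    intro k hk j
    refine Cub.tr_mem (M := L.N) ((L.N.alg ⊥).add_mem ((L.N.alg ⊥).mul_mem ?_ (hJ j).2.1)
      ((L.N.alg ⊥).mul_mem ?_ (hJ j).2.2))
    · apply Cub.ev_mem
      intro i
      fin_cases i <;> exact hk _
    · apply Cub.ev_mem
      intro i
      fin_cases i <;> exact hk _
  have f_add : ∀ k k' u, fun2 (lv (k + k')) (mv (k + k')) u =
      fun2 (lv k) (mv k) u + fun2 (lv k') (mv k') u := by
    intro k k' u
    simp only [fun2, lv_add, mv_add, tr, Pi.add_apply, Pi.mul_apply]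
    ring
  have f_smul : ∀ (r : Ω) k u, fun2 (lv (r • k)) (mv (r • k)) u = r * fun2 (lv k) (mv k) u := by
    intro r k u
    simp only [fun2, lv_smul, mv_smul, tr, Pi.add_apply, Pi.mul_apply, Pi.smul_apply, smul_eq_mul]
    ring
  let g : (Fin 6 → Ω) →ₗ[Ω] (Fin 3 → Ω) :=
    { toFun := fun k j => fun2 (lv k) (mv k) (L.φ (θ j, 0, 0))
      map_add' := by intro k k'; funext j; simp only [f_add]; rfl
      map_smul' := by intro r k; funext j; simp only [f_smul]; rfl }
  obtain ⟨k1, hk1, hk1', hg1⟩ := exists_ker (K := K) ⊥ (by norm_num) g hval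
  obtain ⟨i0, hi0⟩ : ∃ i, k1 i ≠ 0 := by
    by_contra h
    push Not at h
    exact hk1' (funext h)
  let g2 : (Fin 6 → Ω) →ₗ[Ω] (Fin 4 → Ω) :=
    { toFun := fun k => Fin.cons (k i0) (g k)
      map_add' := by
        intro k k'
        funext j
        refine Fin.cases ?_ (fun j => ?_) j
        · simp
        · simp
      map_smul' := by
        intro r k
        funext j
        refine Fin.cases ?_ (fun j => ?_) j
        · simp
        · simp }
  obtain ⟨k2, hk2, hk2', hg2⟩ := exists_ker (K := K) ⊥ (by norm_num) g2 (by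
    intro v hv j
    refine Fin.cases ?_ (fun j => ?_) j
    · exact hv i0
    · exact hval v hv j)
  have hk20 : k2 i0 = 0 := congrFun hg2 0
  have hg2' : g k2 = 0 := by
    funext j
    exact congrFun hg2 j.succ
  -- vanishing on all of M
  have hM : ∀ k, g k = 0 → ∀ m : Fin 3 → Ω, fun2 (lv k) (mv k) (L.φ (m, 0, 0)) = 0 := by
    intro k hk m
    obtain ⟨a, b, c, habc, -⟩ := L.M.exists_coord m
    have hm : ((m, 0, 0) : J Ω) = a • ((θ 0, 0, 0) : J Ω) + b • ((θ 1, 0, 0) : J Ω) +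
        c • ((θ 2, 0, 0) : J Ω) := by
      simp only [Prod.smul_mk, smul_zero, Prod.mk_add_mk, add_zero, Prod.mk.injEq, and_true]
      funext i
      rw [habc]
      simp [θ]
    have h0 : fun2 (lv k) (mv k) (L.φ (θ 0, 0, 0)) = 0 := congrFun hk 0
    have h1 : fun2 (lv k) (mv k) (L.φ (θ 1, 0, 0)) = 0 := congrFun hk 1
    have h2 : fun2 (lv k) (mv k) (L.φ (θ 2, 0, 0)) = 0 := congrFun hk 2
    rw [hm, map_add, map_add, map_smul, map_smul, map_smul]
    have e : ∀ (u v w : J Ω), fun2 (lv k) (mv k) (a • u + b • v + c • w) =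
        a * fun2 (lv k) (mv k) u + b * fun2 (lv k) (mv k) v + c * fun2 (lv k) (mv k) w := by
      intro u v w
      simp [fun2, tr]
      ring
    rw [e, h0, h1, h2]
    ring
  refine ⟨lv k1, ?_, mv k1, ?_, lv k2, ?_, mv k2, ?_, ?_, hM k1 hg1, hM k2 hg2'⟩
  · apply Cub.ev_mem
    intro i
    fin_cases i <;> exact hk1 _
  · apply Cub.ev_mem
    intro i
    fin_cases i <;> exact hk1 _
  · apply Cub.ev_mem
    intro i
    fin_cases i <;> exact hk2 _
  · apply Cub.ev_mem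
    intro i
    fin_cases i <;> exact hk2 _
  · intro r1 _ r2 _ h1 h2
    rw [← lv_smul, ← lv_smul, ← lv_add] at h1
    rw [← mv_smul, ← mv_smul, ← mv_add] at h2
    have hz : r1 • k1 + r2 • k2 = 0 := by
      set k := r1 • k1 + r2 • k2 with hk
      obtain ⟨a0, a1, a2⟩ := van L.N.inj (a := k 0) (b := k 1) (c := k 2)
        (fun i => congrFun h1 i)
      obtain ⟨a3, a4, a5⟩ := van L.N.inj (a := k 3) (b := k 4) (c := k 5)
        (fun i => congrFun h2 i)
      funext i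
      fin_cases i <;> assumption
    have e0 := congrFun hz i0
    rw [Pi.add_apply, Pi.smul_apply, Pi.smul_apply, hk20, smul_zero, add_zero, smul_eq_mul,
      Pi.zero_apply] at e0
    have hr1 := (mul_eq_zero.1 e0).resolve_right hi0
    refine ⟨hr1, ?_⟩
    rw [hr1, zero_smul, zero_add] at hz
    exact (smul_eq_zero.1 hz).resolve_right hk2'

end Link

end Vale.Agent.P287.H3
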