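import Vale.Agent.P287.H3.Cube
import Vale.Agent.P287.H3.Coord

/-!
Rationality of the covariants of a cube over a cubic algebra.
-/

namespace Vale.Agent.P287.H3

variable {K Ω : Type*} [Field K] [Field Ω] [Algebra K Ω] [CharZero Ω]

namespace Cube

/-- The cube `c` has entries in `F ⊕ M_F ⊕ M_F ⊕ F`. -/
structure Mem (c : Cube Ω) (M : Cub K Ω) (F : IntermediateField K Ω) : Prop where
  a : c.a ∈ F
  b : c.b ∈ F
  α : c.α ∈ M.alg F
  β : c.β ∈ M.alg F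

variable {c : Cube Ω} {M : Cub K Ω} {F : IntermediateField K Ω}

lemma Mem.mono (h : c.Mem M F) {F' : IntermediateField K Ω} (hF : F ≤ F') : c.Mem M F' :=
  ⟨hF h.a, hF h.b, Cub.mono hF h.α, Cub.mono hF h.β⟩

lemma two_mem (F : IntermediateField K Ω) : (2 : Ω) ∈ F := by exact_mod_cast F.natCast_mem 2

lemma Mem.P (h : c.Mem M F) : c.P ∈ M.alg F :=
  (M.alg F).sub_mem (Cub.sharp_mem h.α) (Cub.smul_mem' h.a h.β)

lemma Mem.R (h : c.Mem M F) : c.R ∈ M.alg F :=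
  (M.alg F).sub_mem (Cub.sharp_mem h.β) (Cub.smul_mem' h.b h.α)

lemma Mem.Qm (h : c.Mem M F) : c.Qm ∈ M.alg F := by
  have h1 := (M.alg F).mul_mem h.α h.β
  exact (M.alg F).sub_mem ((M.alg F).sub_mem (Cub.const_mem (Cub.tr_mem h1))
    (Cub.smul_mem' (two_mem F) h1)) (Cub.const_mem (F.mul_mem h.a h.b))

lemma Mem.disc (h : c.Mem M F) : c.disc ∈ F := by
  have h1 := (M.alg F).mul_mem h.α h.β
  have h2 := two_mem F
  have h4 : (4 : Ω) ∈ F := by exact_mod_cast F.natCast_mem 4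
  rw [disc_eq']
  exact F.add_mem (F.add_mem (F.sub_mem (F.add_mem (F.sub_mem
    (F.mul_mem (pow_mem h.a 2) (pow_mem h.b 2))
    (F.mul_mem (F.mul_mem (F.mul_mem h2 h.a) h.b) (Cub.tr_mem h1)))
    (F.mul_mem h2 (Cub.tr_mem ((M.alg F).mul_mem h1 h1)))) (pow_mem (Cub.tr_mem h1) 2))
    (F.mul_mem (F.mul_mem h4 h.a) (Cub.nm_mem h.β)))
    (F.mul_mem (F.mul_mem h4 h.b) (Cub.nm_mem h.α))

variable {y z : Fin 3 → Ω}

lemma Mem.Q (h : c.Mem M F) (hy : y ∈ M.alg F) (hz : z ∈ M.alg F) : c.Q y z ∈ M.alg F :=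
  (M.alg F).add_mem ((M.alg F).add_mem ((M.alg F).mul_mem h.P ((M.alg F).pow_mem hy 2))
    ((M.alg F).mul_mem h.Qm ((M.alg F).mul_mem hy hz)))
    ((M.alg F).mul_mem h.R ((M.alg F).pow_mem hz 2))

lemma Mem.Sy (h : c.Mem M F) (hy : y ∈ M.alg F) (hz : z ∈ M.alg F) : c.Sy y z ∈ M.alg F :=
  (M.alg F).add_mem ((M.alg F).mul_mem h.Qm hy)
    (Cub.smul_mem' (two_mem F) ((M.alg F).mul_mem h.R hz))

lemma Mem.Sz (h : c.Mem M F) (hy : y ∈ M.alg F) (hz : z ∈ M.alg F) : c.Sz y z ∈ M.alg F :=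
  (M.alg F).neg_mem ((M.alg F).add_mem (Cub.smul_mem' (two_mem F) ((M.alg F).mul_mem h.P hy))
    ((M.alg F).mul_mem h.Qm hz))

lemma Cy_eq_sharp (c : Cube Ω) (y z : Fin 3 → Ω) : c.Cy y z = c.a • sharp y +
    (sharp (c.α * z + y) - sharp (c.α * z) - sharp y) + c.β * sharp z := by
  funext i
  fin_cases i <;> simp [Cy, C3, sharp] <;> ring

lemma Cz_eq_sharp (c : Cube Ω) (y z : Fin 3 → Ω) : c.Cz y z = c.b • sharp z +
    (sharp (c.β * y + z) - sharp (c.β * y) - sharp z) + c.α * sharp y := by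
  funext i
  fin_cases i <;> simp [Cz, C3, sharp] <;> ring

lemma Mem.Cy (h : c.Mem M F) (hy : y ∈ M.alg F) (hz : z ∈ M.alg F) : c.Cy y z ∈ M.alg F := by
  rw [Cy_eq_sharp]
  have h1 := (M.alg F).mul_mem h.α hz
  exact (M.alg F).add_mem ((M.alg F).add_mem (Cub.smul_mem' h.a (Cub.sharp_mem hy))
    ((M.alg F).sub_mem ((M.alg F).sub_mem (Cub.sharp_mem ((M.alg F).add_mem h1 hy))
      (Cub.sharp_mem h1)) (Cub.sharp_mem hy))) ((M.alg F).mul_mem h.β (Cub.sharp_mem hz))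

lemma Mem.Cz (h : c.Mem M F) (hy : y ∈ M.alg F) (hz : z ∈ M.alg F) : c.Cz y z ∈ M.alg F := by
  rw [Cz_eq_sharp]
  have h1 := (M.alg F).mul_mem h.β hy
  exact (M.alg F).add_mem ((M.alg F).add_mem (Cub.smul_mem' h.b (Cub.sharp_mem hz))
    ((M.alg F).sub_mem ((M.alg F).sub_mem (Cub.sharp_mem ((M.alg F).add_mem h1 hz))
      (Cub.sharp_mem h1)) (Cub.sharp_mem hz))) ((M.alg F).mul_mem h.α (Cub.sharp_mem hy))

lemma Mem.C (h : c.Mem M F) (hy : y ∈ M.alg F) (hz : z ∈ M.alg F) : c.C y z ∈ F := by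
  have h3 : (3 : Ω) ∈ F := by exact_mod_cast F.natCast_mem 3
  have e : c.C y z = tr (y * c.Cy y z + z * c.Cz y z) / 3 := by
    have h0 := c.euler y z 0
    have h1 := c.euler y z 1
    have h2 := c.euler y z 2
    simp only [tr, Pi.add_apply, Pi.mul_apply]
    rw [h0, h1, h2]; ring
  rw [e]
  exact F.div_mem (Cub.tr_mem ((M.alg F).add_mem ((M.alg F).mul_mem hy (h.Cy hy hz))
    ((M.alg F).mul_mem hz (h.Cz hy hz)))) h3

lemma Mem.Cs (h : c.Mem M F) (hy : y ∈ M.alg F) (hz : z ∈ M.alg F) : c.Cs y z ∈ F := by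
  have h3 : (3 : Ω) ∈ F := by exact_mod_cast F.natCast_mem 3
  have e : c.Cs y z = tr (c.Sy y z * c.Cy y z + c.Sz y z * c.Cz y z) / 3 := by
    have h0 := c.euler_S y z 0
    have h1 := c.euler_S y z 1
    have h2 := c.euler_S y z 2
    simp only [tr, Pi.add_apply, Pi.mul_apply]
    rw [h0, h1, h2]; ring
  rw [e]
  exact F.div_mem (Cub.tr_mem ((M.alg F).add_mem ((M.alg F).mul_mem (h.Sy hy hz) (h.Cy hy hz))
    ((M.alg F).mul_mem (h.Sz hy hz) (h.Cz hy hz)))) h3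

end Cube

end Vale.Agent.P287.H3
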