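import Vale.Agent.P287.H3.NetPoint
import Vale.Agent.P287.H3.EmbGen
import Vale.Agent.P287.H3.Iso3

/-!
Existence of the cube of a net of type `G₂`.
-/

namespace Vale.Agent.P287.H3

open MvPolynomial H925

section

variable (B : NetG2) {R : Type*} [CommRing R] [Algebra ℂ R]

/-- coefficients -/
def NetG2.ko (t : Fin 3 → R) (i : Fin 4) : R := ∑ j, t j * algebraMap ℂ R (B.k j i)

def NetG2.go (t : Fin 3 → R) (i : Fin 3) : R := ∑ j, t j * algebraMap ℂ R (B.g j i)

def NetG2.cc (t : Fin 3 → R) : R := ∑ j, t j * algebraMap ℂ R (B.c j)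

lemma NetG2.sum_Phi2 (t : Fin 3 → R) (n : Fin 4 → R) : ∑ j, t j * B.Phi2 j n =
    B.cc t + ∑ i, B.ko t i * n i + ∑ i, B.go t i * hess n i + ∑ i, B.co t i * cov n i := by
  simp only [NetG2.Phi2, NetG2.co, NetG2.ko, NetG2.go, NetG2.cc, Fin.sum_univ_three,
    Fin.sum_univ_four]
  ring

end

variable {K N : Type*} [Field K] [Field N] [Algebra K N] [CharZero K]

/-- the coordinates of the cubic field of the net -/
noncomputable def tmap (θ : N) : N →ₗ[K] (Fin 3 → K) :=
  LinearMap.pi fun i => (Algebra.trace K N).comp (LinearMap.mulRight K (θ ^ (i : ℕ)))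

omit [CharZero K] in
lemma tmap_apply (θ ξ : N) (i : Fin 3) : tmap (K := K) θ ξ i = Algebra.trace K N (ξ * θ ^ (i : ℕ)) := rfl

/-- the element `(s - θ)² - 4 θ^#` -/
noncomputable def del (K : Type*) {N : Type*} [Field K] [Field N] [Algebra K N] (θ : N) : N :=
  (algebraMap K N (Algebra.trace K N θ) - θ) ^ 2 - 4 * adj K θ

/-- the cube of a net -/
noncomputable def netCube (θ : N) (ct F3 κ : K) (k : Fin 4 → K) (g : Fin 3 → K) : CubeData K N where
  a := ct + k 3 * κ
  α := algebraMap K N (k 0) + algebraMap K N (k 1) * θ + algebraMap K N (k 2) * θ ^ 2 +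
    algebraMap K N (k 3) * θ ^ 3 + algebraMap K N κ * (algebraMap K N (g 1) +
      algebraMap K N (g 2) * θ) - algebraMap K N (κ ^ 2 * F3)
  β := del K θ * (algebraMap K N (g 0) + algebraMap K N (g 1) *
    (algebraMap K N (Algebra.trace K N θ) - θ) + algebraMap K N (g 2) * adj K θ -
    algebraMap K N (κ * F3) * (algebraMap K N (Algebra.trace K N θ) - 3 * θ))
  b := 2 * F3 * Algebra.norm K (del K θ)

theorem netCube_spec (h3 : Module.finrank K N = 3) {θ : N} (hθ : IntermediateField.adjoin K {θ} = ⊤)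
    {F : Fin 4 → K} (hroot : algebraMap K N (F 0) + algebraMap K N (F 1) * θ +
      algebraMap K N (F 2) * θ ^ 2 + algebraMap K N (F 3) * θ ^ 3 = 0) (hF3 : F 3 ≠ 0)
    (ct h : K) (k : Fin 4 → K) (g : Fin 3 → K) :
    Function.Injective (tmap (K := K) θ) ∧ ∀ (n : Fin 4 → K) (ξ : N),
      F 0 * n 0 + F 1 * n 1 + F 2 * n 2 + F 3 * n 3 - h = 0 →
      tmap θ ξ = ![n 0, n 1, n 2] → ct + ∑ i, k i * n i + ∑ i, g i * hess n i + ∑ i, F i * cov n i =
        (netCube θ ct (F 3) (h / F 3) k g).surf ξ := by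
  obtain ⟨e, he⟩ := exists_emb_gen (Ω := AlgebraicClosure K) h3 hθ
  have : CharZero (AlgebraicClosure K) :=
    charZero_of_injective_algebraMap (algebraMap K (AlgebraicClosure K)).injective
  set z := e.C.ξ with hz
  have hzv : e.vec θ = z := by
    funext i
    rw [hz, e.ξ, he]
    rfl
  have hinj : Function.Injective (tmap (K := K) θ) := by
    rw [injective_iff_map_eq_zero]
    intro ξ hξ
    have h1 : ∀ i : Fin 3, tr (e.vec ξ * z ^ (i : ℕ)) = 0 := by
      intro i
      have h2 := congrArg (algebraMap K (AlgebraicClosure K)) (congrFun hξ i)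
      rw [tmap_apply, Pi.zero_apply, map_zero, ← e.tr_vec, e.vec_mul] at h2
      have h4 : e.vec (θ ^ (i : ℕ)) = z ^ (i : ℕ) := by
        funext j
        rw [← hzv]
        simp
      rw [h4] at h2
      exact h2
    have h5 : e.vec ξ = 0 := by
      apply eq_zero_of_tr e.C
      · simpa using h1 0
      · simpa using h1 1
      · simpa using h1 2
    exact e.vec_injective (by rw [h5, map_zero])
  refine ⟨hinj, ?_⟩
  intro n ξ hn hξ
  apply (algebraMap K (AlgebraicClosure K)).injective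
  rw [← e.G_vec]
  set r := e.vec ξ with hr
  set am := algebraMap K (AlgebraicClosure K) with ham
  -- Vieta
  have hr0 : ∀ i, am (F 0) + am (F 1) * z i + am (F 2) * z i ^ 2 + am (F 3) * z i ^ 3 = 0 := by
    intro i
    have h1 := congrArg (e.σ i) hroot
    rw [map_zero] at h1
    rw [← h1, ← hzv]
    simp [ham]
  have hF3' : am (F 3) ≠ 0 := by
    intro h0
    exact hF3 ((map_eq_zero am).1 h0)
  obtain ⟨v0, v1, v2⟩ := van e.C.inj (a := am (F 0) + am (F 3) * (z 0 * z 1 * z 2))
    (b := am (F 1) - am (F 3) * (z 0 * z 1 + z 0 * z 2 + z 1 * z 2))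
    (c := am (F 2) + am (F 3) * (z 0 + z 1 + z 2)) (by
      intro i
      have h1 := hr0 i
      have h2 : (z i - z 0) * (z i - z 1) * (z i - z 2) = 0 := by
        fin_cases i <;> simp
      linear_combination h1 - am (F 3) * h2)
  have w0 : am (F 0) = -(am (F 3) * (z 0 * z 1 * z 2)) := by linear_combination v0
  have w1 : am (F 1) = am (F 3) * (z 0 * z 1 + z 0 * z 2 + z 1 * z 2) := by linear_combination v1
  have w2 : am (F 2) = -(am (F 3) * (z 0 + z 1 + z 2)) := by linear_combination v2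
  -- the coordinates of n
  have hn' : ∀ i : Fin 3, am ((![n 0, n 1, n 2] : Fin 3 → K) i) = tr (r * z ^ (i : ℕ)) := by
    intro i
    rw [← hξ, tmap_apply, ham, ← e.tr_vec, e.vec_mul]
    have h4 : e.vec (θ ^ (i : ℕ)) = z ^ (i : ℕ) := by
      funext j
      rw [← hzv]
      simp
    rw [h4]
  have n0 : am (n 0) = r 0 + r 1 + r 2 := by
    have := hn' 0
    simpa [tr] using this
  have n1 : am (n 1) = r 0 * z 0 + r 1 * z 1 + r 2 * z 2 := by
    have := hn' 1
    simpa [tr] using this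
  have n2 : am (n 2) = r 0 * z 0 ^ 2 + r 1 * z 1 ^ 2 + r 2 * z 2 ^ 2 := by
    have := hn' 2
    simpa [tr] using this
  obtain ⟨κ, hκ⟩ : ∃ κ, κ = am (h / F 3) := ⟨_, rfl⟩
  have n3 : am (n 3) = r 0 * z 0 ^ 3 + r 1 * z 1 ^ 3 + r 2 * z 2 ^ 3 + κ := by
    have h1 : am (F 3) * am (n 3) = am h - am (F 0) * am (n 0) - am (F 1) * am (n 1) -
        am (F 2) * am (n 2) := by
      have h2 := congrArg am hn
      simp only [map_sub, map_add, map_mul, map_zero] at h2
      linear_combination h2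
    have h3 : am (F 3) * κ = am h := by
      rw [hκ, map_div₀]
      field_simp
    have h4 : am (F 3) * (am (n 3) - (r 0 * z 0 ^ 3 + r 1 * z 1 ^ 3 + r 2 * z 2 ^ 3 + κ)) = 0 := by
      rw [n0, n1, n2] at h1
      linear_combination h1 - h3 - r 0 * hr0 0 - r 1 * hr0 1 - r 2 * hr0 2
    exact sub_eq_zero.1 ((mul_eq_zero.1 h4).resolve_left hF3')
  -- the cube
  have hs : am (Algebra.trace K N θ) = z 0 + z 1 + z 2 := by
    rw [ham, ← e.tr_vec, hzv]
    rfl
  have hdel : e.vec (del K θ) = fun i => (z 0 + z 1 + z 2 - z i) ^ 2 - 4 * sharp z i := by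
    funext i
    have h1 : e.vec (adj K θ) i = sharp z i := by rw [e.vec_adj, hzv]
    rw [e.vec_apply] at h1
    have h2 : e.σ i θ = z i := by rw [← hzv]; rfl
    rw [e.vec_apply, del]
    simp only [map_sub, map_mul, map_pow, AlgHom.commutes, h1, h2, map_ofNat]
    rw [← ham, hs]
  have hσ : ∀ i, e.σ i θ = z i := fun i => by rw [← hzv]; rfl
  have hα : ∀ i, (e.cube (netCube θ ct (F 3) (h / F 3) k g)).α i = am (k 0) + am (k 1) * z i +
      am (k 2) * z i ^ 2 + am (k 3) * z i ^ 3 + κ * (am (g 1) + am (g 2) * z i) -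
      κ ^ 2 * am (F 3) := by
    intro i
    change e.σ i _ = _
    simp only [netCube, map_sub, map_add, map_mul, map_pow, AlgHom.commutes, hσ]
    rw [hκ]
  have hβ : ∀ i, (e.cube (netCube θ ct (F 3) (h / F 3) k g)).β i =
      ((z 0 + z 1 + z 2 - z i) ^ 2 - 4 * sharp z i) * (am (g 0) + am (g 1) *
      (z 0 + z 1 + z 2 - z i) + am (g 2) * sharp z i - κ * am (F 3) *
        (z 0 + z 1 + z 2 - 3 * z i)) := by
    intro i
    have h1 : e.vec (adj K θ) i = sharp z i := by rw [e.vec_adj, hzv]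
    rw [e.vec_apply] at h1
    have h2 := congrFun hdel i
    rw [e.vec_apply] at h2
    change e.σ i _ = _
    simp only [netCube, map_sub, map_add, map_mul, AlgHom.commutes, hσ, h1, h2, map_ofNat]
    rw [hκ, ← hs]
  have ha : (e.cube (netCube θ ct (F 3) (h / F 3) k g)).a = am ct + am (k 3) * κ := by
    change am _ = _
    simp only [netCube, map_add, map_mul]
    rw [hκ]
  have hb : (e.cube (netCube θ ct (F 3) (h / F 3) k g)).b = 2 * am (F 3) *
      nm (fun i => (z 0 + z 1 + z 2 - z i) ^ 2 - 4 * sharp z i) := by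
    change am _ = _
    simp only [netCube, map_mul, map_ofNat]
    rw [ham, ← e.nm_vec, hdel]
  rw [Cube.G]
  simp only [tr, Pi.mul_apply, hα, hβ, ha, hb]
  simp only [nm, sharp0, sharp1, sharp2]
  simp only [map_add, map_mul, map_sum, Fin.sum_univ_four, Fin.sum_univ_three, hess, cov,
    Matrix.cons_val_zero, Matrix.cons_val_one, Matrix.cons_val, map_sub, map_pow, map_neg, map_ofNat]
  rw [n0, n1, n2, n3, w0, w1, w2]
  ring

end Vale.Agent.P287.H3
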