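import Vale.Agent.P287.H3.NetCube

/-!
Existence of the cubic field and the cube of a net of type `G₂`.
-/

namespace Vale.Agent.P287.H3

open Polynomial

/-- the generic binary cubic of the net, in one variable -/
noncomputable def NetG2.gpoly (B : NetG2) : KK[X] := ∑ i : Fin 4, C (B.co tvec i) * X ^ (i : ℕ)

lemma NetG2.coeff_gpoly (B : NetG2) : B.gpoly.coeff 3 = B.co tvec 3 := by
  simp [NetG2.gpoly, Fin.sum_univ_four]

lemma NetG2.aeval_gpoly (B : NetG2) {N : Type*} [CommRing N] [Algebra KK N] (θ : N) :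
    aeval θ B.gpoly = algebraMap KK N (B.co tvec 0) + algebraMap KK N (B.co tvec 1) * θ +
      algebraMap KK N (B.co tvec 2) * θ ^ 2 + algebraMap KK N (B.co tvec 3) * θ ^ 3 := by
  simp [NetG2.gpoly, Fin.sum_univ_four]

theorem exists_netCube (B : NetG2) (hirr : Irreducible B.gpoly) (hdeg : B.gpoly.natDegree = 3) :
    ∃ (N : Type) (_ : Field N) (_ : Algebra KK N) (ι' : (Fin 3 → KK) ≃ₗ[KK] N)
      (c' : CubeData KK N), ∀ n : Fin 4 → KK, ∑ j, tvec j * B.Phi1 j n = 0 →
        ∑ j, tvec j * B.Phi2 j n = c'.surf (ι' ![n 0, n 1, n 2]) := by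
  have hfact : Fact (Irreducible B.gpoly) := ⟨hirr⟩
  have : CharZero KK := charZero_of_injective_algebraMap (algebraMap ℂ KK).injective
  have h3 : Module.finrank KK (AdjoinRoot B.gpoly) = 3 := by
    rw [(AdjoinRoot.powerBasis hirr.ne_zero).finrank, AdjoinRoot.powerBasis_dim, hdeg]
  have hfd : FiniteDimensional KK (AdjoinRoot B.gpoly) :=
    FiniteDimensional.of_finrank_pos (by omega)
  have hroot : algebraMap KK (AdjoinRoot B.gpoly) (B.co tvec 0) +
      algebraMap KK (AdjoinRoot B.gpoly) (B.co tvec 1) * AdjoinRoot.root B.gpoly +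
      algebraMap KK (AdjoinRoot B.gpoly) (B.co tvec 2) * AdjoinRoot.root B.gpoly ^ 2 +
      algebraMap KK (AdjoinRoot B.gpoly) (B.co tvec 3) * AdjoinRoot.root B.gpoly ^ 3 = 0 := by
    have h1 : aeval (AdjoinRoot.root B.gpoly) B.gpoly = 0 := by
      rw [aeval_def]
      exact AdjoinRoot.eval₂_root B.gpoly
    exact (B.aeval_gpoly (AdjoinRoot.root B.gpoly)).symm.trans h1
  have hF3 : B.co tvec 3 ≠ 0 := by
    rw [← B.coeff_gpoly]
    intro h0
    apply hirr.ne_zero
    rw [← leadingCoeff_eq_zero, leadingCoeff, hdeg, h0]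
  obtain ⟨hinj, hcube⟩ := netCube_spec h3 (IntermediateField.adjoin_root_eq_top B.gpoly)
    (F := B.co tvec) hroot hF3 (B.cc tvec) (B.ho tvec) (B.ko tvec) (B.go tvec)
  let ψ := LinearMap.linearEquivOfInjective (tmap (K := KK) (AdjoinRoot.root B.gpoly)) hinj
    (by rw [h3]; simp)
  refine ⟨AdjoinRoot B.gpoly, inferInstance, inferInstance, ψ.symm,
    netCube (AdjoinRoot.root B.gpoly) (B.cc tvec) (B.co tvec 3) (B.ho tvec / B.co tvec 3)
      (B.ko tvec) (B.go tvec), fun n hn => ?_⟩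
  rw [B.sum_Phi2]
  refine hcube n (ψ.symm ![n 0, n 1, n 2]) ?_ ?_
  · rw [B.sum_Phi1] at hn
    exact hn
  · exact ψ.apply_symm_apply _

end Vale.Agent.P287.H3
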