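import Vale.Agent.P287.H3.Mem

/-!
Singular (rank one) elements of the cubic forms in nine variables.
-/

namespace Vale.Agent.P287.H3

/-- The space of the cubic form. -/
abbrev J (Ω : Type*) : Type _ := (Fin 3 → Ω) × (Fin 3 → Ω) × (Fin 3 → Ω)

variable {Ω : Type*} [Field Ω]

namespace Cube

variable (c : Cube Ω)

def NJ (e : J Ω) : Ω := c.N e.1 e.2.1 e.2.2

/-- the derivative of the cubic form -/
def dN (e u : J Ω) : Ω :=
  tr (fun i => u.1 i * (c.disc * sharp e.1 i + c.Q e.2.1 e.2.2 i)) +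
  tr (fun i => u.2.1 i * (e.1 i * (2 * (c.P i * e.2.1 i) + c.Qm i * e.2.2 i) +
    c.Cy e.2.1 e.2.2 i)) +
  tr (fun i => u.2.2 i * (e.1 i * (c.Qm i * e.2.1 i + 2 * (c.R i * e.2.2 i)) +
    c.Cz e.2.1 e.2.2 i))

lemma NJ_add (e u : J Ω) : c.NJ (e + u) = c.NJ e + c.dN e u + c.dN u e + c.NJ u := by
  obtain ⟨m, y, z⟩ := e
  obtain ⟨m', y', z'⟩ := u
  simp [NJ, N, dN, tr, nm, sharp, Q, C, Cy, Cz, C3]
  ring

lemma NJ_sub (e u : J Ω) : c.NJ (e - u) = c.NJ e - c.dN e u + c.dN u e - c.NJ u := by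
  obtain ⟨m, y, z⟩ := e
  obtain ⟨m', y', z'⟩ := u
  simp [NJ, N, dN, tr, nm, sharp, Q, C, Cy, Cz, C3]
  ring

/-- singular elements -/
structure Sing (m y z : Fin 3 → Ω) : Prop where
  s1 : ∀ i, c.disc * sharp m i + c.Q y z i = 0
  s2 : ∀ i, m i * (2 * (c.P i * y i) + c.Qm i * z i) + c.Cy y z i = 0
  s3 : ∀ i, m i * (c.Qm i * y i + 2 * (c.R i * z i)) + c.Cz y z i = 0

lemma sing_iff (e : J Ω) : c.Sing e.1 e.2.1 e.2.2 ↔ ∀ u, c.dN e u = 0 := by
  constructor
  · rintro ⟨h1, h2, h3⟩ u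
    simp only [dN, tr, h1, h2, h3]
    ring
  · intro h
    refine ⟨fun i => ?_, fun i => ?_, fun i => ?_⟩
    · have := h (Pi.single i 1, 0, 0)
      fin_cases i <;> simpa [dN, tr] using this
    · have := h (0, Pi.single i 1, 0)
      fin_cases i <;> simpa [dN, tr] using this
    · have := h (0, 0, Pi.single i 1)
      fin_cases i <;> simpa [dN, tr] using this

variable {c}

lemma dN_similar [CharZero Ω] {c' : Cube Ω} {φ : J Ω →ₗ[Ω] J Ω} {l : Ω}
    (h : ∀ u, c'.NJ (φ u) = l * c.NJ u) (e u : J Ω) : c'.dN (φ e) (φ u) = l * c.dN e u := by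
  have h1 := h (e + u)
  have h2 := h (e - u)
  have h3 := h u
  rw [map_add, NJ_add, NJ_add] at h1
  rw [map_sub, NJ_sub, NJ_sub] at h2
  have h4 : 2 * c'.dN (φ e) (φ u) = 2 * (l * c.dN e u) := by
    linear_combination h1 - h2 - 2 * h3
  exact mul_left_cancel₀ two_ne_zero h4

lemma Sing.map [CharZero Ω] {c' : Cube Ω} {φ : J Ω →ₗ[Ω] J Ω} (hφ : Function.Surjective φ) {l : Ω}
    (h : ∀ u, c'.NJ (φ u) = l * c.NJ u) {e : J Ω} (he : c.Sing e.1 e.2.1 e.2.2) :
    c'.Sing (φ e).1 (φ e).2.1 (φ e).2.2 := by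
  rw [sing_iff] at he ⊢
  intro u
  obtain ⟨u, rfl⟩ := hφ u
  rw [dN_similar h, he, mul_zero]

/-- a singular element has vanishing covariant -/
lemma Sing.cs {m y z : Fin 3 → Ω} (h : c.Sing m y z) : c.Cs y z = 0 := by
  rw [← c.euler_S y z 0]
  have h2 := h.s2 0
  have h3 := h.s3 0
  simp only [Sy, Sz]
  linear_combination (c.Qm 0 * y 0 + 2 * (c.R 0 * z 0)) * h2 -
    (2 * (c.P 0 * y 0) + c.Qm 0 * z 0) * h3

lemma Sing.c2 {m y z : Fin 3 → Ω} (h : c.Sing m y z) (i : Fin 3) :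
    c.C y z + 2 * (m i * c.Q y z i) = 0 := by
  rw [← c.euler y z i]
  have h2 := h.s2 i
  have h3 := h.s3 i
  simp only [Q]
  linear_combination y i * h2 + z i * h3

/-- The singular element attached to a point of the surface and a multiplier. -/
lemma sing_of_C [CharZero Ω] {y z ρ : Fin 3 → Ω} (hC : c.C y z = 0) (hQ : ∀ i, c.Q y z i ≠ 0)
    (hρ : ∀ i, ρ i ≠ 0) :
    c.Sing (fun i => nm ρ * c.Cs y z / (2 * ρ i ^ 2 * c.Q y z i)) (ρ * c.Sy y z)
      (ρ * c.Sz y z) := by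
  have hs := c.syzygy y z
  rw [hC] at hs
  have h0 := hQ 0
  have h1 := hQ 1
  have h2 := hQ 2
  have r0 := hρ 0
  have r1 := hρ 1
  have r2 := hρ 2
  have hs' : c.Cs y z ^ 2 = 4 * (c.Q y z 0 * c.Q y z 1 * c.Q y z 2) := by
    rw [hs, nm]; ring
  refine ⟨fun i => ?_, fun i => ?_, fun i => ?_⟩
  · rw [Q_smul, Q_S]
    fin_cases i
    · simp [sharp, nm]
      field_simp
      linear_combination (c.disc * ρ 0 ^ 2) * hs'
    · simp [sharp, nm]
      field_simp
      linear_combination (c.disc * ρ 1 ^ 2) * hs'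
    · simp [sharp, nm]
      field_simp
      linear_combination (c.disc * ρ 2 ^ 2) * hs'
  · have e1 := congrFun (c.Sz_S y z) i
    have e2 := c.Cy_eq y z i
    rw [hC] at e2
    simp only [Pi.smul_apply, smul_eq_mul, Sz] at e1
    rw [Cy_smul, Cy_S]
    have h := hQ i
    have r := hρ i
    have e3 : c.Cy y z i = c.Cs y z * z i / (2 * c.Q y z i) := by
      field_simp
      linear_combination e2
    have e4 : 2 * (c.P i * (ρ * c.Sy y z) i) + c.Qm i * (ρ * c.Sz y z) i =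
        -(ρ i * (c.disc * z i)) := by
      rw [← e1, Pi.mul_apply, Pi.mul_apply, Sz]; ring
    have e5 : nm ρ = ρ i * sharp ρ i := (mul_sharp ρ i).symm
    rw [e4, e3, e5]
    field_simp
    ring
  · have e1 := congrFun (c.Sy_S y z) i
    have e2 := c.Cz_eq y z i
    rw [hC] at e2
    simp only [Pi.smul_apply, smul_eq_mul, Sy] at e1
    rw [Cz_smul, Cz_S]
    have h := hQ i
    have r := hρ i
    have e3 : c.Cz y z i = -(c.Cs y z * y i) / (2 * c.Q y z i) := by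
      field_simp
      linear_combination e2
    have e4 : c.Qm i * (ρ * c.Sy y z) i + 2 * (c.R i * (ρ * c.Sz y z) i) =
        ρ i * (c.disc * y i) := by
      rw [← e1, Pi.mul_apply, Pi.mul_apply, Sy]; ring
    have e5 : nm ρ = ρ i * sharp ρ i := (mul_sharp ρ i).symm
    rw [e4, e3, e5]
    field_simp
    ring

end Cube

end Vale.Agent.P287.H3
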