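import Vale.Agent.P287.H3.SingPoly

/-!
The generic fibre of a smooth cubic fourfold has no singular point off the origin.
-/

namespace Vale.Agent.P287.H3

open MvPolynomial TrivSqZeroExt

/-- polynomials over the function field of the plane -/
abbrev RR : Type := MvPolynomial (Fin 3) KK

/-- the differentials of the coordinates of the generic point -/
lemma exists_Th : ∃ Th : Fin 2 → (MvPolynomial (Fin 3) KK →ₐ[ℂ]
      TrivSqZeroExt (MvPolynomial (Fin 3) KK) (MvPolynomial (Fin 3) KK)),
    (∀ i j, Th i (X j) = inl (X j)) ∧ (∀ i (x : KK), (Th i (C x)).fst = C x) ∧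
    (∀ j, Th 0 (C (tvec j)) = inl (C (tvec j)) +
      inr ((![0, 1, 0] : Fin 3 → MvPolynomial (Fin 3) KK) j)) ∧
    ∀ j, Th 1 (C (tvec j)) = inl (C (tvec j)) +
      inr ((![0, 0, 1] : Fin 3 → MvPolynomial (Fin 3) KK) j) := by
  choose Th h1 h2 h3 using fun i => exists_dual (K := KK) i
  have hone : ∀ i, Th i (C (tvec 0)) = inl (C (tvec 0)) := by
    intro i
    have h : (C (tvec 0) : MvPolynomial (Fin 3) KK) = 1 := by
      change C (1 : KK) = 1
      rw [C_1]
    rw [h, map_one, inl_one]
  refine ⟨Th, h1, h2, ?_, ?_⟩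
  · intro j
    fin_cases j
    · change Th 0 (C (tvec 0)) = inl (C (tvec 0)) + inr 0
      rw [hone, inr_zero, add_zero]
    · have := h3 0 0
      rw [Pi.single_eq_same] at this
      exact this
    · have := h3 0 1
      rw [Pi.single_eq_of_ne (by decide)] at this
      exact this
  · intro j
    fin_cases j
    · change Th 1 (C (tvec 0)) = inl (C (tvec 0)) + inr 0
      rw [hone, inr_zero, add_zero]
    · have := h3 1 0
      rw [Pi.single_eq_of_ne (by decide)] at this
      exact this
    · have := h3 1 1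
      rw [Pi.single_eq_same] at this
      exact this

/-- If the partial derivatives vanish at a point, the differential vanishes, and conversely. -/
lemma Data18.pderiv_of_dval {D : Data18} {R : Type*} [CommRing R] [Algebra ℂ R] {x y : Fin 3 → R}
    (h1 : ∀ v, D.dval x y v 0 = 0) (h2 : ∀ w, D.dval x y 0 w = 0) (i : Fin 6) :
    aeval ![x 0, x 1, x 2, y 0, y 1, y 2] (pderiv i D.form) = 0 := by
  have a0 := h1 ![1, 0, 0]
  have a1 := h1 ![0, 1, 0]
  have a2 := h1 ![0, 0, 1]
  have a3 := h2 ![1, 0, 0]
  have a4 := h2 ![0, 1, 0]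
  have a5 := h2 ![0, 0, 1]
  simp only [Data18.dval, Fin.sum_univ_six] at a0 a1 a2 a3 a4 a5
  simp at a0 a1 a2 a3 a4 a5
  fin_cases i
  · exact a0
  · exact a1
  · exact a2
  · exact a3
  · exact a4
  · exact a5

theorem sing_false {D : Data18} (hs : H925.IsSmooth D.form) {w : Fin 3 → ℂ} (hw : D.detX w ≠ 0)
    {M : Type} [Field M] [Algebra KK M] (ι : (Fin 3 → KK) ≃ₗ[KK] M) {c : CubeData KK M}
    (hX : D.IsCube ι c) {x0 : M} (hx0 : x0 ≠ 0) (h : ∀ y, c.surf (x0 + y) =
      Algebra.trace KK M ((c.β + c.b • x0) * adj KK y) + c.b * Algebra.norm KK y) : False := by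
  obtain ⟨S, hS1, hS2⟩ := exists_surfPoly ι h
  obtain ⟨Th, t1, t2, t3, t4⟩ := exists_Th
  set xh : Fin 3 → KK := ι.symm x0 with hxh
  set yh : Fin 3 → KK := D.star tvec xh with hyh
  have hev : ∀ x : Fin 3 → KK, ∀ p : RR, evC x p = eval x p := fun x p => evC_apply x p
  have hevX : ∀ x : Fin 3 → KK, (fun j => evC x (X j : RR)) = x := by
    intro x
    funext j
    rw [hev, eval_X]
  have hevt : ∀ x : Fin 3 → KK, (fun j => evC x (C (tvec j) : RR)) = tvec := by
    intro x
    funext j
    rw [hev, eval_C]
  have hevs : ∀ x : Fin 3 → KK, (fun k => evC x (D.star (fun j => (C (tvec j) : RR)) X k)) =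
      D.star tvec x := by
    intro x
    funext k
    rw [D.map_star, hevX, hevt]
  have hI : D.value (X : Fin 3 → RR) (D.star (fun j => C (tvec j)) X) = D.detX X * S := by
    apply MvPolynomial.funext
    intro x
    rw [map_mul, ← hev, ← hev, D.map_value, D.map_detX, hevX, hevs, hS1]
    exact hX x
  have hreg : ∀ z : RR, D.detX (X : Fin 3 → RR) * z = 0 → z = 0 := by
    intro z hz
    rcases mul_eq_zero.1 hz with h1 | h1
    · exfalso
      have h2 := congrArg (evC fun j => algebraMap ℂ KK (w j)) h1
      rw [D.map_detX, hevX, map_zero] at h2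
      have h3 : D.detX (fun j => algebraMap ℂ KK (w j)) = algebraMap ℂ KK (D.detX w) :=
        (D.map_detX (Algebra.ofId ℂ KK) w).symm
      rw [h3, map_eq_zero] at h2
      exact hw h2
    · exact h1
  obtain ⟨Eu, e1, e2⟩ := exists_hom_poly
    ((inlAlgHom ℂ RR RR).comp (IsScalarTower.toAlgHom ℂ KK RR)) (fun j => inl (X j) + inr (X j))
  have e2' : ∀ x, Eu (C x) = inl (C x) := e2
  have hder := D.dval_y (t := fun j => (C (tvec j) : RR)) (x := X) (S := S) (C_1) hI hreg
    (Th := Th) t1 t3 t4 e1 (fun j => e2' _)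
  -- vanishing of the derivatives of the equation
  have k1 : ∀ i, evC xh (Th i S).snd = 0 := by
    intro i
    have h1 := hS2 ((dualMap (evC xh : RR →+* KK)).comp (Th i : RR →+* TrivSqZeroExt RR RR)) (by
      intro j
      rw [RingHom.comp_apply, RingHom.comp_apply, fst_dualMap, fst_dualMap]
      change evC xh (Th i (X j)).fst = evC xh (Th i (C (xh j))).fst
      rw [t1, t2, fst_inl, hev, hev, eval_X, eval_C])
    have h2 := congrArg TrivSqZeroExt.snd h1
    rw [RingHom.comp_apply, snd_dualMap, snd_zero] at h2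
    exact h2
  have k2 : evC xh (Eu S).snd = 0 := by
    have h1 := hS2 ((dualMap (evC xh : RR →+* KK)).comp (Eu : RR →+* TrivSqZeroExt RR RR)) (by
      intro j
      rw [RingHom.comp_apply, RingHom.comp_apply, fst_dualMap, fst_dualMap]
      change evC xh (Eu (X j)).fst = evC xh (Eu (C (xh j))).fst
      rw [e1, e2', fst_add, fst_inl, fst_inr, add_zero, fst_inl, hev, hev, eval_X, eval_C])
    have h2 := congrArg TrivSqZeroExt.snd h1
    rw [RingHom.comp_apply, snd_dualMap, snd_zero] at h2
    exact h2
  have d2 : ∀ w' : Fin 3 → KK, D.dval xh yh 0 w' = 0 := by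
    intro w'
    have h1 := congrArg (evC xh) (hder (fun k => C (w' k)))
    rw [D.map_dval, hevX, hevs] at h1
    simp only [map_add, map_mul, map_sub, k1, k2, mul_zero, sub_zero, add_zero] at h1
    have h2 : (fun j => evC xh ((0 : Fin 3 → RR) j)) = 0 := by
      funext j
      exact map_zero _
    have h3 : (fun j => evC xh (C (w' j) : RR)) = w' := by
      funext j
      rw [hev, eval_C]
    rw [h2, h3] at h1
    exact h1
  have d1 : ∀ v : Fin 3 → KK, D.dval xh yh v 0 = 0 := by
    intro v
    obtain ⟨Φ, f1, f2⟩ := exists_hom_poly (inlAlgHom ℂ KK KK)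
      (fun j => (inl (xh j) + inr (v j) : TrivSqZeroExt KK KK))
    have f2' : ∀ x, Φ (C x) = inl x := f2
    have h1 : Φ S = 0 := by
      apply hS2 (Φ : RR →+* TrivSqZeroExt KK KK)
      intro j
      change (Φ (X j)).fst = (Φ (C (xh j))).fst
      rw [f1, f2', fst_add, fst_inl, fst_inr, add_zero]
    have h2 := congrArg Φ hI
    rw [map_mul, h1, mul_zero, D.map_value] at h2
    set z := fun k => Φ (D.star (fun j => (C (tvec j) : RR)) X k) with hz
    have h4 : z = fun k => (inl (yh k) + inr ((z k).snd) : TrivSqZeroExt KK KK) := by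
      funext k
      have h5 : (z k).fst = yh k := by
        have h6 : (z k).fst = (fstHom ℂ KK KK) (D.star (fun j => Φ (C (tvec j)))
            (fun j => Φ (X j)) k) := by
          rw [hz]
          simp only [D.map_star Φ]
          rfl
        rw [h6, D.map_star]
        congr 1
        · funext j
          rw [f2']
          rfl
        · funext j
          rw [f1]
          simp
      ext
      · simp [h5]
      · simp
    have h5 : (fun j => Φ (X j)) = fun j => (inl (xh j) + inr (v j) : TrivSqZeroExt KK KK) := by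
      funext j
      exact f1 j
    rw [h5, h4, D.value_dual] at h2
    have h6 := congrArg TrivSqZeroExt.snd h2
    simp only [snd_add, snd_inl, snd_inr, zero_add, snd_zero] at h6
    have h7 := D.dval_add xh yh v (fun k => (z k).snd) 0 (-fun k => (z k).snd)
    rw [h6, d2, add_zero, add_neg_cancel, add_zero] at h7
    exact h7
  have hP := smooth_K D.isHomogeneous_form hs (Data18.pderiv_of_dval d1 d2)
  apply hx0
  have hx : xh = 0 := by
    funext j
    fin_cases j
    · exact congrFun hP 0
    · exact congrFun hP 1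
    · exact congrFun hP 2
  have h1 : ι xh = 0 := by rw [hx, map_zero]
  rwa [hxh, LinearEquiv.apply_symm_apply] at h1

end Vale.Agent.P287.H3
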