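import Vale.Agent.P287.H3.Transfer
import Vale.Agent.P287.H3.Forms
import Vale.Agent.P287.H925.Irred

/-!
The cubic fourfold side.
-/

namespace Vale.Agent.P287.H3

open MvPolynomial

variable {K M Ω : Type} [Field K] [Field M] [Field Ω] [Algebra K M]
  [Algebra K Ω] [Algebra ℂ K] [Algebra ℂ Ω] [IsScalarTower ℂ K Ω]

/-- evaluation as a homomorphism of complex algebras -/
noncomputable def evC {n : ℕ} (x : Fin n → Ω) : MvPolynomial (Fin n) Ω →ₐ[ℂ] Ω :=
  (aeval x : MvPolynomial (Fin n) Ω →ₐ[Ω] Ω).restrictScalars ℂ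

omit [IsScalarTower ℂ K Ω] [Algebra ℂ K] in
lemma evC_apply {n : ℕ} (x : Fin n → Ω) (p : MvPolynomial (Fin n) Ω) : evC x p = eval x p := by
  rw [evC, AlgHom.restrictScalars_apply, ← H925.eval_eq_aeval]

theorem value_identity (D : Data18) {t : Fin 3 → K} {c : CubeData K M} (e : Emb K M Ω)
    (ι : (Fin 3 → K) ≃ₗ[K] M) [Infinite K]
    (hX : ∀ x : Fin 3 → K, D.value x (D.star t x) = D.detX x * c.surf (ι x)) (x : Fin 3 → Ω) :
    D.value x (D.star (fun j => algebraMap K Ω (t j)) x) =
      D.detX x * (e.cube c).G (e.io ι x) := by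
  set p : MvPolynomial (Fin 3) Ω := D.value X (D.star (fun j => C (algebraMap K Ω (t j))) X)
    with hp
  set q : MvPolynomial (Fin 3) Ω := D.detX X * e.Gpoly ι c with hq
  have hev : ∀ w : Fin 3 → Ω, evC w p = D.value w (D.star (fun j => algebraMap K Ω (t j)) w) := by
    intro w
    rw [hp, D.map_value]
    congr 1
    · funext j
      simp [evC_apply]
    · funext j
      rw [D.map_star]
      congr 1
      · funext j
        simp [evC_apply]
      · funext j
        simp [evC_apply]
  have hevq : ∀ w : Fin 3 → Ω, evC w q = D.detX w * (e.cube c).G (e.io ι w) := by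
    intro w
    rw [hq, map_mul, D.map_detX, evC_apply w (e.Gpoly ι c), e.eval_Gpoly]
    congr 2
    funext j
    simp [evC_apply]
  have hpq : p = q := by
    apply ext_poly (K := K)
    intro v
    rw [← evC_apply, ← evC_apply, hev, hevq, e.io_algebraMap, e.G_vec]
    have h1 := congrArg (algebraMap K Ω) (hX v)
    rw [map_mul] at h1
    have h2 : algebraMap K Ω (D.value v (D.star t v)) =
        D.value (fun j => algebraMap K Ω (v j))
          (D.star (fun j => algebraMap K Ω (t j)) (fun j => algebraMap K Ω (v j))) := by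
      have h3 := D.map_value (IsScalarTower.toAlgHom ℂ K Ω) v (D.star t v)
      have h4 : ∀ k, algebraMap K Ω (D.star t v k) =
          D.star (fun j => algebraMap K Ω (t j)) (fun j => algebraMap K Ω (v j)) k := by
        intro k
        exact D.map_star (IsScalarTower.toAlgHom ℂ K Ω) t v k
      simp only [IsScalarTower.toAlgHom_apply, h4] at h3
      exact h3
    have h5 : algebraMap K Ω (D.detX v) = D.detX (fun j => algebraMap K Ω (v j)) :=
      D.map_detX (IsScalarTower.toAlgHom ℂ K Ω) v
    rw [h2, h5] at h1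
    exact h1
  rw [← hev, ← hevq, hpq]

end Vale.Agent.P287.H3
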