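import Vale.Agent.P287.H3.DualStar
import Vale.Agent.P287.H3.XSide

/-!
The generic fibre of a smooth cubic fourfold has no singular point off the origin.
-/

namespace Vale.Agent.P287.H3

open MvPolynomial TrivSqZeroExt Matrix

lemma fst_zero_mul {R : Type*} [CommRing R] {a b : TrivSqZeroExt R R} (ha : a.fst = 0)
    (hb : b.fst = 0) : a * b = 0 := by
  ext
  · simp [ha]
  · simp [ha, hb]

/-- the equation of a cubic surface with a singular point -/
theorem exists_surfPoly {K M : Type*} [Field K] [Field M] [Algebra K M]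
    (ι : (Fin 3 → K) ≃ₗ[K] M) {c : CubeData K M} {x0 : M}
    (h : ∀ y, c.surf (x0 + y) =
      Algebra.trace K M ((c.β + c.b • x0) * adj K y) + c.b * Algebra.norm K y) :
    ∃ S : MvPolynomial (Fin 3) K, (∀ x, eval x S = c.surf (ι x)) ∧
      ∀ Φ : MvPolynomial (Fin 3) K →+* TrivSqZeroExt K K,
        (∀ j, (Φ (X j)).fst = (Φ (C (ι.symm x0 j))).fst) → Φ S = 0 := by
  have h3 : Module.finrank K M = 3 := by
    rw [← ι.finrank_eq]; simp
  have hfd : FiniteDimensional K M := FiniteDimensional.of_finrank_pos (by omega)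
  set bs := Module.Basis.ofEquivFun ι.symm with hbs
  set ρ : M →ₐ[K] Matrix (Fin 3) (Fin 3) K := Algebra.leftMulMatrix bs with hρ
  set Y : Matrix (Fin 3) (Fin 3) (MvPolynomial (Fin 3) K) :=
    Matrix.of fun k l => ∑ j, (X j - C (ι.symm x0 j)) * C (ρ (ι (Pi.single j 1)) k l) with hY
  refine ⟨∑ k, ∑ l, C (ρ (c.β + c.b • x0) k l) * Y.adjugate l k + C c.b * Y.det, ?_, ?_⟩
  · intro x
    have hYx : (eval x).mapMatrix Y = ρ (ι x - x0) := by
      have h1 : ι x - x0 = ∑ j, (x j - ι.symm x0 j) • ι (Pi.single j 1) := by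
        have h2 : ι x - x0 = ι (x - ι.symm x0) := by
          rw [map_sub, LinearEquiv.apply_symm_apply]
        rw [h2]
        conv_lhs => rw [pi_eq_sum_univ (x - ι.symm x0)]
        rw [map_sum]
        refine Finset.sum_congr rfl fun j _ => ?_
        rw [map_smul]
        congr 2
        funext k
        rw [Pi.single_apply]
        simp only [eq_comm]
      rw [h1, map_sum]
      ext k l
      simp [hY, Matrix.sum_apply]
    have h1 : ∀ k l, eval x (Y.adjugate k l) = ρ (adj K (ι x - x0)) k l := by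
      intro k l
      rw [← adjugate_rho ρ h3 hfd, ← hYx, ← RingHom.map_adjugate]
      rfl
    have h2 : eval x Y.det = Algebra.norm K (ι x - x0) := by
      rw [RingHom.map_det, hYx, det_rho ρ h3 hfd]
    have h4 : c.surf (ι x) = c.surf (x0 + (ι x - x0)) := by
      congr 1
      ring
    rw [h4, h, map_add, map_mul, h2, eval_C, map_sum, Algebra.trace_eq_matrix_trace bs]
    congr 1
    change _ = Matrix.trace (ρ ((c.β + c.b • x0) * adj K (ι x - x0)))
    rw [map_mul, Matrix.trace]
    refine Finset.sum_congr rfl fun k _ => ?_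
    rw [map_sum, Matrix.diag_apply, Matrix.mul_apply]
    refine Finset.sum_congr rfl fun l _ => ?_
    rw [map_mul, eval_C, h1]
  · intro Φ hΦ
    have hz : ∀ k l, ((Φ.mapMatrix Y) k l).fst = 0 := by
      intro k l
      have h1 : (Φ.mapMatrix Y) k l =
          ∑ j, (Φ (X j) - Φ (C (ι.symm x0 j))) * Φ (C (ρ (ι (Pi.single j 1)) k l)) := by
        simp [hY]
      rw [h1, TrivSqZeroExt.fst_sum]
      refine Finset.sum_eq_zero fun j _ => ?_
      rw [TrivSqZeroExt.fst_mul, TrivSqZeroExt.fst_sub, hΦ, sub_self, zero_mul]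
    have hz2 : ∀ k l k' l', (Φ.mapMatrix Y) k l * (Φ.mapMatrix Y) k' l' = 0 := fun k l k' l' =>
      fst_zero_mul (hz k l) (hz k' l')
    have h1 : ∀ k l, Φ (Y.adjugate k l) = 0 := by
      intro k l
      have h2 : Φ (Y.adjugate k l) = (Φ.mapMatrix Y).adjugate k l := by
        rw [← RingHom.map_adjugate]
        rfl
      rw [h2]
      generalize Φ.mapMatrix Y = Z at hz2
      rw [Matrix.adjugate_fin_three]
      fin_cases k <;> fin_cases l <;> simp [hz2]
    have h2 : Φ Y.det = 0 := by
      rw [RingHom.map_det]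
      generalize Φ.mapMatrix Y = Z at hz2
      rw [Matrix.det_fin_three]
      simp [hz2]
    rw [map_add, map_mul, h2, mul_zero, add_zero, map_sum]
    refine Finset.sum_eq_zero fun k _ => ?_
    rw [map_sum]
    refine Finset.sum_eq_zero fun l _ => ?_
    rw [map_mul, h1, mul_zero]

lemma exists_hom_poly {K B : Type*} [Field K] [Algebra ℂ K] [CommRing B] [Algebra ℂ B]
    (g : K →ₐ[ℂ] B) (v : Fin 3 → B) :
    ∃ Φ : MvPolynomial (Fin 3) K →ₐ[ℂ] B, (∀ j, Φ (X j) = v j) ∧ ∀ x, Φ (C x) = g x := by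
  refine ⟨{ toRingHom := eval₂Hom g.toRingHom v, commutes' := ?_ }, ?_, ?_⟩
  · intro r
    have h1 : algebraMap ℂ (MvPolynomial (Fin 3) K) r = C (algebraMap ℂ K r) := rfl
    rw [h1]
    change eval₂Hom g.toRingHom v (C _) = _
    rw [eval₂Hom_C]
    exact g.commutes r
  · intro j
    change eval₂Hom g.toRingHom v (X j) = _
    rw [eval₂Hom_X']
  · intro x
    change eval₂Hom g.toRingHom v (C x) = _
    rw [eval₂Hom_C]
    rfl

end Vale.Agent.P287.H3
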