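import Vale.Agent.P287.H3.Defs
import Vale.Agent.P287.H925.Defs

/-!
Cubic fourfolds `∑ lᵢ qᵢ + a det(Aᵢᵀ x) + b det(Aᵢ y)`, nets of type `G₂`, and their cubes.
-/

namespace Vale.Agent.P287.H3

open MvPolynomial

/-- The function field `K = ℂ(s₀, s₁)` of the projective plane. -/
abbrev KK : Type := FractionRing (MvPolynomial (Fin 2) ℂ)

/-- The generic point `t = (1, s₀, s₁)` of the projective plane. -/
noncomputable def tvec : Fin 3 → KK :=
  ![1, algebraMap (MvPolynomial (Fin 2) ℂ) KK (X 0), algebraMap (MvPolynomial (Fin 2) ℂ) KK (X 1)]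

/-- The data of a cubic form `∑ᵢ lᵢ(x, y) xᵀAᵢy + a det(A₀ᵀx, A₁ᵀx, A₂ᵀx) + b det(A₀y, A₁y, A₂y)`
in the six variables `x, y`, with `lᵢ(x, y) = ∑ⱼ αᵢⱼ xⱼ + ∑ⱼ βᵢⱼ yⱼ`. -/
structure Data18 where
  A : Fin 3 → Matrix (Fin 3) (Fin 3) ℂ
  α : Fin 3 → Fin 3 → ℂ
  β : Fin 3 → Fin 3 → ℂ
  a : ℂ
  b : ℂ

/-- cross product -/
def cross {R : Type*} [CommRing R] (u v : Fin 3 → R) : Fin 3 → R :=
  ![u 1 * v 2 - u 2 * v 1, u 2 * v 0 - u 0 * v 2, u 0 * v 1 - u 1 * v 0]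

/-- dot product -/
def dot {R : Type*} [CommRing R] (u v : Fin 3 → R) : R := u 0 * v 0 + u 1 * v 1 + u 2 * v 2

/-- determinant of three vectors -/
def det3 {R : Type*} [CommRing R] (u v w : Fin 3 → R) : R := dot u (cross v w)

namespace Data18

variable (D : Data18) {R : Type*} [CommRing R] [Algebra ℂ R]

/-- the vector `Aᵢᵀ x` -/
def left (i : Fin 3) (x : Fin 3 → R) : Fin 3 → R :=
  fun k => ∑ j, algebraMap ℂ R (D.A i j k) * x j

/-- the vector `Aᵢ y` -/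
def right (i : Fin 3) (y : Fin 3 → R) : Fin 3 → R :=
  fun j => ∑ k, algebraMap ℂ R (D.A i j k) * y k

/-- the linear form `lᵢ` -/
def l (i : Fin 3) (x y : Fin 3 → R) : R :=
  ∑ j, (algebraMap ℂ R (D.α i j) * x j + algebraMap ℂ R (D.β i j) * y j)

/-- `det(A₀ᵀx, A₁ᵀx, A₂ᵀx)` -/
def detX (x : Fin 3 → R) : R := det3 (D.left 0 x) (D.left 1 x) (D.left 2 x)

/-- `det(A₀y, A₁y, A₂y)` -/
def detY (y : Fin 3 → R) : R := det3 (D.right 0 y) (D.right 1 y) (D.right 2 y)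

/-- The value of the cubic form at `(x, y)`. -/
def value (x y : Fin 3 → R) : R :=
  ∑ i, D.l i x y * dot (D.left i x) y + algebraMap ℂ R D.a * D.detX x +
    algebraMap ℂ R D.b * D.detY y

/-- The cubic form in six variables. -/
noncomputable def form : MvPolynomial (Fin 6) ℂ := D.value ![X 0, X 1, X 2] ![X 3, X 4, X 5]

/-- The plane cubic curve `det(X₀ A₀ + X₁ A₁ + X₂ A₂)` of the net of bilinear forms. -/
noncomputable def plane : MvPolynomial (Fin 3) ℂ :=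
  (Matrix.of fun j k => ∑ i, X i * C (D.A i j k)).det

/-- For `t` in the plane, the vector `y` with `xᵀ Aᵢ y = tᵢ det(A₀ᵀx, A₁ᵀx, A₂ᵀx)`. -/
def star (t x : Fin 3 → R) : Fin 3 → R :=
  fun k => t 0 * cross (D.left 1 x) (D.left 2 x) k + t 1 * cross (D.left 2 x) (D.left 0 x) k +
    t 2 * cross (D.left 0 x) (D.left 1 x) k

/-- The cube `c` over the cubic extension `M` of `K` describes the generic fibre
`(x, y) ↦ (xᵀ A₀ y : xᵀ A₁ y : xᵀ A₂ y) = t` of the cubic fourfold: a point `x` of `K³ = M` gives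
the point `(x, star t x)` over `t`, at which the cubic form is the product of `det(Aᵢᵀ x)` and
the equation of the cubic surface of the cube. -/
def IsCube {M : Type} [Field M] [Algebra KK M] (ι : (Fin 3 → KK) ≃ₗ[KK] M) (c : CubeData KK M) :
    Prop :=
  ∀ x : Fin 3 → KK, D.value x (D.star tvec x) = D.detX x * c.surf (ι x)

end Data18

/-- The data of a net of type `G₂`: for every `j` a binary cubic `f j`, a binary quadratic form
`g j`, a constant `h j`, a binary cubic `k j` and a constant `c j`. -/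
structure NetG2 where
  f : Fin 3 → Fin 4 → ℂ
  g : Fin 3 → Fin 3 → ℂ
  h : Fin 3 → ℂ
  k : Fin 3 → Fin 4 → ℂ
  c : Fin 3 → ℂ

/-- the Hessian of a binary cubic -/
def hess {R : Type*} [CommRing R] (n : Fin 4 → R) : Fin 3 → R :=
  ![n 0 * n 2 - n 1 ^ 2, n 0 * n 3 - n 1 * n 2, n 1 * n 3 - n 2 ^ 2]

/-- the cubic covariant of a binary cubic -/
def cov {R : Type*} [CommRing R] (n : Fin 4 → R) : Fin 4 → R :=
  ![n 0 ^ 2 * n 3 - 3 * n 0 * n 1 * n 2 + 2 * n 1 ^ 3,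
    n 0 * n 1 * n 3 - 2 * n 0 * n 2 ^ 2 + n 1 ^ 2 * n 2,
    -(n 0 * n 2 * n 3) + 2 * n 1 ^ 2 * n 3 - n 1 * n 2 ^ 2,
    -(n 0 * n 3 ^ 2) + 3 * n 1 * n 2 * n 3 - 2 * n 2 ^ 3]

namespace NetG2

variable (B : NetG2) {R : Type*} [CommRing R] [Algebra ℂ R]

/-- the first equation -/
def Phi1 (j : Fin 3) (n : Fin 4 → R) : R :=
  ∑ i, algebraMap ℂ R (B.f j i) * n i - algebraMap ℂ R (B.h j)

/-- the second equation -/
def Phi2 (j : Fin 3) (n : Fin 4 → R) : R :=
  algebraMap ℂ R (B.c j) + ∑ i, algebraMap ℂ R (B.k j i) * n i +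
    ∑ i, algebraMap ℂ R (B.g j i) * hess n i + ∑ i, algebraMap ℂ R (B.f j i) * cov n i

/-- The binary cubics `f j` are linearly independent and have no common zero. -/
def IsGeneral : Prop :=
  LinearIndependent ℂ B.f ∧
    ∀ a b : ℂ, (a ≠ 0 ∨ b ≠ 0) → ∃ j, ∑ i : Fin 4, B.f j i * a ^ (3 - (i : ℕ)) * b ^ (i : ℕ) ≠ 0

/-- The cube `c` over the cubic extension `N` of `K` describes the generic fibre
`{n : ∑ⱼ tⱼ Φ₁ⱼ(n) = ∑ⱼ tⱼ Φ₂ⱼ(n) = 0}` of the net: on the hyperplane of the first equation the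
second one is the equation of the cubic surface of the cube, in the coordinates
`(n₀, n₁, n₂)` of `K³ = N`. -/
def IsCube {N : Type} [Field N] [Algebra KK N] (ι : (Fin 3 → KK) ≃ₗ[KK] N) (c : CubeData KK N) :
    Prop :=
  ∀ n : Fin 4 → KK, ∑ j, tvec j * B.Phi1 j n = 0 →
    ∑ j, tvec j * B.Phi2 j n = c.surf (ι ![n 0, n 1, n 2])

end NetG2

/-- Similarity over `K` of the cubic forms in nine variables of two cubes. -/
def Similar {M N : Type} [Field M] [Field N] [Algebra KK M] [Algebra KK N] (c : CubeData KK M)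
    (c' : CubeData KK N) : Prop :=
  ∃ (φ : (N × N × N) ≃ₗ[KK] (M × M × M)) (r : KK), r ≠ 0 ∧
    ∀ u, c.normForm (φ u) = r * c'.normForm u

end Vale.Agent.P287.H3
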