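import Vale.Agent.P287.H3.KeyThm

/-!
Transcendence degree arguments through the matroid of algebraic independence.
-/

namespace Vale.Agent.P287.H3

open AlgebraicIndependent

variable {K Ω : Type*} [Field K] [Field Ω] [Algebra K Ω]

/-- The field of all elements algebraic over `K[s]`. -/
def CL (K : Type*) {Ω : Type*} [Field K] [Field Ω] [Algebra K Ω] (s : Set Ω) :
    IntermediateField K Ω where
  toSubalgebra := (Subalgebra.algebraicClosure (Algebra.adjoin K s) Ω).restrictScalars K
  inv_mem' := by
    intro x hx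
    exact IsAlgebraic.inv (R := Algebra.adjoin K s) hx

lemma mem_CL {s : Set Ω} {a : Ω} : a ∈ CL K s ↔ IsAlgebraic (Algebra.adjoin K s) a := Iff.rfl

lemma coe_CL (s : Set Ω) : (CL K s : Set Ω) = (matroid K Ω).closure s := by
  rw [matroid_closure_eq]
  rfl

lemma subset_CL (s : Set Ω) : s ⊆ CL K s := by
  intro a ha
  exact isAlgebraic_algebraMap (A := Ω) (by exact (⟨a, Algebra.subset_adjoin ha⟩ : Algebra.adjoin K s))

lemma algebraicClosure_le_CL (s : Set Ω) : algebraicClosure K Ω ≤ CL K s := by
  intro a ha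
  rw [mem_algebraicClosure_iff] at ha
  exact ha.extendScalars (FaithfulSMul.algebraMap_injective K (Algebra.adjoin K s))

lemma clo_le_CL (s : Ω) : clo K s ≤ CL K {s} := by
  refine sup_le (algebraicClosure_le_CL _) ?_
  rw [IntermediateField.adjoin_le_iff]
  exact subset_CL _

/-- `CL` is algebraically closed in `Ω`. -/
lemma mem_CL_of_isAlgebraic {s : Set Ω} {a : Ω} (h : IsAlgebraic (CL K s) a) : a ∈ CL K s := by
  have h1 : IsAlgebraic (Subalgebra.algebraicClosure (Algebra.adjoin K s) Ω) a := h
  exact h1.restrictScalars (Algebra.adjoin K s)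

lemma not_le_clo {E : IntermediateField K Ω} {y : Fin 2 → Ω} (hy : AlgebraicIndependent K y)
    (hyE : ∀ i, y i ∈ E) (s : Ω) : ¬ E ≤ clo K s := by
  intro h
  have h1 : Set.range y ⊆ (matroid K Ω).closure {s} := by
    rintro _ ⟨i, rfl⟩
    rw [← coe_CL]
    exact clo_le_CL s (h (hyE i))
  have h2 : (matroid K Ω).Indep (Set.range y) := hy.to_subtype_range
  have h3 := h2.encard_le_eRk_of_subset h1
  rw [Matroid.eRk_closure_eq] at h3
  have h4 := h3.trans ((matroid K Ω).eRk_le_encard {s})
  rw [Set.encard_singleton, ← Set.image_univ, hy.injective.encard_image] at h4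
  simp at h4

lemma indep_pair {E : IntermediateField K Ω} {y : Fin 2 → Ω} (hy : AlgebraicIndependent K y)
    (hyE : ∀ i, y i ∈ E) {x1 x2 : Ω} (h : E ≤ CL K {x1, x2}) :
    AlgebraicIndependent K ![x1, x2] := by
  have h1 : Set.range y ⊆ (matroid K Ω).closure {x1, x2} := by
    rintro _ ⟨i, rfl⟩
    rw [← coe_CL]
    exact h (hyE i)
  have h2 : (matroid K Ω).Indep (Set.range y) := hy.to_subtype_range
  have h3 := h2.encard_le_eRk_of_subset h1
  rw [Matroid.eRk_closure_eq] at h3
  rw [← Set.image_univ, hy.injective.encard_image] at h3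
  have h3' : (2 : ℕ∞) ≤ (matroid K Ω).eRk {x1, x2} := by simpa using h3
  have h4 := (matroid K Ω).eRk_le_encard {x1, x2}
  have hne : x1 ≠ x2 := by
    rintro rfl
    simp only [Set.pair_eq_singleton, Set.encard_singleton] at h4 h3'
    have := h3'.trans h4
    norm_num at this
  have h5 : ({x1, x2} : Set Ω).encard = 2 := Set.encard_pair hne
  have h6 : (matroid K Ω).Indep {x1, x2} := by
    rw [Matroid.indep_iff_eRk_eq_encard_of_finite (by simp)]
    rw [h5] at h4 ⊢
    exact le_antisymm h4 h3'
  rw [matroid_indep_iff] at h6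
  have h7 : Function.Injective ![x1, x2] := by
    intro i j hij
    fin_cases i <;> fin_cases j <;> simp_all
  have h8 : Set.range ![x1, x2] = {x1, x2} := by
    simp [Matrix.range_cons, Matrix.range_empty]
    rw [Set.pair_comm]
  rw [← h8] at h6
  exact AlgebraicIndependent.of_subtype_range h7 h6

end Vale.Agent.P287.H3
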