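import Vale.Agent.P287.H3.XCube
import Vale.Agent.P287.H3.XRat

/-!
Existence of the cube of a cubic fourfold.
-/

namespace Vale.Agent.P287.H3

open Matrix

lemma adjugate_of_mul_eq_one {K : Type*} [Field K] {A B : Matrix (Fin 3) (Fin 3) K}
    (h : A * B = 1) : A.adjugate = A.det • B := by
  have h1 : A.adjugate * A * B = A.det • B := by
    rw [Matrix.adjugate_mul, Matrix.smul_mul, Matrix.one_mul]
  rw [Matrix.mul_assoc, h, Matrix.mul_one] at h1
  exact h1

section

variable {K M : Type*} [Field K] [Field M] [Algebra K M] (ρ : M →ₐ[K] Matrix (Fin 3) (Fin 3) K)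

/-- the orbit map -/
def orb : M →ₗ[K] (Fin 3 → K) where
  toFun m := ρ m *ᵥ ![1, 0, 0]
  map_add' a b := by rw [map_add, Matrix.add_mulVec]
  map_smul' r a := by rw [map_smul, Matrix.smul_mulVec]; rfl

lemma orb_injective : Function.Injective (orb ρ) := by
  rw [injective_iff_map_eq_zero]
  intro m hm
  by_contra h0
  have hm' : ρ m *ᵥ ![1, 0, 0] = 0 := hm
  have h1 : ρ m⁻¹ *ᵥ (ρ m *ᵥ ![1, 0, 0]) = ![1, 0, 0] := by
    rw [Matrix.mulVec_mulVec, ← map_mul, inv_mul_cancel₀ h0, map_one, Matrix.one_mulVec]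
  rw [hm', Matrix.mulVec_zero] at h1
  have h2 := congrFun h1 0
  simp at h2

variable (h3 : Module.finrank K M = 3)

/-- the coordinates -/
noncomputable def iot (hfd : FiniteDimensional K M) : (Fin 3 → K) ≃ₗ[K] M :=
  (LinearMap.linearEquivOfInjective (orb ρ) (orb_injective ρ) (by rw [h3]; simp)).symm

lemma orb_iot (hfd : FiniteDimensional K M) (x : Fin 3 → K) : orb ρ (iot ρ h3 hfd x) = x := by
  have h := (LinearMap.linearEquivOfInjective (orb ρ) (orb_injective ρ)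
    (by rw [h3]; simp)).apply_symm_apply x
  exact h

include h3 in
lemma det_rho (hfd : FiniteDimensional K M) (m : M) : (ρ m).det = Algebra.norm K m := by
  let ψ := LinearMap.linearEquivOfInjective (orb ρ) (orb_injective ρ) (by rw [h3]; simp)
  have h1 : Matrix.toLin' (ρ m) = ψ.toLinearMap ∘ₗ (LinearMap.mul K M m) ∘ₗ ψ.symm.toLinearMap := by
    apply LinearMap.ext
    intro x
    obtain ⟨n, rfl⟩ := ψ.surjective x
    rw [LinearMap.comp_apply, LinearMap.comp_apply, LinearEquiv.coe_coe, LinearEquiv.coe_coe,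
      LinearEquiv.symm_apply_apply, Matrix.toLin'_apply]
    change ρ m *ᵥ (ρ n *ᵥ ![1, 0, 0]) = ρ (m * n) *ᵥ ![1, 0, 0]
    rw [map_mul, Matrix.mulVec_mulVec]
  rw [← LinearMap.det_toLin', h1, LinearMap.det_conj]
  rfl

include h3 in
lemma adjugate_rho (hfd : FiniteDimensional K M) (m : M) : (ρ m).adjugate = ρ (adj K m) := by
  by_cases hm : m = 0
  · subst hm
    have h1 : adj K (0 : M) = 0 := by simp [adj]
    rw [h1, map_zero]
    ext i j
    fin_cases i <;> fin_cases j <;> simp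
  · have h1 : ρ m * ρ m⁻¹ = 1 := by rw [← map_mul, mul_inv_cancel₀ hm, map_one]
    rw [adjugate_of_mul_eq_one h1, det_rho ρ h3 hfd, adj, map_mul, AlgHom.commutes,
      Algebra.smul_def]

/-- the action on the second factor -/
noncomputable def rhoY (B2 : Matrix (Fin 3) (Fin 3) K) (m : M) : Matrix (Fin 3) (Fin 3) K :=
  B2⁻¹ * (ρ m)ᵀ * B2

variable {B1 B2 : Matrix (Fin 3) (Fin 3) K} (hB2 : IsUnit B2.det) {u : M}
  (hB1 : B1ᵀ = -(B2ᵀ * ρ u))

include hB2 in
lemma B2_rhoY (m : M) : B2 * rhoY ρ B2 m = (ρ m)ᵀ * B2 := by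
  rw [rhoY, ← Matrix.mul_assoc, ← Matrix.mul_assoc, Matrix.mul_nonsing_inv _ hB2, Matrix.one_mul]

include hB1 in
lemma B1_eq : B1 = -((ρ u)ᵀ * B2) := by
  have h1 := congrArg transpose hB1
  rwa [transpose_transpose, transpose_neg, transpose_mul, transpose_transpose] at h1

include hB2 hB1 in
lemma B1_rhoY (m : M) : B1 * rhoY ρ B2 m = (ρ m)ᵀ * B1 := by
  rw [B1_eq ρ hB1, Matrix.neg_mul, Matrix.mul_assoc, B2_rhoY ρ hB2, Matrix.mul_neg,
    ← Matrix.mul_assoc, ← Matrix.mul_assoc, ← transpose_mul, ← transpose_mul, ← map_mul, ← map_mul,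
    mul_comm]

include hB2 h3 in
lemma adjugate_rhoY (hfd : FiniteDimensional K M) (m : M) :
    (rhoY ρ B2 m).adjugate = rhoY ρ B2 (adj K m) := by
  by_cases hm : m = 0
  · subst hm
    have h1 : adj K (0 : M) = 0 := by simp [adj]
    have h2 : rhoY ρ B2 (0 : M) = 0 := by simp [rhoY]
    rw [h1, h2]
    ext i j
    fin_cases i <;> fin_cases j <;> simp
  · have h1 : rhoY ρ B2 m * rhoY ρ B2 m⁻¹ = 1 := by
      rw [rhoY, rhoY]
      calc B2⁻¹ * (ρ m)ᵀ * B2 * (B2⁻¹ * (ρ m⁻¹)ᵀ * B2)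
          = B2⁻¹ * (ρ m)ᵀ * (B2 * B2⁻¹) * (ρ m⁻¹)ᵀ * B2 := by simp only [Matrix.mul_assoc]
        _ = B2⁻¹ * ((ρ m)ᵀ * (ρ m⁻¹)ᵀ) * B2 := by
          rw [Matrix.mul_nonsing_inv _ hB2, Matrix.mul_one]; simp only [Matrix.mul_assoc]
        _ = 1 := by
          rw [← transpose_mul, ← map_mul, inv_mul_cancel₀ hm, map_one, transpose_one,
            Matrix.mul_one, Matrix.nonsing_inv_mul _ hB2]
    have h2 : (rhoY ρ B2 m).det = Algebra.norm K m := by
      rw [rhoY, det_mul, det_mul, det_transpose, det_rho ρ h3 hfd]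
      have h4 : (B2⁻¹).det * B2.det = 1 := by
        rw [← det_mul, Matrix.nonsing_inv_mul _ hB2, det_one]
      linear_combination (Algebra.norm K m) * h4
    rw [adjugate_of_mul_eq_one h1, h2, adj, rhoY, rhoY, map_mul, AlgHom.commutes,
      ← Algebra.smul_def, transpose_smul, Matrix.mul_smul, Matrix.smul_mul]

end

end Vale.Agent.P287.H3
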