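import Vale.Agent.P287.H3.XCube2

/-!
Existence of the cube of a cubic fourfold, conclusion.
-/

namespace Vale.Agent.P287.H3

open Matrix

namespace Data18

variable (D : Data18)

/-- the matrices over the function field of the plane -/
noncomputable def mat (i : Fin 3) : Matrix (Fin 3) (Fin 3) KK := (D.A i).map (algebraMap ℂ KK)

/-- `A₁ - s₀ A₀` -/
noncomputable def B1 : Matrix (Fin 3) (Fin 3) KK := D.mat 1 - tvec 1 • D.mat 0

/-- `A₂ - s₁ A₀` -/
noncomputable def B2 : Matrix (Fin 3) (Fin 3) KK := D.mat 2 - tvec 2 • D.mat 0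

lemma B1T_mulVec (x : Fin 3 → KK) (k : Fin 3) :
    ((D.B1)ᵀ *ᵥ x) k = D.left 1 x k - tvec 1 * D.left 0 x k := by
  simp [B1, mat, left, Matrix.mulVec, dotProduct, Fin.sum_univ_three]
  ring

lemma B2T_mulVec (x : Fin 3 → KK) (k : Fin 3) :
    ((D.B2)ᵀ *ᵥ x) k = D.left 2 x k - tvec 2 * D.left 0 x k := by
  simp [B2, mat, left, Matrix.mulVec, dotProduct, Fin.sum_univ_three]
  ring

lemma B1_mulVec (y : Fin 3 → KK) (k : Fin 3) :
    ((D.B1) *ᵥ y) k = D.right 1 y k - tvec 1 * D.right 0 y k := by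
  simp [B1, mat, right, Matrix.mulVec, dotProduct, Fin.sum_univ_three]
  ring

lemma B2_mulVec (y : Fin 3 → KK) (k : Fin 3) :
    ((D.B2) *ᵥ y) k = D.right 2 y k - tvec 2 * D.right 0 y k := by
  simp [B2, mat, right, Matrix.mulVec, dotProduct, Fin.sum_univ_three]
  ring

lemma tvec_zero : tvec 0 = 1 := rfl

lemma star_eq (x : Fin 3 → KK) :
    D.star tvec x = cross ((D.B1)ᵀ *ᵥ x) ((D.B2)ᵀ *ᵥ x) := by
  funext k
  fin_cases k <;> simp only [star, cross, B1T_mulVec, B2T_mulVec, tvec_zero] <;> simp <;> ring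

/-- the transposed construction -/
noncomputable def starY (y : Fin 3 → KK) : Fin 3 → KK := cross (D.B1 *ᵥ y) (D.B2 *ᵥ y)

lemma dot_left_right {R : Type*} [CommRing R] [Algebra ℂ R] (i : Fin 3) (x y : Fin 3 → R) :
    dot (D.left i x) y = dot x (D.right i y) := by
  simp [dot, left, right, Fin.sum_univ_three]
  ring

lemma dot_starY (y : Fin 3 → KK) : dot (D.starY y) (D.right 0 y) = D.detY y := by
  simp only [starY, detY, det3, dot, cross, B1_mulVec, B2_mulVec]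
  simp
  ring

variable {M : Type} [Field M] [Algebra KK M] (ρ : M →ₐ[KK] Matrix (Fin 3) (Fin 3) KK)
  (h3 : Module.finrank KK M = 3) (hfd : FiniteDimensional KK M) (hB2 : IsUnit D.B2.det) {u : M}
  (hB1 : (D.B1)ᵀ = -((D.B2)ᵀ * ρ u))

include h3 hfd hB2 hB1 in
lemma star_orb (m : M) : D.star tvec (orb ρ m) =
    rhoY ρ D.B2 (adj KK m) *ᵥ D.star tvec ![1, 0, 0] := by
  have e1 : (D.B1)ᵀ *ᵥ orb ρ m = (rhoY ρ D.B2 m)ᵀ *ᵥ ((D.B1)ᵀ *ᵥ ![1, 0, 0]) := by
    change (D.B1)ᵀ *ᵥ (ρ m *ᵥ ![1, 0, 0]) = _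
    rw [Matrix.mulVec_mulVec, Matrix.mulVec_mulVec, ← transpose_mul, B1_rhoY ρ hB2 hB1,
      transpose_mul, transpose_transpose]
  have e2 : (D.B2)ᵀ *ᵥ orb ρ m = (rhoY ρ D.B2 m)ᵀ *ᵥ ((D.B2)ᵀ *ᵥ ![1, 0, 0]) := by
    change (D.B2)ᵀ *ᵥ (ρ m *ᵥ ![1, 0, 0]) = _
    rw [Matrix.mulVec_mulVec, Matrix.mulVec_mulVec, ← transpose_mul, B2_rhoY ρ hB2,
      transpose_mul, transpose_transpose]
  rw [star_eq, star_eq, e1, e2, cross_mulVec, Matrix.adjugate_transpose, transpose_transpose,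
    adjugate_rhoY ρ h3 hB2 hfd]

include h3 hfd hB2 hB1 in
lemma starY_rhoY (m : M) (y : Fin 3 → KK) :
    D.starY (rhoY ρ D.B2 m *ᵥ y) = ρ (adj KK m) *ᵥ D.starY y := by
  have e1 : D.B1 *ᵥ (rhoY ρ D.B2 m *ᵥ y) = (ρ m)ᵀ *ᵥ (D.B1 *ᵥ y) := by
    rw [Matrix.mulVec_mulVec, Matrix.mulVec_mulVec, B1_rhoY ρ hB2 hB1]
  have e2 : D.B2 *ᵥ (rhoY ρ D.B2 m *ᵥ y) = (ρ m)ᵀ *ᵥ (D.B2 *ᵥ y) := by
    rw [Matrix.mulVec_mulVec, Matrix.mulVec_mulVec, B2_rhoY ρ hB2]
  rw [starY, starY, e1, e2, cross_mulVec, Matrix.adjugate_transpose, transpose_transpose,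
    adjugate_rho ρ h3 hfd]

lemma starY_base : D.starY (D.star tvec ![1, 0, 0]) =
    (D.starY (D.star tvec ![1, 0, 0]) 0) • ![1, 0, 0] := by
  set y0 := D.star tvec ![1, 0, 0] with hy0
  have e1 : (D.B1 *ᵥ y0) 0 = 0 := by
    have h1 : (D.B1 *ᵥ y0) 0 = dot ((D.B1)ᵀ *ᵥ ![1, 0, 0]) y0 := by
      simp [dot, Matrix.mulVec, dotProduct, Fin.sum_univ_three]
    rw [h1, hy0, star_eq]
    simp only [dot, cross]
    simp
    ring
  have e2 : (D.B2 *ᵥ y0) 0 = 0 := by
    have h1 : (D.B2 *ᵥ y0) 0 = dot ((D.B2)ᵀ *ᵥ ![1, 0, 0]) y0 := by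
      simp [dot, Matrix.mulVec, dotProduct, Fin.sum_univ_three]
    rw [h1, hy0, star_eq]
    simp only [dot, cross]
    simp
    ring
  funext k
  fin_cases k
  · simp
  · simp only [starY, cross]
    simp [e1, e2]
  · simp only [starY, cross]
    simp [e1, e2]

include h3 hfd hB2 hB1 in
lemma detY_orb (m : M) : D.detY (D.star tvec (orb ρ m)) =
    D.starY (D.star tvec ![1, 0, 0]) 0 * Algebra.norm KK m * D.detX (orb ρ m) := by
  have hb := D.starY_base
  generalize D.starY (D.star tvec ![1, 0, 0]) 0 = g0 at hb ⊢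
  have h1 : D.starY (D.star tvec (orb ρ m)) = (g0 * Algebra.norm KK m) • orb ρ m := by
    rw [D.star_orb ρ h3 hfd hB2 hB1, D.starY_rhoY ρ h3 hfd hB2 hB1, adj_adj h3, hb,
      map_mul, AlgHom.commutes, ← Algebra.smul_def, Matrix.mulVec_smul, Matrix.smul_mulVec,
      smul_smul]
    rfl
  rw [← dot_starY, h1]
  have h2 : dot ((g0 * Algebra.norm KK m) • orb ρ m)
      (D.right 0 (D.star tvec (orb ρ m))) =
      (g0 * Algebra.norm KK m) * dot (orb ρ m) (D.right 0 (D.star tvec (orb ρ m))) := by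
    simp only [dot, Pi.smul_apply, smul_eq_mul]
    ring
  rw [h2, ← dot_left_right, q_star, tvec_zero, one_mul]

end Data18

/-- The cube of a cubic fourfold exists as soon as the pencil is irreducible. -/
theorem exists_cube (D : Data18) (hirr : Irreducible (pencil D.B1 D.B2))
    (hdeg : (pencil D.B1 D.B2).natDegree = 3) :
    ∃ (M : Type) (_ : Field M) (_ : Algebra KK M) (ι : (Fin 3 → KK) ≃ₗ[KK] M) (c : CubeData KK M),
      c.a = algebraMap ℂ KK D.a ∧
      ∀ x : Fin 3 → KK, D.value x (D.star tvec x) = D.detX x * c.surf (ι x) := by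
  obtain ⟨M, i1, i2, h3, ρ, u, hB2, hB1⟩ := exists_rep hirr hdeg
  have hfd : FiniteDimensional KK M := FiniteDimensional.of_finrank_pos (by omega)
  have : CharZero KK := charZero_of_injective_algebraMap (algebraMap ℂ KK).injective
  -- the linear functionals
  let Λx : M →ₗ[KK] KK :=
    { toFun := fun m => ∑ i, tvec i * ∑ j, algebraMap ℂ KK (D.α i j) * orb ρ m j
      map_add' := by
        intro a b
        simp only [map_add, Pi.add_apply, Fin.sum_univ_three]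
        ring
      map_smul' := by
        intro r a
        simp only [map_smul, Pi.smul_apply, Fin.sum_univ_three, smul_eq_mul, RingHom.id_apply]
        ring }
  let Λy : M →ₗ[KK] KK :=
    { toFun := fun m => ∑ i, tvec i * ∑ j, algebraMap ℂ KK (D.β i j) *
        (rhoY ρ D.B2 m *ᵥ D.star tvec ![1, 0, 0]) j
      map_add' := by
        intro a b
        have h : rhoY ρ D.B2 (a + b) = rhoY ρ D.B2 a + rhoY ρ D.B2 b := by
          simp [rhoY, Matrix.mul_add, Matrix.add_mul]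
        simp only [h, Matrix.add_mulVec, Pi.add_apply, Fin.sum_univ_three]
        ring
      map_smul' := by
        intro r a
        have h : rhoY ρ D.B2 (r • a) = r • rhoY ρ D.B2 a := by
          simp [rhoY]
        simp only [h, Matrix.smul_mulVec, Pi.smul_apply, Fin.sum_univ_three, smul_eq_mul,
          RingHom.id_apply]
        ring }
  obtain ⟨α, hα⟩ := exists_trace_rep Λx
  obtain ⟨β, hβ⟩ := exists_trace_rep Λy
  refine ⟨M, i1, i2, iot ρ h3 hfd, ⟨algebraMap ℂ KK D.a, α, β,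
    algebraMap ℂ KK D.b * D.starY (D.star tvec ![1, 0, 0]) 0⟩, rfl, ?_⟩
  intro x
  set ξ := iot ρ h3 hfd x with hξ
  have hx : x = orb ρ ξ := (orb_iot ρ h3 hfd x).symm
  have h1 := D.star_orb ρ h3 hfd hB2 hB1 ξ
  have h2 := D.detY_orb ρ h3 hfd hB2 hB1 ξ
  have h4 : ∑ i, tvec i * D.l i x (D.star tvec x) = Λx ξ + Λy (adj KK ξ) := by
    change _ = ∑ i, tvec i * ∑ j, algebraMap ℂ KK (D.α i j) * orb ρ ξ j +
      ∑ i, tvec i * ∑ j, algebraMap ℂ KK (D.β i j) *
        (rhoY ρ D.B2 (adj KK ξ) *ᵥ D.star tvec ![1, 0, 0]) j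
    rw [← h1, ← hx]
    simp only [Data18.l, Fin.sum_univ_three]
    ring
  rw [hα, hβ] at h4
  have h5 : D.value x (D.star tvec x) = D.detX x * (∑ i, tvec i * D.l i x (D.star tvec x)) +
      algebraMap ℂ KK D.a * D.detX x + algebraMap ℂ KK D.b * D.detY (D.star tvec x) := by
    simp only [Data18.value, Data18.q_star, Fin.sum_univ_three]
    ring
  rw [h5, h4]
  rw [← hx] at h2
  rw [h2]
  simp only [CubeData.surf]
  ring

end Vale.Agent.P287.H3
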